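import Crest.Agent.R215.Defs

/-!
# Row 215, task AFF: affine independence of a critical configuration
-/

set_option autoImplicit false

open MeasureTheory ProbabilityTheory Set

noncomputable section

namespace Crest.Agent.R215

universe u

namespace AFF

variable {E : Type u} [NormedAddCommGroup E] [InnerProductSpace ℝ E] [FiniteDimensional ℝ E]
  [MeasurableSpace E] [BorelSpace E]

omit [BorelSpace E] in
theorem part1 (s : Finset ℕ) (z : ℕ → E) (hC : Crit s z) (lam : ℕ → ℝ)
    (h : ∑ i ∈ s, lam i • z i = 0) : ∀ i ∈ s, ∀ j ∈ s, lam i = lam j := by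
  have h1 : ∑ i ∈ s, ∑ j ∈ s, lam i * lam j * inner ℝ (z i) (z j) = 0 := by
    have h2 : (inner ℝ (∑ i ∈ s, lam i • z i) (∑ j ∈ s, lam j • z j) : ℝ) = 0 := by
      rw [h, inner_zero_left]
    rw [sum_inner] at h2
    rw [← h2]
    refine Finset.sum_congr rfl fun i _ => ?_
    rw [inner_sum]
    refine Finset.sum_congr rfl fun j _ => ?_
    rw [inner_smul_left, inner_smul_right]
    simp only [conj_trivial]
    ring
  have h3 : ∀ i ∈ s, ∑ j ∈ s, inner ℝ (z i) (z j) = (0 : ℝ) := by
    intro i _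
    rw [← inner_sum, hC.sum0, inner_zero_right]
  have h4 : ∑ i ∈ s, ∑ j ∈ s, -(inner ℝ (z i) (z j) * (lam i - lam j) ^ 2) = 0 := by
    have e : ∀ i j, -(inner ℝ (z i) (z j) * (lam i - lam j) ^ 2) =
        2 * (lam i * lam j * inner ℝ (z i) (z j)) - lam i ^ 2 * inner ℝ (z i) (z j) -
          lam j ^ 2 * inner ℝ (z j) (z i) := by
      intro i j
      rw [real_inner_comm (z i) (z j)]
      ring
    simp only [e]
    simp only [Finset.sum_sub_distrib, ← Finset.mul_sum]
    rw [h1]
    have e1 : ∑ i ∈ s, lam i ^ 2 * ∑ j ∈ s, inner ℝ (z i) (z j) = (0 : ℝ) :=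
      Finset.sum_eq_zero fun i hi => by rw [h3 i hi, mul_zero]
    have e2 : ∑ i ∈ s, ∑ j ∈ s, lam j ^ 2 * inner ℝ (z j) (z i) = (0 : ℝ) := by
      rw [Finset.sum_comm]
      refine Finset.sum_eq_zero fun j hj => ?_
      rw [← Finset.mul_sum, h3 j hj, mul_zero]
    rw [e1, e2]
    ring
  have hnn : ∀ i ∈ s, ∀ j ∈ s, 0 ≤ -(inner ℝ (z i) (z j) * (lam i - lam j) ^ 2) := by
    intro i hi j hj
    rcases eq_or_ne i j with rfl | hij
    · simp
    · have := hC.neg i hi j hj hij
      have h5 := mul_nonneg (neg_nonneg.2 this.le) (sq_nonneg (lam i - lam j))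
      linarith
  intro i hi j hj
  rcases eq_or_ne i j with rfl | hij
  · rfl
  have h6 := (Finset.sum_eq_zero_iff_of_nonneg fun i hi =>
    Finset.sum_nonneg fun j hj => hnn i hi j hj).1 h4 i hi
  have h7 := (Finset.sum_eq_zero_iff_of_nonneg fun j hj => hnn i hi j hj).1 h6 j hj
  have h8 := hC.neg i hi j hj hij
  have h9 : (lam i - lam j) ^ 2 = 0 := by
    rcases mul_eq_zero.1 (neg_eq_zero.1 h7) with h | h
    · exact absurd h h8.ne
    · exact h
  exact sub_eq_zero.1 (pow_eq_zero_iff (two_ne_zero) |>.1 h9)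

omit [BorelSpace E] in
theorem part2 (s : Finset ℕ) (z : ℕ → E) (hC : Crit s z) (i : ℕ) (hi : i ∈ s) :
    ∃ η : E, ∀ j ∈ s, j ≠ i → inner ℝ η (z i - z j) = 1 := by
  have hli : LinearIndependent ℝ (fun j : {j // j ∈ s.erase i} => z i - z (j : ℕ)) := by
    rw [Fintype.linearIndependent_iff]
    intro g hg
    set S := ∑ j, g j with hS
    set lam : ℕ → ℝ := fun j => if j = i then S else
      if h : j ∈ s.erase i then -g ⟨j, h⟩ else 0 with hlam
    have hli' : lam i = S := by rw [hlam]; simp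
    have hlj : ∀ j : {j // j ∈ s.erase i}, lam j = -g j := by
      intro j
      have hj := j.2
      have hne : (j : ℕ) ≠ i := (Finset.mem_erase.1 hj).1
      rw [hlam]
      simp only [hne, if_false]
      rw [dif_pos hj]
    have h0 : ∑ j ∈ s, lam j • z j = 0 := by
      rw [← Finset.add_sum_erase _ _ hi, hli', ← Finset.sum_coe_sort (s.erase i)]
      simp only [hlj]
      rw [← hg]
      simp only [smul_sub, Finset.sum_sub_distrib, neg_smul, Finset.sum_neg_distrib]
      rw [← Finset.sum_smul, ← hS]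
      abel
    have hall := part1 s z hC lam h0
    have hg' : ∀ j : {j // j ∈ s.erase i}, g j = -S := by
      intro j
      have h1 := hall i hi j (Finset.mem_erase.1 j.2).2
      rw [hli', hlj] at h1
      linarith
    have hS2 : S = -(Fintype.card {j // j ∈ s.erase i} : ℝ) * S := by
      conv_lhs => rw [hS]
      rw [Finset.sum_congr rfl fun j _ => hg' j, Finset.sum_const, nsmul_eq_mul]
      simp
    have hS0 : S = 0 := by
      have h2 : ((Fintype.card {j // j ∈ s.erase i} : ℝ) + 1) * S = 0 := by linarith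
      rcases mul_eq_zero.1 h2 with h | h
      · exfalso
        have : (0 : ℝ) ≤ (Fintype.card {j // j ∈ s.erase i} : ℝ) := Nat.cast_nonneg _
        linarith
      · exact h
    intro j
    rw [hg', hS0, neg_zero]
  obtain ⟨f, hf⟩ := ((Module.Basis.span hli).constr ℝ
    (fun _ : {j // j ∈ s.erase i} => (1 : ℝ))).exists_extend
  refine ⟨(InnerProductSpace.toDual ℝ E).symm (LinearMap.toContinuousLinearMap f), ?_⟩
  intro j hj hji
  rw [InnerProductSpace.toDual_symm_apply]
  have hjm : j ∈ s.erase i := Finset.mem_erase.2 ⟨hji, hj⟩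
  have hmem : z i - z j ∈ Submodule.span ℝ
      (Set.range fun j : {j // j ∈ s.erase i} => z i - z (j : ℕ)) :=
    Submodule.subset_span ⟨⟨j, hjm⟩, rfl⟩
  have h1 := LinearMap.congr_fun hf ⟨z i - z j, hmem⟩
  simp only [LinearMap.coe_comp, Function.comp, Submodule.subtype_apply] at h1
  have h2 : (⟨z i - z j, hmem⟩ : Submodule.span ℝ
      (Set.range fun j : {j // j ∈ s.erase i} => z i - z (j : ℕ))) =
      Module.Basis.span hli ⟨j, hjm⟩ := by
    ext
    rw [Module.Basis.span_apply]
  rw [h2, Module.Basis.constr_basis] at h1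
  rw [← h1]
  rfl

end AFF

open AFF in
theorem aff (E : Type u) [NormedAddCommGroup E] [InnerProductSpace ℝ E] [FiniteDimensional ℝ E]
    [MeasurableSpace E] [BorelSpace E] : StAff E :=
  fun s z hC => ⟨part1 s z hC, part2 s z hC⟩

end Crest.Agent.R215
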