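import Crest.Agent.R215.Lib1

/-!
# Row 215, task ARC: `∫_0^∞ Φ̄(σ) exp(-b σ²/2) dσ = φ(0) arctan(√b)/√b`
-/

set_option autoImplicit false

open MeasureTheory ProbabilityTheory Set Filter Topology

noncomputable section

namespace Crest.Agent.R215

namespace ARC

def H (b : ℝ) (σ u : ℝ) : ℝ := c0 * (σ * Real.exp (-((u ^ 2 + b) * σ ^ 2) / 2))

theorem step1 (b σ : ℝ) (hσ : 0 < σ) :
    ∫⁻ u in Ioi (1:ℝ), ENNReal.ofReal (H b σ u) =
      ENNReal.ofReal (Ph σ * Real.exp (-(b * σ ^ 2) / 2)) := by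
  have h0 : ∀ u, H b σ u = σ * Real.exp (-(b * σ ^ 2) / 2) * ph (σ * u) := by
    intro u
    unfold H ph
    rw [show -((u ^ 2 + b) * σ ^ 2) / 2 = -(b * σ ^ 2) / 2 + -((σ * u) ^ 2) / 2 by ring, Real.exp_add]
    ring
  have h1 : Integrable (fun u => σ * Real.exp (-(b * σ ^ 2) / 2) * ph (σ * u)) :=
    (ph_integrable.comp_mul_left' hσ.ne').const_mul _
  simp only [h0]
  rw [← ofReal_integral_eq_lintegral_ofReal h1.integrableOn
    (Eventually.of_forall fun u => by
      have := ph_pos (σ * u)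
      simp only [Pi.zero_apply]
      positivity)]
  congr 1
  rw [integral_const_mul, integral_comp_mul_left_Ioi ph 1 hσ, mul_one, ← Ph_eq_Ioi, smul_eq_mul]
  field_simp

theorem step2 (b u : ℝ) (hb : 0 < b) :
    ∫⁻ σ in Ioi (0:ℝ), ENNReal.ofReal (H b σ u) = ENNReal.ofReal (c0 / (u ^ 2 + b)) := by
  have ha : 0 < u ^ 2 + b := by positivity
  set a := u ^ 2 + b with hadef
  have hc := c0_pos
  have hd : ∀ σ ∈ Ioi (0:ℝ), HasDerivAt (fun σ : ℝ => -(c0 / a) * Real.exp (-(a * σ ^ 2) / 2))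
      (H b σ u) σ := by
    intro σ _
    have h8 : HasDerivAt (fun σ : ℝ => -(a * σ ^ 2) / 2) (-(a * σ)) σ := by
      have := (((hasDerivAt_pow 2 σ).const_mul a).fun_neg).div_const 2
      have e1 : -(a * (((2 : ℕ) : ℝ) * σ ^ (2 - 1))) / 2 = -(a * σ) := by norm_num; ring
      rw [e1] at this
      exact this
    have := (h8.exp).const_mul (-(c0 / a))
    have e1 : -(c0 / a) * (Real.exp (-(a * σ ^ 2) / 2) * -(a * σ)) = H b σ u := by
      unfold H
      rw [← hadef]
      field_simp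
    rw [e1] at this
    exact this
  have hcont : ContinuousWithinAt (fun σ : ℝ => -(c0 / a) * Real.exp (-(a * σ ^ 2) / 2)) (Ici 0) 0 := by
    apply Continuous.continuousWithinAt
    fun_prop
  have hpos : ∀ σ ∈ Ioi (0:ℝ), 0 ≤ H b σ u := by
    intro σ hσ
    unfold H
    have : 0 < σ := hσ
    positivity
  have htend : Tendsto (fun σ : ℝ => -(c0 / a) * Real.exp (-(a * σ ^ 2) / 2)) atTop (𝓝 0) := by
    have h1 : Tendsto (fun σ : ℝ => -(a * σ ^ 2) / 2) atTop atBot := by
      have h2 : Tendsto (fun σ : ℝ => (a / 2) * σ ^ 2) atTop atTop :=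
        (tendsto_pow_atTop two_ne_zero).const_mul_atTop (by positivity)
      have h3 := tendsto_neg_atTop_atBot.comp h2
      refine h3.congr fun σ => ?_
      simp only [Function.comp]
      ring
    have h4 := (Real.tendsto_exp_atBot.comp h1).const_mul (-(c0 / a))
    rw [mul_zero] at h4
    exact h4
  have hint := integrableOn_Ioi_deriv_of_nonneg hcont hd hpos htend
  have hval := integral_Ioi_of_hasDerivAt_of_nonneg hcont hd hpos htend
  rw [← ofReal_integral_eq_lintegral_ofReal hint, hval]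
  · congr 1
    simp
  · rw [EventuallyLE, ae_restrict_iff' measurableSet_Ioi]
    exact Eventually.of_forall hpos

theorem step3 (b : ℝ) (hb : 0 < b) :
    ∫⁻ u in Ioi (1:ℝ), ENNReal.ofReal (c0 / (u ^ 2 + b)) =
      ENNReal.ofReal (c0 * Real.arctan (Real.sqrt b) / Real.sqrt b) := by
  have hc := c0_pos
  set r := Real.sqrt b with hr
  have hr0 : 0 < r := Real.sqrt_pos.2 hb
  have hr2 : r ^ 2 = b := Real.sq_sqrt hb.le
  have hd : ∀ u ∈ Ioi (1:ℝ), HasDerivAt (fun u : ℝ => c0 * Real.arctan (u / r) / r)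
      (c0 / (u ^ 2 + b)) u := by
    intro u _
    have h1 : HasDerivAt (fun u : ℝ => u / r) (1 / r) u := (hasDerivAt_id u).div_const r
    have h2 := ((h1.arctan).const_mul c0).div_const r
    have e : c0 * (1 / (1 + (u / r) ^ 2) * (1 / r)) / r = c0 / (u ^ 2 + b) := by
      rw [← hr2]
      field_simp
      ring
    rw [e] at h2
    exact h2
  have hcont : ContinuousWithinAt (fun u : ℝ => c0 * Real.arctan (u / r) / r) (Ici 1) 1 := by
    apply Continuous.continuousWithinAt
    exact ((continuous_const.mul (Real.continuous_arctan.comp (continuous_id.div_const r))).div_const r)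
  have hpos : ∀ u ∈ Ioi (1:ℝ), 0 ≤ c0 / (u ^ 2 + b) := by
    intro u _
    positivity
  have htend : Tendsto (fun u : ℝ => c0 * Real.arctan (u / r) / r) atTop
      (𝓝 (c0 * (Real.pi / 2) / r)) := by
    have h1 : Tendsto (fun u : ℝ => Real.arctan (u / r)) atTop (𝓝 (Real.pi / 2)) :=
      (Real.tendsto_arctan_atTop.mono_right nhdsWithin_le_nhds).comp
        (tendsto_id.atTop_div_const hr0)
    exact (h1.const_mul c0).div_const r
  have hint := integrableOn_Ioi_deriv_of_nonneg hcont hd hpos htend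
  have hval := integral_Ioi_of_hasDerivAt_of_nonneg hcont hd hpos htend
  rw [← ofReal_integral_eq_lintegral_ofReal hint, hval]
  · congr 1
    have h5 := Real.arctan_inv_of_pos hr0
    rw [one_div, h5]
    ring
  · rw [EventuallyLE, ae_restrict_iff' measurableSet_Ioi]
    exact Eventually.of_forall hpos

end ARC

open ARC in
theorem arc : StArc := by
  intro b hb
  have hc := c0_pos
  have hm : Measurable (Function.uncurry fun σ u : ℝ => ENNReal.ofReal (H b σ u)) := by
    unfold H Function.uncurry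
    fun_prop
  have h1 : ∫⁻ σ in Ioi (0:ℝ), ENNReal.ofReal (Ph σ * Real.exp (-(b * σ ^ 2) / 2)) =
      ENNReal.ofReal (c0 * Real.arctan (Real.sqrt b) / Real.sqrt b) := by
    rw [← step3 b hb]
    have e1 : ∫⁻ σ in Ioi (0:ℝ), ENNReal.ofReal (Ph σ * Real.exp (-(b * σ ^ 2) / 2)) =
        ∫⁻ σ in Ioi (0:ℝ), ∫⁻ u in Ioi (1:ℝ), ENNReal.ofReal (H b σ u) :=
      setLIntegral_congr_fun measurableSet_Ioi fun σ hσ => (step1 b σ hσ).symm
    rw [e1, lintegral_lintegral_swap hm.aemeasurable]
    exact setLIntegral_congr_fun measurableSet_Ioi fun u _ => step2 b u hb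
  have hnn : ∀ σ, 0 ≤ Ph σ * Real.exp (-(b * σ ^ 2) / 2) := by
    intro σ
    have := Ph_pos σ
    positivity
  rw [integral_eq_lintegral_of_nonneg_ae (Eventually.of_forall hnn)
    (by exact (Ph_continuous.mul (by fun_prop)).aestronglyMeasurable), h1, ENNReal.toReal_ofReal]
  have : 0 ≤ Real.arctan (Real.sqrt b) := Real.arctan_nonneg.2 (Real.sqrt_nonneg b)
  positivity

end Crest.Agent.R215
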