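import Crest.Agent.R215.Defs

/-! Row 215, ARCH: Archimedes in `ℝ³` for the standard Gaussian. -/

set_option autoImplicit false

open MeasureTheory ProbabilityTheory Set

noncomputable section

namespace Crest.Agent.R215

namespace ARCH

theorem c0_sq : c0 * c0 = 1 / (2 * Real.pi) := by
  unfold c0
  have h : Real.sqrt (2 * Real.pi) * Real.sqrt (2 * Real.pi) = 2 * Real.pi :=
    Real.mul_self_sqrt (by positivity)
  rw [div_mul_div_comm, h, one_mul]

theorem c0_pos : 0 < c0 := by unfold c0; positivity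

theorem pdf (x : ℝ) : gaussianPDF 0 1 x = ENNReal.ofReal (ph x) := by
  unfold gaussianPDF gaussianPDFReal ph c0
  congr 1
  simp

theorem lint_g1 (f : ℝ → ENNReal) (hf : Measurable f) :
    ∫⁻ x, f x ∂g1 = ∫⁻ x, ENNReal.ofReal (ph x) * f x := by
  unfold g1
  rw [gaussianReal_of_var_ne_zero _ one_ne_zero,
    lintegral_withDensity_eq_lintegral_mul _ (measurable_gaussianPDF 0 1) hf]
  simp only [Pi.mul_apply, pdf]

theorem ph_nonneg (x : ℝ) : 0 ≤ ph x := by
  unfold ph; have := c0_pos; positivity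

theorem meas_ph : Measurable ph := by unfold ph; fun_prop

/-- polar coordinates for the planar Gaussian -/
theorem lint_g2 (H : ℝ → ENNReal) (hH : Measurable H) :
    ∫⁻ p, H (p.1 ^ 2 + p.2 ^ 2) ∂(g1.prod g1) =
      ∫⁻ r in Ioi (0:ℝ), ENNReal.ofReal (r * Real.exp (-(r ^ 2) / 2)) * H (r ^ 2) := by
  have hm := meas_ph
  rw [lintegral_prod _ (by fun_prop)]
  have e1 : ∫⁻ x, ∫⁻ y, H (x ^ 2 + y ^ 2) ∂g1 ∂g1 =
      ∫⁻ p : ℝ × ℝ, ENNReal.ofReal (ph p.1 * ph p.2) * H (p.1 ^ 2 + p.2 ^ 2) := by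
    rw [Measure.volume_eq_prod, lintegral_prod _ (by fun_prop), lint_g1 _ (by fun_prop)]
    congr 1
    ext x
    rw [lint_g1 _ (by fun_prop), ← lintegral_const_mul _ (by fun_prop)]
    congr 1
    ext y
    rw [ENNReal.ofReal_mul (ph_nonneg _), mul_assoc]
  rw [e1, ← lintegral_comp_polarCoord_symm, polarCoord_target, Measure.volume_eq_prod,
    ← Measure.prod_restrict, lintegral_prod _ (by
      apply Measurable.aemeasurable
      have : Measurable (polarCoord.symm : ℝ × ℝ → ℝ × ℝ) := by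
        have : (polarCoord.symm : ℝ × ℝ → ℝ × ℝ) = fun p => (p.1 * Real.cos p.2, p.1 * Real.sin p.2) := by
          ext p <;> simp
        rw [this]; fun_prop
      fun_prop)]
  apply setLIntegral_congr_fun measurableSet_Ioi
  intro r hr
  have hr' : (0:ℝ) < r := hr
  have e2 : ∀ θ : ℝ, ENNReal.ofReal (r, θ).1 • (ENNReal.ofReal (ph (polarCoord.symm (r, θ)).1 *
      ph (polarCoord.symm (r, θ)).2) * H ((polarCoord.symm (r, θ)).1 ^ 2 +
        (polarCoord.symm (r, θ)).2 ^ 2)) =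
      ENNReal.ofReal (c0 * c0 * (r * Real.exp (-(r ^ 2) / 2))) * H (r ^ 2) := by
    intro θ
    simp only [polarCoord_symm_apply, smul_eq_mul]
    have h1 : (r * Real.cos θ) ^ 2 + (r * Real.sin θ) ^ 2 = r ^ 2 := by
      have := Real.cos_sq_add_sin_sq θ
      calc _ = r ^ 2 * (Real.cos θ ^ 2 + Real.sin θ ^ 2) := by ring
        _ = _ := by rw [this, mul_one]
    rw [h1, ← mul_assoc, ← ENNReal.ofReal_mul hr'.le]
    congr 2
    unfold ph
    have h2 : Real.exp (-(r * Real.cos θ) ^ 2 / 2) * Real.exp (-(r * Real.sin θ) ^ 2 / 2) =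
        Real.exp (-(r ^ 2) / 2) := by
      rw [← Real.exp_add]
      congr 1
      linarith
    calc _ = c0 * c0 * (r * (Real.exp (-(r * Real.cos θ) ^ 2 / 2) *
        Real.exp (-(r * Real.sin θ) ^ 2 / 2))) := by ring
      _ = _ := by rw [h2]
  simp only [e2]
  rw [setLIntegral_const, Real.volume_Ioo, mul_right_comm, ← ENNReal.ofReal_mul (by
    have := c0_pos; positivity), c0_sq]
  congr 2
  have := Real.pi_pos
  field_simp
  ring

/-- the standard Gaussian of `ℝ³` in coordinates adapted to `u` -/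
theorem lint_std (u : EuclideanSpace ℝ (Fin 3)) (hu : ‖u‖ = 1) (K : ℝ × ℝ → ENNReal)
    (hK : Measurable K) :
    ∫⁻ x, K (inner ℝ x u, ‖x‖ ^ 2) ∂(stdGaussian (EuclideanSpace ℝ (Fin 3))) =
      ∫⁻ s, ∫⁻ p, K (s, s ^ 2 + (p.1 ^ 2 + p.2 ^ 2)) ∂(g1.prod g1) ∂g1 := by
  have hv : Orthonormal ℝ ((({0} : Set (Fin 3))).domRestrict (fun _ => u)) := by
    rw [orthonormal_iff_ite]
    rintro ⟨i, hi⟩ ⟨j, hj⟩
    simp only [mem_singleton_iff] at hi hj
    subst hi hj
    simp [Set.domRestrict, hu]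
  obtain ⟨b, hb⟩ := hv.exists_orthonormalBasis_extension_of_card_eq
    (by simp : Module.finrank ℝ (EuclideanSpace ℝ (Fin 3)) = Fintype.card (Fin 3))
  have hb0 : b 0 = u := hb 0 rfl
  rw [stdGaussian_eq_map_pi_orthonormalBasis b, lintegral_map (by fun_prop) (by fun_prop)]
  have h1 : MeasurePreserving (fun x : Fin 3 → ℝ => (x 0, (x 1, x 2)))
      (Measure.pi fun _ => g1) (g1.prod (g1.prod g1)) := by
    have ha := measurePreserving_piFinSuccAbove (fun _ : Fin 3 => g1) 0
    have hb := (MeasurePreserving.id g1).prod (measurePreserving_finTwoArrow g1)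
    exact hb.comp ha
  have hin : ∀ x : Fin 3 → ℝ, inner ℝ (∑ i, x i • b i) u = x 0 := by
    intro x
    rw [sum_inner, ← hb0]
    simp [inner_smul_left, orthonormal_iff_ite.1 b.orthonormal]
  have hno : ∀ x : Fin 3 → ℝ, ‖∑ i, x i • b i‖ ^ 2 = x 0 ^ 2 + (x 1 ^ 2 + x 2 ^ 2) := by
    intro x
    rw [← real_inner_self_eq_norm_sq, sum_inner]
    simp only [inner_sum, inner_smul_left, inner_smul_right, orthonormal_iff_ite.1 b.orthonormal]
    simp [Fin.sum_univ_three]
    ring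
  simp only [hin, hno]
  have h2 := h1.lintegral_comp (f := fun q : ℝ × (ℝ × ℝ) => K (q.1, q.1 ^ 2 + (q.2.1 ^ 2 + q.2.2 ^ 2)))
    (by fun_prop)
  rw [h2, lintegral_prod _ (by fun_prop)]

/-- the angular integral -/
theorem ang (c : ℝ) (h1 : -1 ≤ c) (h2 : c ≤ 1) :
    ∫⁻ θ in Ioo (-Real.pi) Real.pi, ENNReal.ofReal (Real.sin θ * max (Real.cos θ - c) 0) =
      ENNReal.ofReal ((1 - c) ^ 2 / 2) := by
  have hpi := Real.pi_pos
  have e1 : ∫⁻ θ in Ioo (-Real.pi) Real.pi, ENNReal.ofReal (Real.sin θ * max (Real.cos θ - c) 0) =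
      ∫⁻ θ in Ioo 0 Real.pi, ENNReal.ofReal (Real.sin θ * max (Real.cos θ - c) 0) := by
    rw [← lintegral_indicator measurableSet_Ioo, ← lintegral_indicator measurableSet_Ioo]
    congr 1
    ext θ
    by_cases h : θ ∈ Ioo 0 Real.pi
    · have h' : θ ∈ Ioo (-Real.pi) Real.pi := ⟨by linarith [h.1], h.2⟩
      rw [indicator_of_mem h, indicator_of_mem h']
    · rw [indicator_of_notMem h]
      by_cases h' : θ ∈ Ioo (-Real.pi) Real.pi
      · rw [indicator_of_mem h']
        have h0 : θ ≤ 0 := by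
          by_contra hc
          exact h ⟨not_le.1 hc, h'.2⟩
        have hs : Real.sin θ ≤ 0 := Real.sin_nonpos_of_nonpos_of_neg_pi_le h0 h'.1.le
        exact ENNReal.ofReal_of_nonpos (mul_nonpos_of_nonpos_of_nonneg hs (le_max_right _ _))
      · rw [indicator_of_notMem h']
  have hcont : Continuous fun θ => Real.sin θ * max (Real.cos θ - c) 0 := by fun_prop
  rw [e1, ← ofReal_integral_eq_lintegral_ofReal]
  · congr 1
    rw [← integral_Ioc_eq_integral_Ioo, ← intervalIntegral.integral_of_le hpi.le,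
      ← intervalIntegral.integral_add_adjacent_intervals (b := Real.arccos c)
        (hcont.intervalIntegrable _ _) (hcont.intervalIntegrable _ _)]
    have hc := Real.cos_arccos h1 h2
    have h0 := Real.arccos_nonneg c
    have hp := Real.arccos_le_pi c
    have e2 : ∫ θ in (0:ℝ)..Real.arccos c, Real.sin θ * max (Real.cos θ - c) 0 =
        ∫ θ in (0:ℝ)..Real.arccos c, Real.sin θ * (Real.cos θ - c) := by
      apply intervalIntegral.integral_congr
      intro θ hθ
      rw [uIcc_of_le h0] at hθ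
      have : c ≤ Real.cos θ := by
        rw [← hc]
        exact Real.cos_le_cos_of_nonneg_of_le_pi hθ.1 hp hθ.2
      show Real.sin θ * max (Real.cos θ - c) 0 = Real.sin θ * (Real.cos θ - c)
      rw [max_eq_left (by linarith)]
    have e3 : ∫ θ in Real.arccos c..Real.pi, Real.sin θ * max (Real.cos θ - c) 0 = 0 := by
      have : ∫ θ in Real.arccos c..Real.pi, Real.sin θ * max (Real.cos θ - c) 0 =
        ∫ θ in Real.arccos c..Real.pi, (0:ℝ) := by
        apply intervalIntegral.integral_congr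
        intro θ hθ
        rw [uIcc_of_le hp] at hθ
        have : Real.cos θ ≤ c := by
          rw [← hc]
          exact Real.cos_le_cos_of_nonneg_of_le_pi h0 hθ.2 hθ.1
        show Real.sin θ * max (Real.cos θ - c) 0 = 0
        rw [max_eq_right (by linarith), mul_zero]
      rw [this]; simp
    have e4 : ∫ θ in (0:ℝ)..Real.arccos c, Real.sin θ * (Real.cos θ - c) = (1 - c) ^ 2 / 2 := by
      rw [intervalIntegral.integral_eq_sub_of_hasDerivAt (f := fun θ => -(Real.cos θ - c) ^ 2 / 2)]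
      · simp only [hc, Real.cos_zero]; ring
      · intro θ _
        have h5 := (((Real.hasDerivAt_cos θ).sub_const c).pow 2).neg.div_const 2
        refine (h5.congr_deriv ?_)
        push_cast
        ring
      · apply Continuous.intervalIntegrable; fun_prop
    rw [e2, e3, e4, add_zero]
  · apply (hcont.integrableOn_Icc (a := 0) (b := Real.pi)).mono_set Ioo_subset_Icc_self
  · filter_upwards [ae_restrict_mem measurableSet_Ioo] with θ hθ
    exact mul_nonneg (Real.sin_nonneg_of_nonneg_of_le_pi hθ.1.le hθ.2.le) (le_max_right _ _)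

/-- the radial integral -/
theorem rad : ∫⁻ R in Ioi (0:ℝ), ENNReal.ofReal (c0 * R ^ 3 * Real.exp (-(R ^ 2) / 2)) =
    ENNReal.ofReal (c0 * 2) := by
  have h := integral_rpow_mul_exp_neg_mul_rpow (p := 2) (q := 3) (b := 1 / 2) (by norm_num)
    (by norm_num) (by norm_num)
  have hi := integrableOn_rpow_mul_exp_neg_mul_rpow (p := 2) (s := 3) (b := 1 / 2) (by norm_num)
    (by norm_num) (by norm_num)
  have e : ∀ x : ℝ, x ^ (3:ℝ) * Real.exp (-(1 / 2) * x ^ (2:ℝ)) = x ^ 3 * Real.exp (-(x ^ 2) / 2) := by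
    intro x
    rw [show (3:ℝ) = ((3:ℕ):ℝ) by norm_num, show (2:ℝ) = ((2:ℕ):ℝ) by norm_num,
      Real.rpow_natCast, Real.rpow_natCast]
    congr 2
    push_cast
    ring
  simp only [e] at h hi
  have hG : Real.Gamma (((3:ℝ) + 1) / 2) = 1 := by
    norm_num
  rw [hG] at h
  rw [← ofReal_integral_eq_lintegral_ofReal]
  · congr 1
    have : ∀ R : ℝ, c0 * R ^ 3 * Real.exp (-(R ^ 2) / 2) = c0 * (R ^ 3 * Real.exp (-(R ^ 2) / 2)) := by
      intro R; ring
    simp only [this]
    rw [integral_const_mul, h]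
    congr 1
    have : (1/2 : ℝ) ^ (-((3:ℝ) + 1) / 2) = 4 := by
      rw [show (-((3:ℝ) + 1) / 2) = -((2:ℕ):ℝ) by norm_num, Real.rpow_neg (by norm_num),
        Real.rpow_natCast]
      norm_num
    rw [this]; norm_num
  · have := hi.const_mul c0
    simpa [mul_assoc] using this
  · filter_upwards [ae_restrict_mem measurableSet_Ioi] with R hR
    have : (0:ℝ) < R := hR
    have := c0_pos
    positivity

/-- the value -/
theorem val (u : EuclideanSpace ℝ (Fin 3)) (c : ℝ) (hu : ‖u‖ = 1) (h1 : -1 ≤ c) (h2 : c ≤ 1) :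
    ∫⁻ x, ENNReal.ofReal (max (inner ℝ x u - c * ‖x‖) 0)
      ∂(stdGaussian (EuclideanSpace ℝ (Fin 3))) = ENNReal.ofReal (c0 * (1 - c) ^ 2) := by
  have hm := meas_ph
  have e0 := lint_std u hu (fun q : ℝ × ℝ => ENNReal.ofReal (max (q.1 - c * √q.2) 0)) (by fun_prop)
  simp only [Real.sqrt_sq (norm_nonneg _)] at e0
  rw [e0]
  have e1 : ∀ s : ℝ, ∫⁻ p : ℝ × ℝ, ENNReal.ofReal (max (s - c * √(s ^ 2 + (p.1 ^ 2 + p.2 ^ 2))) 0)
      ∂(g1.prod g1) = ∫⁻ r : ℝ, ENNReal.ofReal (r * Real.exp (-(r ^ 2) / 2)) *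
        ENNReal.ofReal (max (s - c * √(s ^ 2 + r ^ 2)) 0) := by
    intro s
    rw [lint_g2 (fun t => ENNReal.ofReal (max (s - c * √(s ^ 2 + t)) 0)) (by fun_prop),
      ← lintegral_indicator measurableSet_Ioi]
    congr 1
    ext r
    by_cases hr : r ∈ Ioi (0:ℝ)
    · rw [indicator_of_mem hr]
    · rw [indicator_of_notMem hr, ENNReal.ofReal_of_nonpos, zero_mul]
      exact mul_nonpos_of_nonpos_of_nonneg (not_lt.1 hr) (Real.exp_nonneg _)
  simp only [e1]
  rw [lint_g1 _ (by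
    apply Measurable.lintegral_prod_right (f := fun s : ℝ => fun r : ℝ =>
      ENNReal.ofReal (r * Real.exp (-(r ^ 2) / 2)) *
        ENNReal.ofReal (max (s - c * √(s ^ 2 + r ^ 2)) 0))
    fun_prop)]
  have e2 : ∫⁻ s : ℝ, ENNReal.ofReal (ph s) * ∫⁻ r : ℝ, ENNReal.ofReal (r * Real.exp (-(r ^ 2) / 2)) *
        ENNReal.ofReal (max (s - c * √(s ^ 2 + r ^ 2)) 0) =
      ∫⁻ q : ℝ × ℝ, ENNReal.ofReal (ph q.1) * (ENNReal.ofReal (q.2 * Real.exp (-(q.2 ^ 2) / 2)) *
        ENNReal.ofReal (max (q.1 - c * √(q.1 ^ 2 + q.2 ^ 2)) 0)) := by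
    rw [Measure.volume_eq_prod, lintegral_prod _ (by fun_prop)]
    congr 1
    ext s
    rw [← lintegral_const_mul _ (by fun_prop)]
  have hpol : Measurable (polarCoord.symm : ℝ × ℝ → ℝ × ℝ) := by
    have : (polarCoord.symm : ℝ × ℝ → ℝ × ℝ) = fun p => (p.1 * Real.cos p.2, p.1 * Real.sin p.2) := by
      ext p <;> simp
    rw [this]; fun_prop
  rw [e2, ← lintegral_comp_polarCoord_symm, polarCoord_target, Measure.volume_eq_prod,
    ← Measure.prod_restrict, lintegral_prod _ (by fun_prop)]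
  have e3 : ∀ R ∈ Ioi (0:ℝ), ∀ θ : ℝ, ENNReal.ofReal (R, θ).1 •
      (ENNReal.ofReal (ph (polarCoord.symm (R, θ)).1) *
      (ENNReal.ofReal ((polarCoord.symm (R, θ)).2 * Real.exp (-((polarCoord.symm (R, θ)).2 ^ 2) / 2)) *
        ENNReal.ofReal (max ((polarCoord.symm (R, θ)).1 - c * √((polarCoord.symm (R, θ)).1 ^ 2 +
          (polarCoord.symm (R, θ)).2 ^ 2)) 0))) =
      ENNReal.ofReal (c0 * R ^ 3 * Real.exp (-(R ^ 2) / 2)) *
        ENNReal.ofReal (Real.sin θ * max (Real.cos θ - c) 0) := by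
    intro R hR θ
    have hR' : (0:ℝ) < R := hR
    simp only [polarCoord_symm_apply, smul_eq_mul]
    have h1 : (R * Real.cos θ) ^ 2 + (R * Real.sin θ) ^ 2 = R ^ 2 := by
      have := Real.cos_sq_add_sin_sq θ
      calc _ = R ^ 2 * (Real.cos θ ^ 2 + Real.sin θ ^ 2) := by ring
        _ = _ := by rw [this, mul_one]
    rw [h1, Real.sqrt_sq hR'.le]
    have hc0 := c0_pos
    have h3 : max (R * Real.cos θ - c * R) 0 = R * max (Real.cos θ - c) 0 := by
      rw [mul_max_of_nonneg _ _ hR'.le]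
      congr 1
      · ring
      · simp
    rw [← ENNReal.ofReal_mul' (le_max_right _ _), ← ENNReal.ofReal_mul (ph_nonneg _),
      ← ENNReal.ofReal_mul hR'.le, ← ENNReal.ofReal_mul (by positivity)]
    congr 1
    have h2 : Real.exp (-(R * Real.cos θ) ^ 2 / 2) * Real.exp (-(R * Real.sin θ) ^ 2 / 2) =
        Real.exp (-(R ^ 2) / 2) := by
      rw [← Real.exp_add]
      congr 1
      linarith
    rw [h3]
    unfold ph
    calc _ = c0 * R ^ 3 * (Real.exp (-(R * Real.cos θ) ^ 2 / 2) *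
        Real.exp (-(R * Real.sin θ) ^ 2 / 2)) * (Real.sin θ * max (Real.cos θ - c) 0) := by ring
      _ = _ := by rw [h2]
  have e4 : ∫⁻ R in Ioi (0:ℝ), ∫⁻ θ in Ioo (-Real.pi) Real.pi, ENNReal.ofReal (R, θ).1 •
      (ENNReal.ofReal (ph (polarCoord.symm (R, θ)).1) *
      (ENNReal.ofReal ((polarCoord.symm (R, θ)).2 * Real.exp (-((polarCoord.symm (R, θ)).2 ^ 2) / 2)) *
        ENNReal.ofReal (max ((polarCoord.symm (R, θ)).1 - c * √((polarCoord.symm (R, θ)).1 ^ 2 +
          (polarCoord.symm (R, θ)).2 ^ 2)) 0))) =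
      ∫⁻ R in Ioi (0:ℝ), ENNReal.ofReal (c0 * R ^ 3 * Real.exp (-(R ^ 2) / 2)) *
        ENNReal.ofReal ((1 - c) ^ 2 / 2) := by
    apply setLIntegral_congr_fun measurableSet_Ioi
    intro R hR
    simp only [e3 R hR]
    rw [lintegral_const_mul _ (by fun_prop), ang c h1 h2]
  rw [e4, lintegral_mul_const _ (by fun_prop), rad, ← ENNReal.ofReal_mul (by
    have := c0_pos; positivity)]
  congr 1
  ring

theorem sqrt_eq : Real.sqrt (8 / Real.pi) = 4 * c0 := by
  have h : (8 / Real.pi) = (4 * c0) ^ 2 := by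
    have h1 := c0_sq
    have := Real.pi_pos
    calc 8 / Real.pi = 16 * (1 / (2 * Real.pi)) := by field_simp; norm_num
      _ = _ := by rw [← h1]; ring
  rw [h, Real.sqrt_sq]
  have := c0_pos
  positivity

theorem val' (u : EuclideanSpace ℝ (Fin 3)) (c : ℝ) (hu : ‖u‖ = 1) (h1 : -1 ≤ c) (h2 : c ≤ 1) :
    ∫ x, max (inner ℝ x u - c * ‖x‖) 0
      ∂(stdGaussian (EuclideanSpace ℝ (Fin 3))) = Real.sqrt (8 / Real.pi) * (1 - c) ^ 2 / 4 := by
  rw [integral_eq_lintegral_of_nonneg_ae (f := fun x : EuclideanSpace ℝ (Fin 3) =>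
    max (inner ℝ x u - c * ‖x‖) 0) (Filter.Eventually.of_forall fun x => le_max_right _ _)
    (by fun_prop), val u c hu h1 h2, ENNReal.toReal_ofReal (by
      have := c0_pos; positivity), sqrt_eq]
  ring

end ARCH

theorem arch : StArch := by
  refine ⟨?_, fun u c hu h1 h2 => ARCH.val' u c hu h1 h2⟩
  set u : EuclideanSpace ℝ (Fin 3) := EuclideanSpace.single 0 1 with hu
  have hu1 : ‖u‖ = 1 := by simp [hu]
  have h := ARCH.val' u (-1) hu1 le_rfl (by norm_num)
  have hint : Integrable (fun x : EuclideanSpace ℝ (Fin 3) => x) (stdGaussian _) :=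
    IsGaussian.integrable_id
  have e : ∀ x : EuclideanSpace ℝ (Fin 3), max (inner ℝ x u - (-1) * ‖x‖) 0 = inner ℝ x u + ‖x‖ := by
    intro x
    have := abs_le.1 (abs_real_inner_le_norm x u)
    rw [hu1, mul_one] at this
    rw [max_eq_left (by linarith)]
    ring
  simp only [e] at h
  have hin : Integrable (fun x : EuclideanSpace ℝ (Fin 3) => (inner ℝ x u : ℝ)) (stdGaussian _) :=
    hint.inner_const u
  rw [integral_add hin hint.norm] at h
  have h0 : ∫ x, (inner ℝ x u : ℝ) ∂(stdGaussian (EuclideanSpace ℝ (Fin 3))) = 0 := by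
    have := integral_inner (𝕜 := ℝ) hint u
    simp only [real_inner_comm] at this ⊢
    rw [this]
    have h00 := integral_id_stdGaussian (E := EuclideanSpace ℝ (Fin 3))
    rw [h00]
    simp
  rw [h0] at h
  linarith

end Crest.Agent.R215
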