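import Crest.Agent.R215.Defs

set_option autoImplicit false

open Set

namespace Crest.Agent.R215

namespace ATAN

lemma hd_arctan (t : ℝ) : HasDerivAt Real.arctan (1 / (1 + t ^ 2)) t := Real.hasDerivAt_arctan t

lemma arctan_le (y : ℝ) (hy : 0 ≤ y) : Real.arctan y ≤ y := by
  have hd : ∀ t : ℝ, HasDerivAt (fun t => t - Real.arctan t) (1 - 1 / (1 + t ^ 2)) t := fun t =>
    (hasDerivAt_id t).sub (hd_arctan t)
  have hm : MonotoneOn (fun t => t - Real.arctan t) (Ici 0) := by
    apply monotoneOn_of_deriv_nonneg (convex_Ici 0)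
    · exact fun t _ => (hd t).continuousAt.continuousWithinAt
    · exact fun t _ => (hd t).differentiableAt.differentiableWithinAt
    · intro t _
      rw [(hd t).deriv]
      have : 1 / (1 + t ^ 2) ≤ 1 := by
        rw [div_le_one (by positivity)]
        nlinarith [sq_nonneg t]
      linarith
  have := hm (mem_Ici.2 le_rfl) (mem_Ici.2 hy) hy
  simp only [Real.arctan_zero, sub_zero] at this
  linarith

lemma le_arctan (y : ℝ) (hy : 0 ≤ y) : y - y ^ 3 / 3 ≤ Real.arctan y := by
  have hd : ∀ t : ℝ, HasDerivAt (fun t => Real.arctan t - t + t ^ 3 / 3)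
      (1 / (1 + t ^ 2) - 1 + t ^ 2) t := fun t => by
    have h := ((hd_arctan t).sub (hasDerivAt_id t)).add ((hasDerivAt_pow 3 t).div_const 3)
    refine h.congr_deriv ?_
    push_cast
    ring
  have hm : MonotoneOn (fun t => Real.arctan t - t + t ^ 3 / 3) (Ici 0) := by
    apply monotoneOn_of_deriv_nonneg (convex_Ici 0)
    · exact fun t _ => (hd t).continuousAt.continuousWithinAt
    · exact fun t _ => (hd t).differentiableAt.differentiableWithinAt
    · intro t _
      rw [(hd t).deriv]
      have : 1 / (1 + t ^ 2) - 1 + t ^ 2 = t ^ 4 / (1 + t ^ 2) := by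
        field_simp
        ring
      rw [this]
      positivity
  have := hm (mem_Ici.2 le_rfl) (mem_Ici.2 hy) hy
  simp only [Real.arctan_zero] at this
  norm_num at this
  linarith

lemma atan151 : (98578 / 100000 : ℝ) ≤ Real.arctan (151 / 100) := by
  have h := Real.arctan_add (x := 1) (y := 51 / 251) (by norm_num)
  have e : ((1 : ℝ) + 51 / 251) / (1 - 1 * (51 / 251)) = 151 / 100 := by norm_num
  rw [e, Real.arctan_one] at h
  have h2 := le_arctan (51 / 251) (by norm_num)
  have h3 := Real.pi_gt_d6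
  rw [← h]
  norm_num at h2 h3 ⊢
  linarith

noncomputable def F (t : ℝ) : ℝ := kap * t ^ 2 - t + Real.arctan t

lemma hdF (t : ℝ) : HasDerivAt F (2 * kap * t - 1 + 1 / (1 + t ^ 2)) t := by
  have h := ((((hasDerivAt_pow 2 t).const_mul kap).sub (hasDerivAt_id t))).add (hd_arctan t)
  refine h.congr_deriv ?_
  push_cast
  ring

lemma dF (t : ℝ) : 2 * kap * t - 1 + 1 / (1 + t ^ 2) =
    t * (2 * kap * (1 + t ^ 2) - t) / (1 + t ^ 2) := by
  field_simp
  ring

lemma small (t : ℝ) (h0 : 0 ≤ t) (h1 : t ≤ 66 / 100) : 0 ≤ F t := by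
  have hm : MonotoneOn F (Icc 0 (66 / 100)) := by
    apply monotoneOn_of_deriv_nonneg (convex_Icc _ _)
    · exact fun t _ => (hdF t).continuousAt.continuousWithinAt
    · exact fun t _ => (hdF t).differentiableAt.differentiableWithinAt
    · intro t ht
      rw [interior_Icc] at ht
      rw [(hdF t).deriv, dF]
      have : 0 ≤ 2 * kap * (1 + t ^ 2) - t := by
        unfold kap
        nlinarith [ht.1, ht.2, mul_pos ht.1 (sub_pos.2 ht.2)]
      have h0 := ht.1.le
      positivity
  have := hm (left_mem_Icc.2 (by norm_num)) ⟨h0, h1⟩ h0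
  simpa [F] using this

lemma mid (t : ℝ) (h0 : 66 / 100 ≤ t) (h1 : t ≤ 151 / 100) : 0 ≤ F t := by
  have h := Real.arctan_add (x := 151 / 100) (y := -t) (by nlinarith)
  rw [Real.arctan_neg] at h
  have hpos : 0 < 1 - 151 / 100 * -t := by nlinarith
  have h2 : Real.arctan ((151 / 100 + -t) / (1 - 151 / 100 * -t)) ≤
      (151 / 100 + -t) / (1 - 151 / 100 * -t) := arctan_le _ (div_nonneg (by linarith) hpos.le)
  have h3 := atan151
  have h4 : (98578 / 100000 : ℝ) - (151 / 100 + -t) / (1 - 151 / 100 * -t) ≤ Real.arctan t := by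
    linarith
  have h5 : 0 ≤ kap * t ^ 2 - t + (98578 / 100000 - (151 / 100 + -t) / (1 - 151 / 100 * -t)) := by
    have e : kap * t ^ 2 - t + (98578 / 100000 - (151 / 100 + -t) / (1 - 151 / 100 * -t)) =
        ((kap * t ^ 2 - t + 98578 / 100000) * (1 + 151 / 100 * t) - (151 / 100 - t)) /
          (1 - 151 / 100 * -t) := by
      rw [eq_div_iff hpos.ne']
      have e2 : (151 / 100 + -t) / (1 - 151 / 100 * -t) * (1 - 151 / 100 * -t) = 151 / 100 + -t :=
        div_mul_cancel₀ _ hpos.ne'
      linear_combination -e2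
    rw [e]
    apply div_nonneg _ hpos.le
    unfold kap
    nlinarith [mul_nonneg (sub_nonneg.2 h0) (sub_nonneg.2 h1),
      mul_nonneg (sub_nonneg.2 h0) (sq_nonneg (t - 151 / 100)), sq_nonneg (t - 151 / 100)]
  unfold F
  linarith

lemma large (t : ℝ) (h0 : 151 / 100 ≤ t) : 0 ≤ F t := by
  have hm : MonotoneOn F (Ici (151 / 100)) := by
    apply monotoneOn_of_deriv_nonneg (convex_Ici _)
    · exact fun t _ => (hdF t).continuousAt.continuousWithinAt
    · exact fun t _ => (hdF t).differentiableAt.differentiableWithinAt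
    · intro t ht
      rw [interior_Ici] at ht
      rw [(hdF t).deriv, dF]
      have ht' : (151 / 100 : ℝ) < t := ht
      have : 0 ≤ 2 * kap * (1 + t ^ 2) - t := by
        unfold kap
        nlinarith
      have h0 : 0 ≤ t := by linarith
      positivity
  have := hm (mem_Ici.2 le_rfl) (mem_Ici.2 h0) h0
  exact le_trans (mid _ (by norm_num) le_rfl) this

end ATAN

theorem atan_ : StAtan := by
  intro t ht
  have : 0 ≤ ATAN.F t := by
    rcases le_total t (66 / 100) with h | h
    · exact ATAN.small t ht h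
    · rcases le_total t (151 / 100) with h' | h'
      · exact ATAN.mid t h h'
      · exact ATAN.large t h'
  unfold ATAN.F at this
  linarith

end Crest.Agent.R215
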