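import Crest.Agent.R215.Defs

set_option autoImplicit false

open MeasureTheory ProbabilityTheory Set

namespace Crest.Agent.R215

universe u v

theorem asm_bound (E : Type u) [NormedAddCommGroup E] [InnerProductSpace ℝ E]
    [FiniteDimensional ℝ E] [MeasurableSpace E] [BorelSpace E]
    (h3 : StSmall E) (h4 : StK4 E) (h5 : StK5 E) (hc : StCrit E) :
    ∀ (s : Finset ℕ) (z : ℕ → E), (em s z) ^ 2 ≤ CC * VV s z := by
  have key : ∀ n : ℕ, ∀ (s : Finset ℕ) (z : ℕ → E), s.card ≤ n → (em s z) ^ 2 ≤ CC * VV s z := by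
    intro n
    induction n with
    | zero => intro s z hs; exact h3 s z (by omega)
    | succ n ih =>
      intro s z hs
      by_contra hcon
      push Not at hcon
      by_cases hs' : s.card ≤ n
      · exact absurd (ih s z hs') (not_le.mpr hcon)
      have hcard : s.card = n + 1 := by omega
      obtain ⟨s', z', hs'', hC⟩ := hc n ih ⟨s, z, hcard, hcon⟩
      by_cases hn : n + 1 ≤ 3
      · exact absurd (h3 s z (by omega)) (not_le.mpr hcon)
      by_cases hn4 : n + 1 = 4
      · exact h4 s' z' hC (by omega)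
      · exact h5 s' z' hC (by omega)
  intro s z
  exact key s.card s z le_rfl

theorem asm_final (E : Type u) [NormedAddCommGroup E] [InnerProductSpace ℝ E]
    [FiniteDimensional ℝ E] [MeasurableSpace E] [BorelSpace E]
    (h3 : StSmall E) (h4 : StK4 E) (h5 : StK5 E) (hc : StCrit E) (hr : StRed.{u, v} E)
    (ι : Type v) [Fintype ι] (A : ι → Set E)
    (hA : ∀ i, MeasurableSet (A i))
    (hdisj : Pairwise fun i j => Disjoint (A i) (A j))
    (hcov : ⋃ i, A i = Set.univ) :
    ∑ i, ‖∫ x in A i, x ∂stdGaussian E‖ ^ 2 ≤ 9 / (8 * Real.pi) :=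
  hr (asm_bound E h3 h4 h5 hc) ι A hA hdisj hcov

end Crest.Agent.R215
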