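import Crest.Agent.R215.Defs

/-!
# Row 215, task BATH: Gaussian measure of a planar set of given area
-/

set_option autoImplicit false

open MeasureTheory ProbabilityTheory Set

noncomputable section

namespace Crest.Agent.R215

namespace BATH

/-- planar normal density -/
def f (p : ℝ × ℝ) : ℝ := (1 / (2 * Real.pi)) * Real.exp (-(p.1 ^ 2 + p.2 ^ 2) / 2)

theorem f_nonneg (p : ℝ × ℝ) : 0 ≤ f p := by
  unfold f; positivity

theorem f_cont : Continuous f := by
  unfold f; fun_prop

theorem gg : (g1.prod g1 : Measure (ℝ × ℝ)) =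
    (volume : Measure (ℝ × ℝ)).withDensity (fun p => ENNReal.ofReal (f p)) := by
  have h1 : (1 : NNReal) ≠ 0 := one_ne_zero
  unfold g1
  rw [gaussianReal_of_var_ne_zero 0 h1, prod_withDensity (measurable_gaussianPDF 0 1)
    (measurable_gaussianPDF 0 1), ← Measure.volume_eq_prod]
  congr 1
  ext p
  simp only [gaussianPDF, gaussianPDFReal]
  rw [← ENNReal.ofReal_mul (by positivity)]
  congr 1
  unfold f
  have h2 : Real.sqrt (2 * Real.pi) * Real.sqrt (2 * Real.pi) = 2 * Real.pi :=
    Real.mul_self_sqrt (by positivity)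
  have h3 : Real.sqrt (2 * Real.pi) ≠ 0 := by positivity
  simp only [NNReal.coe_one, mul_one, sub_zero]
  rw [show (Real.sqrt (2 * Real.pi))⁻¹ * Real.exp (-p.1 ^ 2 / 2) * ((Real.sqrt (2 * Real.pi))⁻¹ *
    Real.exp (-p.2 ^ 2 / 2)) = (Real.sqrt (2 * Real.pi) * Real.sqrt (2 * Real.pi))⁻¹ *
    (Real.exp (-p.1 ^ 2 / 2) * Real.exp (-p.2 ^ 2 / 2)) by rw [mul_inv]; ring, h2, ← Real.exp_add]
  rw [one_div]
  congr 2
  ring

theorem lint_f : ∫⁻ p, ENNReal.ofReal (f p) = 1 := by
  have h : (g1.prod g1 : Measure (ℝ × ℝ)) univ = 1 := measure_univ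
  rw [gg, withDensity_apply _ MeasurableSet.univ] at h
  simpa using h

theorem f_int : Integrable f := by
  refine ⟨f_cont.aestronglyMeasurable, ?_⟩
  rw [hasFiniteIntegral_iff_ofReal (Filter.Eventually.of_forall f_nonneg), lint_f]
  exact ENNReal.one_lt_top

theorem real_eq (K : Set (ℝ × ℝ)) (hK : MeasurableSet K) :
    (g1.prod g1 : Measure (ℝ × ℝ)).real K = ∫ p in K, f p := by
  rw [Measure.real, gg, withDensity_apply _ hK, ← ofReal_integral_eq_lintegral_ofReal
    f_int.integrableOn (Filter.Eventually.of_forall f_nonneg), ENNReal.toReal_ofReal]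
  exact integral_nonneg f_nonneg

/-- integral of the part above the level at radius `R` -/
theorem top_int (R : ℝ) (hR : 0 ≤ R) :
    ∫ p, max (f p - (1 / (2 * Real.pi)) * Real.exp (-(R ^ 2) / 2)) 0 =
      1 - Real.exp (-(R ^ 2) / 2) -
        (1 / (2 * Real.pi)) * Real.exp (-(R ^ 2) / 2) * (Real.pi * R ^ 2) := by
  set e := (1 / (2 * Real.pi)) * Real.exp (-(R ^ 2) / 2) with he
  rw [← integral_comp_polarCoord_symm, polarCoord_target]
  have h1 : ∀ p : ℝ × ℝ, p.1 • max (f (polarCoord.symm p) - e) 0 =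
      (p.1 * max ((1 / (2 * Real.pi)) * Real.exp (-(p.1 ^ 2) / 2) - e) 0) * (fun _ : ℝ => (1 : ℝ)) p.2 := by
    intro p
    simp only [polarCoord_symm_apply, f, smul_eq_mul, mul_one]
    rw [show (p.1 * Real.cos p.2) ^ 2 + (p.1 * Real.sin p.2) ^ 2 =
      p.1 ^ 2 * (Real.cos p.2 ^ 2 + Real.sin p.2 ^ 2) by ring, Real.cos_sq_add_sin_sq, mul_one]
  simp only [h1]
  rw [Measure.volume_eq_prod, setIntegral_prod_mul
    (fun r : ℝ => r * max ((1 / (2 * Real.pi)) * Real.exp (-(r ^ 2) / 2) - e) 0) (fun _ => (1 : ℝ))]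
  have h2 : ∫ y in Ioo (-Real.pi) Real.pi, (1 : ℝ) = 2 * Real.pi := by
    rw [setIntegral_const]
    simp [Measure.real, Real.volume_Ioo]
    ring_nf
    rw [ENNReal.toReal_ofReal (by positivity)]
  have hmono : ∀ r : ℝ, R ≤ r → Real.exp (-(r ^ 2) / 2) ≤ Real.exp (-(R ^ 2) / 2) := by
    intro r hr
    apply Real.exp_le_exp.2
    nlinarith [pow_le_pow_left₀ hR hr 2]
  have h3 : ∫ r in Ioi (0:ℝ), r * max ((1 / (2 * Real.pi)) * Real.exp (-(r ^ 2) / 2) - e) 0 =
      ∫ r in Ioc 0 R, r * ((1 / (2 * Real.pi)) * Real.exp (-(r ^ 2) / 2) - e) := by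
    have h4 : ∫ r in Ioi (0:ℝ), r * max ((1 / (2 * Real.pi)) * Real.exp (-(r ^ 2) / 2) - e) 0 =
        ∫ r in Ioc 0 R, r * max ((1 / (2 * Real.pi)) * Real.exp (-(r ^ 2) / 2) - e) 0 := by
      refine setIntegral_eq_of_subset_of_forall_sdiff_eq_zero measurableSet_Ioi
        (fun x hx => hx.1) ?_
      intro r hr
      have hr0 : 0 < r := hr.1
      have hrR : R ≤ r := by
        by_contra hcon
        exact hr.2 ⟨hr0, le_of_lt (not_le.1 hcon)⟩
      rw [max_eq_right, mul_zero]
      rw [he]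
      have := hmono r hrR
      have h5 : 0 < 1 / (2 * Real.pi) := by positivity
      nlinarith
    rw [h4]
    refine setIntegral_congr_fun measurableSet_Ioc fun r hr => ?_
    rw [max_eq_left]
    rw [he]
    have h6 : Real.exp (-(R ^ 2) / 2) ≤ Real.exp (-(r ^ 2) / 2) := by
      apply Real.exp_le_exp.2
      nlinarith [pow_le_pow_left₀ hr.1.le hr.2 2]
    have h5 : 0 < 1 / (2 * Real.pi) := by positivity
    nlinarith
  rw [h2, h3, ← intervalIntegral.integral_of_le hR]
  have h7 : ∀ r ∈ uIcc 0 R, HasDerivAt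
      (fun r : ℝ => -(1 / (2 * Real.pi)) * Real.exp (-(r ^ 2) / 2) - e * r ^ 2 / 2)
      (r * ((1 / (2 * Real.pi)) * Real.exp (-(r ^ 2) / 2) - e)) r := by
    intro r _
    have h8 : HasDerivAt (fun r : ℝ => -(r ^ 2) / 2) (-r) r := by
      have := ((hasDerivAt_pow 2 r).neg).div_const 2
      have e1 : -(((2 : ℕ) : ℝ) * r ^ (2 - 1)) / 2 = -r := by norm_num; ring
      rw [e1] at this
      exact this
    have h9 : HasDerivAt (fun r : ℝ => e * r ^ 2 / 2) (e * r) r := by
      have := (((hasDerivAt_pow 2 r).const_mul e)).div_const 2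
      have e1 : e * (((2 : ℕ) : ℝ) * r ^ (2 - 1)) / 2 = e * r := by norm_num; ring
      rw [e1] at this
      exact this
    have := ((h8.exp).const_mul (-(1 / (2 * Real.pi)))).sub h9
    have e1 : -(1 / (2 * Real.pi)) * (Real.exp (-(r ^ 2) / 2) * -r) - e * r =
      r * ((1 / (2 * Real.pi)) * Real.exp (-(r ^ 2) / 2) - e) := by ring
    rw [e1] at this
    exact this
  rw [intervalIntegral.integral_eq_sub_of_hasDerivAt h7
    (Continuous.intervalIntegrable (by fun_prop) _ _)]
  have hpi : Real.pi ≠ 0 := Real.pi_ne_zero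
  rw [he]
  simp only [ne_eq, OfNat.ofNat_ne_zero, not_false_eq_true, zero_pow, neg_zero, zero_div,
    Real.exp_zero, mul_zero, mul_one, sub_zero]
  field_simp
  ring

theorem main (K : Set (ℝ × ℝ)) (hK : MeasurableSet K) (a : ℝ) (ha : 0 ≤ a)
    (hv : volume K ≤ ENNReal.ofReal a) :
    (g1.prod g1 : Measure (ℝ × ℝ)).real K ≤ 1 - Real.exp (-a / (2 * Real.pi)) := by
  set R := Real.sqrt (a / Real.pi) with hR
  have hR2 : R ^ 2 = a / Real.pi := by
    rw [hR, Real.sq_sqrt (by positivity)]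
  have hRa : Real.pi * R ^ 2 = a := by
    rw [hR2]; field_simp
  have hexp : -a / (2 * Real.pi) = -(R ^ 2) / 2 := by
    rw [hR2]; field_simp
  rw [real_eq K hK, hexp]
  set e := (1 / (2 * Real.pi)) * Real.exp (-(R ^ 2) / 2) with he
  have he0 : 0 ≤ e := by rw [he]; positivity
  have hmaxint : Integrable (fun p => max (f p - e) 0) := by
    refine f_int.mono (by
      exact ((f_cont.sub continuous_const).max continuous_const).aestronglyMeasurable) ?_
    refine Filter.Eventually.of_forall fun p => ?_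
    rw [Real.norm_eq_abs, Real.norm_eq_abs, abs_of_nonneg (le_max_right _ _),
      abs_of_nonneg (f_nonneg p)]
    exact max_le (by linarith) (f_nonneg p)
  have hconst : IntegrableOn (fun _ : ℝ × ℝ => e) K := by
    rw [integrableOn_const_iff]
    right
    exact lt_of_le_of_lt hv ENNReal.ofReal_lt_top
  have h1 : ∫ p in K, f p ≤ ∫ p in K, (e + max (f p - e) 0) := by
    refine integral_mono f_int.integrableOn (hconst.add hmaxint.integrableOn) ?_
    intro p
    simp only
    linarith [le_max_left (f p - e) 0]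
  have h2 : ∫ p in K, (e + max (f p - e) 0) = volume.real K * e + ∫ p in K, max (f p - e) 0 := by
    rw [integral_add hconst hmaxint.integrableOn, setIntegral_const, smul_eq_mul]
  have h3 : ∫ p in K, max (f p - e) 0 ≤ ∫ p, max (f p - e) 0 :=
    setIntegral_le_integral hmaxint (Filter.Eventually.of_forall fun p => le_max_right _ _)
  have h4 : (volume : Measure (ℝ × ℝ)).real K ≤ a := by
    rw [Measure.real]
    exact ENNReal.toReal_le_of_le_ofReal ha hv
  have h5 := top_int R (Real.sqrt_nonneg _)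
  rw [← he, hRa] at h5
  have h6 : (volume : Measure (ℝ × ℝ)).real K * e ≤ a * e := mul_le_mul_of_nonneg_right h4 he0
  linarith

end BATH

open BATH in
theorem bath : StBath := by
  intro K hK a ha hv
  have h1 := main K hK a ha hv
  refine ⟨h1, h1.trans ?_⟩
  have := Real.add_one_le_exp (-a / (2 * Real.pi))
  have h2 : -a / (2 * Real.pi) = -(a / (2 * Real.pi)) := by ring
  rw [h2] at this ⊢
  linarith

end Crest.Agent.R215
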