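import Crest.Agent.R215.LibG

set_option autoImplicit false

open MeasureTheory ProbabilityTheory Set

namespace Crest.Agent.R215

universe u

namespace CAP

/-- cap bound for cones in `ℝ³` -/
theorem cap3 (hA : StArch) (hCo : StCone) (B : Set (EuclideanSpace ℝ (Fin 3)))
    (hB : MeasurableSet B) (hc : ∀ x ∈ B, ∀ c : ℝ, 0 < c → c • x ∈ B)
    (u : EuclideanSpace ℝ (Fin 3)) (hu : ‖u‖ = 1) (p : ℝ)
    (hp : (stdGaussian (EuclideanSpace ℝ (Fin 3))).real B = p) :
    ∫ x in B, (inner ℝ x u : ℝ) ∂(stdGaussian (EuclideanSpace ℝ (Fin 3))) ≤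
      Real.sqrt (8 / Real.pi) * p * (1 - p) := by
  have hp0 : 0 ≤ p := by rw [← hp]; exact measureReal_nonneg
  have hp1 : p ≤ 1 := by rw [← hp]; exact measureReal_le_one
  set γ := stdGaussian (EuclideanSpace ℝ (Fin 3)) with hγ
  set c : ℝ := 1 - 2 * p with hcdef
  have h1 := hCo B hB hc
  have h2 := hA.2 u c hu (by linarith) (by linarith)
  rw [← hγ] at h1 h2
  have hi1 : Integrable (fun x : EuclideanSpace ℝ (Fin 3) => ‖x‖) γ := sg_integrable_norm
  have hi2 : Integrable (fun x : EuclideanSpace ℝ (Fin 3) => (inner ℝ x u : ℝ)) γ :=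
    sg_integrable_inner u
  have hi3 : Integrable (fun x : EuclideanSpace ℝ (Fin 3) => (inner ℝ x u : ℝ) - c * ‖x‖) γ :=
    hi2.sub (hi1.const_mul c)
  have hi4 : Integrable (fun x : EuclideanSpace ℝ (Fin 3) => max ((inner ℝ x u : ℝ) - c * ‖x‖) 0) γ :=
    hi3.pos_part
  have h3 : ∫ x in B, (inner ℝ x u : ℝ) ∂γ =
      c * ∫ x in B, ‖x‖ ∂γ + ∫ x in B, ((inner ℝ x u : ℝ) - c * ‖x‖) ∂γ := by
    rw [← integral_const_mul, ← integral_add (hi1.const_mul c).integrableOn hi3.integrableOn]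
    congr 1
    ext x
    ring
  have h4 : ∫ x in B, ((inner ℝ x u : ℝ) - c * ‖x‖) ∂γ ≤
      ∫ x, max ((inner ℝ x u : ℝ) - c * ‖x‖) 0 ∂γ := by
    calc ∫ x in B, ((inner ℝ x u : ℝ) - c * ‖x‖) ∂γ
        ≤ ∫ x in B, max ((inner ℝ x u : ℝ) - c * ‖x‖) 0 ∂γ :=
          integral_mono hi3.integrableOn hi4.integrableOn (fun x => le_max_left _ _)
      _ ≤ ∫ x, max ((inner ℝ x u : ℝ) - c * ‖x‖) 0 ∂γ :=
          setIntegral_le_integral hi4 (ae_of_all _ fun x => le_max_right _ _)
  rw [h3, h1, hp]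
  rw [h2] at h4
  calc c * (p * Real.sqrt (8 / Real.pi)) + ∫ x in B, ((inner ℝ x u : ℝ) - c * ‖x‖) ∂γ
      ≤ c * (p * Real.sqrt (8 / Real.pi)) + Real.sqrt (8 / Real.pi) * (1 - c) ^ 2 / 4 := by
        linarith
    _ = Real.sqrt (8 / Real.pi) * p * (1 - p) := by
        rw [hcdef]
        ring

end CAP

theorem cap (E : Type u) [NormedAddCommGroup E] [InnerProductSpace ℝ E] [FiniteDimensional ℝ E]
    [MeasurableSpace E] [BorelSpace E] :
    StArch → StCone → StAff E → StHalf E → StCap E := by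
  intro hA hCo hAff hH s z hC h4 i hi
  have hsne : s.Nonempty := ⟨i, hi⟩
  have hlin := (hAff s z hC).1
  have hli : LinearIndependent ℝ (fun j : {j // j ∈ s.erase i} => z j) := by
    rw [Fintype.linearIndependent_iff]
    intro g hg j
    let lam : ℕ → ℝ := fun k => if h : k ∈ s.erase i then g ⟨k, h⟩ else 0
    have hlj : ∀ j : {j // j ∈ s.erase i}, lam j = g j := by
      intro j
      simp only [lam]
      rw [dif_pos j.2]
    have hli0 : lam i = 0 := by
      simp only [lam]
      rw [dif_neg (Finset.notMem_erase i s)]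
    have h1 : ∑ k ∈ s, lam k • z k = 0 := by
      rw [← Finset.add_sum_erase s (fun k => lam k • z k) hi, hli0, zero_smul, zero_add,
        ← Finset.sum_coe_sort (s.erase i) (fun k => lam k • z k), ← hg]
      exact Finset.sum_congr rfl fun j _ => by rw [hlj]
    have h2 := hlin lam h1 j (Finset.mem_of_mem_erase j.2) i hi
    rw [hlj, hli0] at h2
    exact h2
  set W : Submodule ℝ E := Submodule.span ℝ (Set.range fun j : {j // j ∈ s.erase i} => z j) with hW
  have hfr : Module.finrank ℝ W = 3 := by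
    rw [hW, finrank_span_eq_card hli, Fintype.card_coe, Finset.card_erase_of_mem hi, h4]
  have hzW' : ∀ j ∈ s.erase i, z j ∈ W := fun j hj => Submodule.subset_span ⟨⟨j, hj⟩, rfl⟩
  have hzi : z i ∈ W := by
    have h0 := hC.sum0
    rw [← Finset.add_sum_erase s z hi] at h0
    rw [eq_neg_of_add_eq_zero_left h0]
    exact W.neg_mem (W.sum_mem hzW')
  have hzW : ∀ j ∈ s, z j ∈ W := by
    intro j hj
    by_cases h : j = i
    · rw [h]; exact hzi
    · exact hzW' j (Finset.mem_erase.2 ⟨h, hj⟩)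
  let b : OrthonormalBasis (Fin 3) ℝ W := (stdOrthonormalBasis ℝ W).reindex (finCongr hfr)
  let a : Fin 3 → E := fun k => (b k : E)
  have ha : Orthonormal ℝ a := b.orthonormal.comp_linearIsometry W.subtypeₗᵢ
  let T : E →L[ℝ] EuclideanSpace ℝ (Fin 3) :=
    ((EuclideanSpace.equiv (Fin 3) ℝ).symm.toContinuousLinearMap).comp
      (ContinuousLinearMap.pi fun i => innerSL ℝ (a i))
  have hT : ∀ x i, T x i = inner ℝ x (a i) := by
    intro x i
    simp [T, real_inner_comm]
  have hmap : (stdGaussian E).map T = stdGaussian (EuclideanSpace ℝ (Fin 3)) :=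
    sg_map_coisom T (fun t => ∑ i, t i • a i) (by
      intro x t
      rw [inner_sum, PiLp.inner_apply]
      refine Finset.sum_congr rfl fun i _ => ?_
      rw [hT, inner_smul_right]
      simp) (by
      intro t
      have h1 : ‖∑ i, t i • a i‖ ^ 2 = ‖t‖ ^ 2 := by
        rw [← real_inner_self_eq_norm_sq, ha.inner_sum, EuclideanSpace.real_norm_sq_eq]
        simp [pow_two]
      have h2 : ‖∑ i, t i • a i‖ = √(‖t‖ ^ 2) := by rw [← h1, Real.sqrt_sq (norm_nonneg _)]
      rw [h2, Real.sqrt_sq (norm_nonneg _)])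
  have hrep : ∀ v ∈ W, ∑ k, (inner ℝ v (a k) : ℝ) • a k = v := by
    intro v hv
    have h := congrArg (Subtype.val) (b.sum_repr' ⟨v, hv⟩)
    simp only [Submodule.coe_sum, Submodule.coe_smul, Submodule.coe_inner] at h
    rw [← h]
    refine Finset.sum_congr rfl fun k _ => ?_
    simp only [a]
    rw [h, real_inner_comm]
  have hinn : ∀ x : E, ∀ v ∈ W, inner ℝ (T x) (T v) = (inner ℝ x v : ℝ) := by
    intro x v hv
    rw [PiLp.inner_apply]
    conv_rhs => rw [← hrep v hv, inner_sum]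
    refine Finset.sum_congr rfl fun k _ => ?_
    rw [hT, hT, inner_smul_right]
    simp
  set B : Set (EuclideanSpace ℝ (Fin 3)) := cell s (fun j => T (z j)) i with hBdef
  have hBm : MeasurableSet B := measurableSet_cell _ _ _
  have hpre : T ⁻¹' B = cell s z i := by
    ext x
    simp only [hBdef, Set.mem_preimage, mem_cell]
    constructor
    · intro h j hj
      have := h j hj
      rw [hinn x _ (hzW j hj), hinn x _ hzi] at this
      exact this
    · intro h j hj
      rw [hinn x _ (hzW j hj), hinn x _ hzi]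
      exact h j hj
  have hBcone : ∀ x ∈ B, ∀ c : ℝ, 0 < c → c • x ∈ B := fun x hx c hc => cell_smul hc.le hx
  have hmass : (stdGaussian (EuclideanSpace ℝ (Fin 3))).real B = mass s z i := by
    rw [← hmap]
    unfold mass
    rw [map_measureReal_apply (by fun_prop) hBm, hpre]
  have hp0 : 0 ≤ mass s z i := measureReal_nonneg
  have hp1 : mass s z i ≤ 1 := measureReal_le_one
  by_cases hz0 : z i = 0
  · rw [hz0, norm_zero]
    have : 0 ≤ 1 - mass s z i := by linarith
    positivity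
  have hω : 0 < ‖z i‖ := norm_pos_iff.2 hz0
  have hTn : ‖T (z i)‖ = ‖z i‖ := by
    have h := hinn (z i) (z i) hzi
    rw [real_inner_self_eq_norm_sq, real_inner_self_eq_norm_sq] at h
    exact (pow_left_inj₀ (norm_nonneg _) (norm_nonneg _) (by norm_num)).1 h
  have h3 := CAP.cap3 hA hCo B hBm hBcone (‖z i‖⁻¹ • T (z i))
    (by rw [norm_smul, hTn, norm_inv, norm_norm]; exact inv_mul_cancel₀ hω.ne') (mass s z i) hmass
  have h5 : ∫ x in B, (inner ℝ x (‖z i‖⁻¹ • T (z i)) : ℝ)
      ∂(stdGaussian (EuclideanSpace ℝ (Fin 3))) = ‖z i‖ := by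
    rw [← hmap, setIntegral_map hBm (by fun_prop) (by fun_prop), hpre]
    have h6 : ∀ x : E, (inner ℝ (T x) (‖z i‖⁻¹ • T (z i)) : ℝ) = inner ℝ x (‖z i‖⁻¹ • z i) := by
      intro x
      rw [inner_smul_right, inner_smul_right, hinn x _ hzi]
    simp_rw [h6]
    rw [← sg_inner_setIntegral, hC.mom i hi, real_inner_smul_left, real_inner_self_eq_norm_sq]
    field_simp
  rw [h5] at h3
  exact h3

end Crest.Agent.R215
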