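import Crest.Agent.R215.LibG

set_option autoImplicit false

open MeasureTheory ProbabilityTheory Set

noncomputable section

namespace Crest.Agent.R215

universe u

theorem chord (E : Type u) [NormedAddCommGroup E] [InnerProductSpace ℝ E] [FiniteDimensional ℝ E]
    [MeasurableSpace E] [BorelSpace E] : StThree E → StChord E := by
  intro hT t a b c y hab hac hbc hsum hne
  set d : E := (3:ℝ)⁻¹ • (t a - t b) with hd
  have hd0 : 0 < ‖d‖ := by
    rw [hd, norm_smul, norm_inv, Real.norm_ofNat]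
    have : 0 < ‖t a - t b‖ := norm_pos_iff.2 (sub_ne_zero.2 hne)
    exact mul_pos (by norm_num) this
  have hnd : ‖t a - t b‖ = 3 * ‖d‖ := by
    rw [hd, norm_smul, norm_inv, Real.norm_ofNat]; field_simp
  have htc : t c = -t a - t b := by
    have : t c = (t a + t b + t c) - t a - t b := by abel
    rw [this, hsum]; abel
  have hd1 : d = (2/3:ℝ) • t a + (1/3:ℝ) • t c := by
    rw [hd, htc]; module
  have hd2 : -d = (2/3:ℝ) • t b + (1/3:ℝ) • t c := by
    rw [hd, htc]; module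
  have hge : ∀ x : E, max (inner ℝ x d) (inner ℝ x (-d)) ≤ mx {a, b, c} t x := by
    intro x
    have ha := inner_le_mx (s := {a, b, c}) (z := t) (x := x) (i := a) (by simp)
    have hb := inner_le_mx (s := {a, b, c}) (z := t) (x := x) (i := b) (by simp)
    have hc := inner_le_mx (s := {a, b, c}) (z := t) (x := x) (i := c) (by simp)
    apply max_le
    · rw [hd1, inner_add_right, inner_smul_right, inner_smul_right]; linarith
    · rw [hd2, inner_add_right, inner_smul_right, inner_smul_right]; linarith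
  let w : ℕ → E := fun i => if i = 0 then y else if i = 1 then d else -d
  have hw0 : w 0 = y := by simp [w]
  have hw1 : w 1 = d := by simp [w]
  have hw2 : w 2 = -d := by simp [w]
  obtain ⟨-, h3⟩ := hT w 0 1 2 (by norm_num) (by norm_num) (by norm_num)
  obtain ⟨h2, -⟩ := hT w 1 2 0 (by norm_num) (by norm_num) (by norm_num)
  have hi : Integrable (fun x => mx {0, 1, 2} w x - mx {1, 2} w x) (stdGaussian E) :=
    (integrable_mx _ _).sub (integrable_mx _ _)
  have hle : Lam {a, b, c} t y ≤ em {0, 1, 2} w - em {1, 2} w := by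
    unfold em
    rw [← integral_sub (integrable_mx _ _) (integrable_mx _ _)]
    refine integral_mono (integrable_Lam _ _ _) hi fun x => ?_
    have h01 : mx {0, 1, 2} w x = max (inner ℝ x y) (mx {1, 2} w x) := by
      rw [mx_insert 0 ⟨1, by simp⟩, hw0]
    have h12 : mx {1, 2} w x = max (inner ℝ x d) (inner ℝ x (-d)) := by
      rw [mx_pair, hw1, hw2]
    change max ((inner ℝ x y : ℝ) - mx {a, b, c} t x) 0 ≤ mx {0, 1, 2} w x - mx {1, 2} w x
    rw [h01]
    have h4 := hge x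
    rw [← h12] at h4
    apply max_le
    · have := le_max_left (inner ℝ x y : ℝ) (mx {1, 2} w x); linarith
    · have := le_max_right (inner ℝ x y : ℝ) (mx {1, 2} w x); linarith
  refine hle.trans ?_
  rw [h3, h2, hw0, hw1, hw2, hnd]
  have hdd : ‖d - -d‖ = 2 * ‖d‖ := by
    rw [sub_neg_eq_add, ← two_smul ℝ d, norm_smul]; simp
  rw [hdd, sub_neg_eq_add]
  have hpar : ‖y - d‖ ^ 2 + ‖y + d‖ ^ 2 = 2 * (‖y‖ ^ 2 + ‖d‖ ^ 2) := by
    rw [norm_sub_sq_real, norm_add_sq_real]; ring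
  have hc0 : 0 ≤ c0 := by unfold c0; positivity
  have hkey : ‖y - d‖ + ‖y + d‖ ≤ 2 * ‖d‖ + ‖y‖ ^ 2 / ‖d‖ := by
    apply le_of_sq_le_sq _ (by positivity)
    have e1 : (2 * ‖d‖ + ‖y‖ ^ 2 / ‖d‖) ^ 2 = 4 * ‖d‖ ^ 2 + 4 * ‖y‖ ^ 2 + (‖y‖ ^ 2 / ‖d‖) ^ 2 := by
      field_simp
      ring
    rw [e1]
    nlinarith [sq_nonneg (‖y - d‖ - ‖y + d‖), sq_nonneg (‖y‖ ^ 2 / ‖d‖)]
  have e2 : 3 * c0 * ‖y‖ ^ 2 / (2 * (3 * ‖d‖)) = c0 / 2 * (‖y‖ ^ 2 / ‖d‖) := by
    field_simp
  rw [e2]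
  have := mul_le_mul_of_nonneg_left hkey (half_pos_nonneg hc0)
  nlinarith
where
  le_of_sq_le_sq {a b : ℝ} (h : a ^ 2 ≤ b ^ 2) (hb : 0 ≤ b) : a ≤ b := by
    exact le_of_abs_le (by rw [← abs_of_nonneg hb]; exact sq_le_sq.1 h)
  half_pos_nonneg {a : ℝ} (h : 0 ≤ a) : 0 ≤ a / 2 := by linarith

end Crest.Agent.R215
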