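import Crest.Agent.R215.Defs

/-! One-dimensional normal library for row 215. -/

set_option autoImplicit false

open MeasureTheory ProbabilityTheory Set Filter Topology

namespace Crest.Agent.R215

/-! ### constants -/

lemma c0_pos : 0 < c0 := by unfold c0; positivity

lemma c0_sq : c0 ^ 2 = 1 / (2 * Real.pi) := by
  unfold c0
  rw [div_pow, one_pow, Real.sq_sqrt (by positivity)]

lemma CC_eq : CC = 9 / 4 * c0 ^ 2 := by
  rw [c0_sq]; unfold CC; field_simp; ring

lemma CC_pos : 0 < CC := by unfold CC; positivity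

lemma CC_gt : 358 / 1000 < CC := by
  unfold CC
  have h := Real.pi_lt_d4
  rw [div_lt_div_iff₀ (by norm_num) (by positivity)]
  nlinarith

lemma CC_lt : CC < 359 / 1000 := by
  unfold CC
  have h := Real.pi_gt_d4
  rw [div_lt_div_iff₀ (by positivity) (by norm_num)]
  nlinarith

lemma CC_gt' : 3580985 / 10000000 < CC := by
  unfold CC
  have h := Real.pi_lt_d6
  rw [div_lt_div_iff₀ (by norm_num) (by positivity)]
  nlinarith

lemma CC_lt' : CC < 3580988 / 10000000 := by
  unfold CC
  have h := Real.pi_gt_d6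
  rw [div_lt_div_iff₀ (by positivity) (by norm_num)]
  nlinarith

lemma c0_gt : 39894 / 100000 < c0 := by
  have h := Real.pi_lt_d6
  have h2 := c0_sq
  have : (39894 / 100000 : ℝ) ^ 2 < c0 ^ 2 := by
    rw [h2, lt_div_iff₀ (by positivity)]
    nlinarith
  exact lt_of_pow_lt_pow_left₀ 2 c0_pos.le this

lemma c0_lt : c0 < 39895 / 100000 := by
  have h := Real.pi_gt_d6
  have h2 := c0_sq
  have : c0 ^ 2 < (39895 / 100000 : ℝ) ^ 2 := by
    rw [h2, div_lt_iff₀ (by positivity)]
    nlinarith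
  exact lt_of_pow_lt_pow_left₀ 2 (by norm_num) this

lemma c0_gt' : 3989422 / 10000000 < c0 := by
  have h := Real.pi_lt_d20
  have h2 := c0_sq
  have : (3989422 / 10000000 : ℝ) ^ 2 < c0 ^ 2 := by
    rw [h2, lt_div_iff₀ (by positivity)]
    nlinarith
  exact lt_of_pow_lt_pow_left₀ 2 c0_pos.le this

lemma c0_lt' : c0 < 3989423 / 10000000 := by
  have h := Real.pi_gt_d20
  have h2 := c0_sq
  have : c0 ^ 2 < (3989423 / 10000000 : ℝ) ^ 2 := by
    rw [h2, div_lt_iff₀ (by positivity)]
    nlinarith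
  exact lt_of_pow_lt_pow_left₀ 2 (by norm_num) this

/-! ### density -/

lemma ph_pos (t : ℝ) : 0 < ph t := by unfold ph; have := c0_pos; positivity

lemma ph_neg (t : ℝ) : ph (-t) = ph t := by unfold ph; simp

lemma ph_zero : ph 0 = c0 := by unfold ph; simp

lemma ph_le (t : ℝ) : ph t ≤ c0 := by
  unfold ph
  have : Real.exp (-(t ^ 2) / 2) ≤ 1 := by
    rw [Real.exp_le_one_iff]; nlinarith [sq_nonneg t]
  nlinarith [c0_pos]

lemma ph_abs (t : ℝ) : ph |t| = ph t := by unfold ph; simp

lemma ph_eq_pdf (t : ℝ) : gaussianPDFReal 0 1 t = ph t := by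
  unfold gaussianPDFReal ph c0
  simp

lemma ph_continuous : Continuous ph := by
  unfold ph; fun_prop

lemma ph_measurable : Measurable ph := ph_continuous.measurable

lemma hasDerivAt_ph (t : ℝ) : HasDerivAt ph (-(t * ph t)) t := by
  unfold ph
  have h : HasDerivAt (fun x : ℝ => -(x ^ 2) / 2) (-t) t := by
    have := ((hasDerivAt_pow 2 t).fun_neg).div_const 2
    refine this.congr_deriv ?_
    norm_num
    ring
  have h2 := (h.exp).const_mul c0
  refine h2.congr_deriv ?_
  ring

lemma ph_integrable : Integrable ph := by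
  have := integrable_gaussianPDFReal 0 1
  refine this.congr (Filter.Eventually.of_forall ph_eq_pdf)

lemma integral_ph : ∫ t, ph t = 1 := by
  have := integral_gaussianPDFReal_eq_one 0 (v := 1) one_ne_zero
  rw [← this]
  exact integral_congr_ae (Filter.Eventually.of_forall fun t => (ph_eq_pdf t).symm)

lemma g1_eq : g1 = volume.withDensity (fun t => ENNReal.ofReal (ph t)) := by
  show gaussianReal 0 1 = _
  rw [gaussianReal_of_var_ne_zero 0 one_ne_zero]
  congr 1
  ext t
  rw [gaussianPDF, ph_eq_pdf]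

lemma integral_g1 (f : ℝ → ℝ) : ∫ t, f t ∂g1 = ∫ t, f t * ph t := by
  show ∫ t, f t ∂(gaussianReal 0 1) = _
  rw [integral_gaussianReal_eq_integral_smul one_ne_zero]
  refine integral_congr_ae (Filter.Eventually.of_forall fun t => ?_)
  simp only [smul_eq_mul, ph_eq_pdf]
  ring

lemma integrable_g1_iff (f : ℝ → ℝ) : Integrable f g1 ↔ Integrable (fun t => f t * ph t) := by
  rw [g1_eq, integrable_withDensity_iff ph_measurable.ennreal_ofReal
    (Filter.Eventually.of_forall fun t => ENNReal.ofReal_lt_top)]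
  refine integrable_congr (Filter.Eventually.of_forall fun t => ?_)
  simp only
  rw [ENNReal.toReal_ofReal (ph_pos t).le]

lemma g1_real_eq (s : Set ℝ) (hs : MeasurableSet s) : g1.real s = ∫ t in s, ph t := by
  have h1 : g1.real s = ∫ t, s.indicator (fun _ => (1:ℝ)) t ∂g1 := by
    rw [integral_indicator hs]; simp
  rw [h1, integral_g1, ← integral_indicator hs]
  refine integral_congr_ae (Filter.Eventually.of_forall fun t => ?_)
  by_cases ht : t ∈ s <;> simp [ht]

lemma setIntegral_g1 (f : ℝ → ℝ) (s : Set ℝ) (hs : MeasurableSet s) :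
    ∫ t in s, f t ∂g1 = ∫ t in s, f t * ph t := by
  rw [← integral_indicator hs, integral_g1, ← integral_indicator hs]
  refine integral_congr_ae (Filter.Eventually.of_forall fun t => ?_)
  by_cases ht : t ∈ s <;> simp [ht]

instance instNullSingletonG1 : NullSingletonClass g1 :=
  nullSingletonClass_gaussianReal (μ := 0) (v := 1) one_ne_zero

/-! ### distribution function and tail -/

lemma Fi_eq (t : ℝ) : Fi t = ∫ x in Iic t, ph x := g1_real_eq _ measurableSet_Iic

lemma Ph_eq (t : ℝ) : Ph t = ∫ x in Ici t, ph x := g1_real_eq _ measurableSet_Ici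

lemma Ph_eq_Ioi (t : ℝ) : Ph t = ∫ x in Ioi t, ph x := by
  rw [Ph_eq, integral_Ici_eq_integral_Ioi]

lemma g1_real_Iio (t : ℝ) : g1.real (Iio t) = Fi t := by
  rw [g1_real_eq _ measurableSet_Iio, Fi_eq, integral_Iic_eq_integral_Iio]

lemma g1_real_Ioi (t : ℝ) : g1.real (Ioi t) = Ph t := by
  rw [g1_real_eq _ measurableSet_Ioi, Ph_eq_Ioi]

lemma Ph_eq_one_sub (t : ℝ) : Ph t = 1 - Fi t := by
  rw [← g1_real_Ioi]
  unfold Fi
  rw [← compl_Iic, probReal_compl_eq_one_sub measurableSet_Iic]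

lemma Fi_eq_one_sub (t : ℝ) : Fi t = 1 - Ph t := by rw [Ph_eq_one_sub]; ring

lemma Ph_eq_Fi_neg (t : ℝ) : Ph t = Fi (-t) := by
  rw [Ph_eq_Ioi, Fi_eq]
  have := integral_comp_neg_Iic (-t) ph
  rw [neg_neg] at this
  rw [← this]
  refine setIntegral_congr_fun measurableSet_Iic fun x _ => ?_
  simp only [ph_neg]

lemma Fi_neg (t : ℝ) : Fi (-t) = 1 - Fi t := by
  rw [← Ph_eq_Fi_neg, Ph_eq_one_sub]

lemma Ph_neg (t : ℝ) : Ph (-t) = 1 - Ph t := by
  rw [Ph_eq_Fi_neg, neg_neg, Fi_eq_one_sub]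

lemma Fi_zero : Fi 0 = 1 / 2 := by
  have := Fi_neg 0
  rw [neg_zero] at this
  linarith

lemma Ph_zero : Ph 0 = 1 / 2 := by rw [Ph_eq_one_sub, Fi_zero]; norm_num

lemma Fi_sub (a b : ℝ) : Fi b - Fi a = ∫ x in a..b, ph x := by
  rw [Fi_eq, Fi_eq]
  exact intervalIntegral.integral_Iic_sub_Iic ph_integrable.integrableOn ph_integrable.integrableOn

lemma hasDerivAt_Fi (t : ℝ) : HasDerivAt Fi (ph t) t := by
  have h : HasDerivAt (fun u => Fi 0 + ∫ x in (0:ℝ)..u, ph x) (ph t) t := by
    have := intervalIntegral.integral_hasDerivAt_right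
      (ph_continuous.intervalIntegrable 0 t) (ph_continuous.stronglyMeasurableAtFilter _ _)
      ph_continuous.continuousAt
    exact this.const_add _
  refine h.congr_of_eventuallyEq (Filter.Eventually.of_forall fun u => ?_)
  simp only
  rw [← Fi_sub]; ring

lemma hasDerivAt_Ph (t : ℝ) : HasDerivAt Ph (-(ph t)) t := by
  have h := (hasDerivAt_Fi t).const_sub 1
  refine h.congr_of_eventuallyEq (Filter.Eventually.of_forall fun u => ?_)
  simp only
  rw [Ph_eq_one_sub]

lemma Fi_continuous : Continuous Fi :=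
  continuous_iff_continuousAt.2 fun t => (hasDerivAt_Fi t).continuousAt

lemma Ph_continuous : Continuous Ph :=
  continuous_iff_continuousAt.2 fun t => (hasDerivAt_Ph t).continuousAt

lemma Fi_measurable : Measurable Fi := Fi_continuous.measurable

lemma Ph_measurable : Measurable Ph := Ph_continuous.measurable

lemma Fi_strictMono : StrictMono Fi := by
  refine strictMono_of_deriv_pos fun t => ?_
  rw [(hasDerivAt_Fi t).deriv]; exact ph_pos t

lemma Ph_strictAnti : StrictAnti Ph := by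
  intro a b hab
  rw [Ph_eq_one_sub, Ph_eq_one_sub]
  have := Fi_strictMono hab
  linarith

lemma Fi_nonneg (t : ℝ) : 0 ≤ Fi t := measureReal_nonneg
lemma Fi_le_one (t : ℝ) : Fi t ≤ 1 := measureReal_le_one
lemma Fi_pos (t : ℝ) : 0 < Fi t := lt_of_le_of_lt (Fi_nonneg (t - 1)) (Fi_strictMono (by linarith))
lemma Fi_lt_one (t : ℝ) : Fi t < 1 :=
  lt_of_lt_of_le (Fi_strictMono (by linarith : t < t + 1)) (Fi_le_one (t + 1))
lemma Ph_pos (t : ℝ) : 0 < Ph t := by rw [Ph_eq_one_sub]; linarith [Fi_lt_one t]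
lemma Ph_lt_one (t : ℝ) : Ph t < 1 := by rw [Ph_eq_one_sub]; linarith [Fi_pos t]

lemma Fi_tendsto_atTop : Tendsto Fi atTop (𝓝 1) := by
  have h := tendsto_measure_Iic_atTop g1
  have h2 : Tendsto (fun x => (g1 (Iic x)).toReal) atTop (𝓝 (g1 univ).toReal) :=
    (ENNReal.tendsto_toReal (measure_ne_top _ _)).comp h
  rw [measure_univ, ENNReal.toReal_one] at h2
  exact h2

lemma Fi_tendsto_atBot : Tendsto Fi atBot (𝓝 0) := by
  have h : Tendsto (fun t => 1 - Fi (-t)) atBot (𝓝 (1 - 1)) :=
    (Fi_tendsto_atTop.comp tendsto_neg_atBot_atTop).const_sub 1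
  simp only [sub_self] at h
  refine h.congr fun t => ?_
  rw [Fi_neg]; ring

lemma Ph_tendsto_atTop : Tendsto Ph atTop (𝓝 0) := by
  have h := Fi_tendsto_atTop.const_sub 1
  rw [sub_self] at h
  exact h.congr fun t => (Ph_eq_one_sub t).symm

lemma Ph_tendsto_atBot : Tendsto Ph atBot (𝓝 1) := by
  have h := Fi_tendsto_atBot.const_sub 1
  rw [sub_zero] at h
  exact h.congr fun t => (Ph_eq_one_sub t).symm

lemma exists_Fi_eq {p : ℝ} (h0 : 0 < p) (h1 : p < 1) : ∃ t, Fi t = p := by
  obtain ⟨a, ha⟩ := (Fi_tendsto_atBot.eventually (gt_mem_nhds h0)).exists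
  obtain ⟨b, hb⟩ := (Fi_tendsto_atTop.eventually (lt_mem_nhds h1)).exists
  exact mem_range_of_exists_le_of_exists_ge Fi_continuous ⟨a, ha.le⟩ ⟨b, hb.le⟩

lemma exists_Ph_eq {p : ℝ} (h0 : 0 < p) (h1 : p < 1) : ∃ t, Ph t = p := by
  obtain ⟨t, ht⟩ := exists_Fi_eq (p := 1 - p) (by linarith) (by linarith)
  exact ⟨t, by rw [Ph_eq_one_sub, ht]; ring⟩

lemma abs_Fi_sub_le (a b : ℝ) : |Fi b - Fi a| ≤ c0 * |b - a| := by
  rw [Fi_sub]
  have := intervalIntegral.norm_integral_le_of_norm_le_const (a := a) (b := b) (f := ph) (C := c0)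
    (fun x _ => by rw [Real.norm_eq_abs, abs_of_pos (ph_pos x)]; exact ph_le x)
  simpa using this

/-! ### limits of the density -/

lemma ph_tendsto_atTop : Tendsto ph atTop (𝓝 0) := by
  unfold ph
  have h : Tendsto (fun t : ℝ => -(t ^ 2) / 2) atTop atBot := by
    have h1 : Tendsto (fun t : ℝ => t ^ 2 / 2) atTop atTop :=
      (tendsto_pow_atTop two_ne_zero).atTop_div_const (by norm_num)
    have := tendsto_neg_atTop_atBot.comp h1
    refine this.congr fun t => ?_
    simp only [Function.comp]; ring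
  have := (Real.tendsto_exp_atBot.comp h).const_mul c0
  simpa using this

lemma ph_tendsto_atBot : Tendsto ph atBot (𝓝 0) := by
  have := ph_tendsto_atTop.comp tendsto_neg_atBot_atTop
  refine this.congr fun t => ?_
  simp only [Function.comp, ph_neg]

lemma mul_ph_le (t : ℝ) : t ^ 2 * ph t ≤ 2 * c0 := by
  unfold ph
  have h : t ^ 2 / 2 + 1 ≤ Real.exp (t ^ 2 / 2) := Real.add_one_le_exp _
  have h2 : Real.exp (-(t ^ 2) / 2) = (Real.exp (t ^ 2 / 2))⁻¹ := by
    rw [← Real.exp_neg]; congr 1; ring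
  rw [h2]
  have h3 : 0 < Real.exp (t ^ 2 / 2) := Real.exp_pos _
  have h4 : t ^ 2 * (Real.exp (t ^ 2 / 2))⁻¹ ≤ 2 := by
    rw [← div_eq_mul_inv, div_le_iff₀ h3]; nlinarith
  nlinarith [c0_pos]

lemma mul_ph_tendsto_atTop : Tendsto (fun t => t * ph t) atTop (𝓝 0) := by
  have h : Tendsto (fun t : ℝ => 2 * c0 / t) atTop (𝓝 0) := tendsto_const_nhds.div_atTop tendsto_id
  refine tendsto_of_tendsto_of_tendsto_of_le_of_le' tendsto_const_nhds h ?_ ?_
  · filter_upwards [eventually_gt_atTop 0] with t ht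
    exact mul_nonneg ht.le (ph_pos t).le
  · filter_upwards [eventually_gt_atTop 0] with t ht
    rw [le_div_iff₀ ht]
    have := mul_ph_le t
    nlinarith

/-! ### integrability and first integrals -/

lemma integrable_pow_g1 (n : ℕ) : Integrable (fun x : ℝ => x ^ n) g1 := by
  have h := memLp_id_gaussianReal (μ := 0) (v := 1) (n : NNReal)
  rcases Nat.eq_zero_or_pos n with rfl | hn
  · simp
  have h2 := h.integrable_norm_pow (by omega : n ≠ 0)
  refine (integrable_norm_iff (by fun_prop)).1 ?_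
  refine h2.congr (Filter.Eventually.of_forall fun x => ?_)
  simp

lemma integrable_id_g1 : Integrable (fun x : ℝ => x) g1 := by
  simpa using integrable_pow_g1 1

lemma integrable_abs_pow_g1 (n : ℕ) : Integrable (fun x : ℝ => |x| ^ n) g1 := by
  have := (integrable_pow_g1 n).norm
  refine this.congr (Filter.Eventually.of_forall fun x => ?_)
  simp

lemma integrable_abs_g1 : Integrable (fun x : ℝ => |x|) g1 := by
  simpa using integrable_abs_pow_g1 1

lemma integral_id_g1 : ∫ x, x ∂g1 = 0 := by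
  have := integral_id_gaussianReal (μ := 0) (v := 1)
  simpa using this

lemma integral_sq_g1 : ∫ x, x ^ 2 ∂g1 = 1 := by
  have h := variance_id_gaussianReal (μ := 0) (v := 1)
  rw [variance_eq_sub (memLp_id_gaussianReal (μ := 0) (v := 1) 2)] at h
  simp only [Pi.pow_apply, id_eq] at h
  have h0 : ∫ x, x ∂(gaussianReal 0 1) = 0 := integral_id_g1
  rw [h0] at h
  simpa using h

lemma integrable_mul_ph : Integrable (fun x : ℝ => x * ph x) :=
  (integrable_g1_iff _).1 integrable_id_g1

/-- `∫_{x ≥ τ} x dγ = φ(τ)` -/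
lemma integral_Ici_id (τ : ℝ) : ∫ x in Ici τ, x ∂g1 = ph τ := by
  rw [setIntegral_g1 _ _ measurableSet_Ici, integral_Ici_eq_integral_Ioi]
  have h := integral_Ioi_of_hasDerivAt_of_tendsto' (f := fun x => -(ph x)) (f' := fun x => x * ph x)
    (a := τ) (m := 0) (fun x _ => by
      have := (hasDerivAt_ph x).fun_neg
      simpa using this) integrable_mul_ph.integrableOn (by
      have := ph_tendsto_atTop.neg
      simpa using this)
  rw [h]; ring

lemma integral_Ioi_id (τ : ℝ) : ∫ x in Ioi τ, x ∂g1 = ph τ := by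
  rw [← integral_Ici_id, integral_Ici_eq_integral_Ioi]

lemma integrable_max_sub_g1 (τ : ℝ) : Integrable (fun x : ℝ => max (x - τ) 0) g1 :=
  (integrable_id_g1.sub (integrable_const τ)).pos_part

/-- `E (N-τ)^+ = φ(τ) - τ Φ̄(τ)` -/
lemma integral_max_sub_g1 (τ : ℝ) : ∫ x, max (x - τ) 0 ∂g1 = ph τ - τ * Ph τ := by
  have h : ∀ x : ℝ, max (x - τ) 0 = (Ici τ).indicator (fun x => x - τ) x := by
    intro x
    by_cases hx : τ ≤ x
    · rw [indicator_of_mem (by exact hx), max_eq_left (by linarith)]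
    · rw [indicator_of_notMem (by exact hx), max_eq_right (by linarith)]
  simp_rw [h]
  rw [integral_indicator measurableSet_Ici, integral_sub integrable_id_g1.integrableOn
    (integrable_const _), integral_Ici_id]
  simp [Ph, mul_comm]

lemma integral_max_g1 : ∫ x, max x 0 ∂g1 = c0 := by
  have := integral_max_sub_g1 0
  simpa [ph_zero] using this

lemma integral_abs_g1 : ∫ x, |x| ∂g1 = 2 * c0 := by
  have h : ∀ x : ℝ, |x| = 2 * max x 0 - x := by
    intro x
    rcases le_total 0 x with hx | hx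
    · rw [abs_of_nonneg hx, max_eq_left hx]; ring
    · rw [abs_of_nonpos hx, max_eq_right hx]; ring
  have hi : Integrable (fun x : ℝ => max x 0) g1 := by simpa using integrable_max_sub_g1 0
  simp_rw [h]
  rw [integral_sub (hi.const_mul 2) integrable_id_g1, integral_const_mul, integral_max_g1,
    integral_id_g1]
  ring

/-- `φ(τ) - τ Φ̄(τ) ≥ 0` -/
lemma ph_sub_nonneg (τ : ℝ) : 0 ≤ ph τ - τ * Ph τ := by
  rw [← integral_max_sub_g1]
  exact integral_nonneg fun x => le_max_right _ _

/-- bathtub: for every measurable `A`, `E[x; A] ≤ φ(τ) - τ(Φ̄(τ) - γ(A))` -/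
lemma setIntegral_id_le (A : Set ℝ) (hA : MeasurableSet A) (τ : ℝ) :
    ∫ x in A, x ∂g1 ≤ ph τ - τ * (Ph τ - g1.real A) := by
  have h1 : ∫ x in A, (x - τ) ∂g1 ≤ ∫ x, max (x - τ) 0 ∂g1 := by
    calc ∫ x in A, (x - τ) ∂g1 ≤ ∫ x in A, max (x - τ) 0 ∂g1 := by
          refine setIntegral_mono ?_ (integrable_max_sub_g1 τ).integrableOn fun x => le_max_left _ _
          exact (integrable_id_g1.sub (integrable_const τ)).integrableOn
      _ ≤ _ := setIntegral_le_integral (integrable_max_sub_g1 τ)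
          (Filter.Eventually.of_forall fun x => le_max_right _ _)
  rw [integral_sub integrable_id_g1.integrableOn (integrable_const _), integral_max_sub_g1] at h1
  simp only [integral_const, MeasurableSet.univ, measureReal_restrict_apply, univ_inter,
    smul_eq_mul] at h1
  linarith

/-- `∫_0^∞ Φ̄ = φ(0)` in the form `∫_τ^∞ Φ̄ = φ(τ) - τΦ̄(τ)` -/
lemma mul_Ph_le (t : ℝ) : t * Ph t ≤ ph t := by linarith [ph_sub_nonneg t]

lemma mul_Ph_tendsto_atTop : Tendsto (fun t => t * Ph t) atTop (𝓝 0) := by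
  refine tendsto_of_tendsto_of_tendsto_of_le_of_le' tendsto_const_nhds ph_tendsto_atTop ?_ ?_
  · filter_upwards [eventually_gt_atTop 0] with t ht
    exact mul_nonneg ht.le (Ph_pos t).le
  · exact Filter.Eventually.of_forall mul_Ph_le

lemma hasDerivAt_L (t : ℝ) : HasDerivAt (fun t => ph t - t * Ph t) (-(Ph t)) t := by
  have h := (hasDerivAt_ph t).fun_sub ((hasDerivAt_id t).fun_mul (hasDerivAt_Ph t))
  refine h.congr_deriv ?_
  simp

lemma L_tendsto_atTop : Tendsto (fun t => ph t - t * Ph t) atTop (𝓝 0) := by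
  simpa using ph_tendsto_atTop.sub mul_Ph_tendsto_atTop

lemma integrableOn_Ph_Ioi (τ : ℝ) : IntegrableOn Ph (Ioi τ) := by
  have h := integrableOn_Ioi_deriv_of_nonneg' (g := fun t => -(ph t - t * Ph t)) (g' := Ph) (a := τ)
    (l := 0) (fun x _ => by simpa using (hasDerivAt_L x).fun_neg) (fun x _ => (Ph_pos x).le)
    (by simpa using L_tendsto_atTop.neg)
  exact h

lemma integral_Ph_Ioi (τ : ℝ) : ∫ t in Ioi τ, Ph t = ph τ - τ * Ph τ := by
  have h := integral_Ioi_of_hasDerivAt_of_tendsto' (f := fun t => -(ph t - t * Ph t)) (f' := Ph)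
    (a := τ) (m := 0) (fun x _ => by simpa using (hasDerivAt_L x).fun_neg) (integrableOn_Ph_Ioi τ)
    (by simpa using L_tendsto_atTop.neg)
  rw [h]; ring

lemma integral_Ph_Ioi_zero : ∫ t in Ioi (0:ℝ), Ph t = c0 := by
  rw [integral_Ph_Ioi, ph_zero]; ring

/-- `∫ (x^+)^3 dγ = 2 φ(0)` -/
lemma integral_cube_pos : ∫ x, (max x 0) ^ 3 ∂g1 = 2 * c0 := by
  have h : ∀ x : ℝ, (max x 0) ^ 3 = (Ioi (0:ℝ)).indicator (fun x => x ^ 3) x := by
    intro x
    by_cases hx : 0 < x
    · rw [indicator_of_mem (by exact hx), max_eq_left hx.le]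
    · rw [indicator_of_notMem (by exact hx), max_eq_right (by linarith)]; simp
  simp_rw [h]
  rw [integral_indicator measurableSet_Ioi, setIntegral_g1 _ _ measurableSet_Ioi]
  have hd : ∀ x : ℝ, HasDerivAt (fun x => -((x ^ 2 + 2) * ph x)) (x ^ 3 * ph x) x := by
    intro x
    have h1 : HasDerivAt (fun x : ℝ => x ^ 2 + 2) (2 * x) x := by
      have := (hasDerivAt_pow 2 x).add_const 2
      refine this.congr_deriv ?_
      norm_num
    have := (h1.fun_mul (hasDerivAt_ph x)).fun_neg
    refine this.congr_deriv ?_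
    ring
  have hint : Integrable (fun x : ℝ => x ^ 3 * ph x) := (integrable_g1_iff _).1 (integrable_pow_g1 3)
  have hl : Tendsto (fun x => -((x ^ 2 + 2) * ph x)) atTop (𝓝 0) := by
    have hp : Tendsto (fun x => x ^ 2 * ph x) atTop (𝓝 0) := by
      unfold ph
      have h1 : Tendsto (fun y : ℝ => y ^ 1 * Real.exp (-y)) atTop (𝓝 0) :=
        Real.tendsto_pow_mul_exp_neg_atTop_nhds_zero 1
      have h2 : Tendsto (fun x : ℝ => x ^ 2 / 2) atTop atTop :=
        (tendsto_pow_atTop two_ne_zero).atTop_div_const (by norm_num)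
      have h3 := (h1.comp h2).const_mul (2 * c0)
      rw [mul_zero] at h3
      refine h3.congr fun x => ?_
      simp only [Function.comp]
      rw [neg_div]
      ring
    have := (hp.add (ph_tendsto_atTop.const_mul 2)).neg
    simp only [mul_zero, add_zero, neg_zero] at this
    refine this.congr fun x => ?_
    ring
  rw [integral_Ioi_of_hasDerivAt_of_tendsto' (fun x _ => hd x) hint.integrableOn hl, ph_zero]
  ring

/-! ### shift -/

lemma ph_shift (x a : ℝ) : ph (x + a) = ph x * Real.exp (-(x * a) - a ^ 2 / 2) := by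
  unfold ph
  rw [mul_assoc, ← Real.exp_add]
  congr 2
  ring

/-- one-dimensional Cameron–Martin -/
lemma g1_real_shift (A : Set ℝ) (hA : MeasurableSet A) (a : ℝ) :
    g1.real {x | x - a ∈ A} = ∫ x in A, Real.exp (-(x * a) - a ^ 2 / 2) ∂g1 := by
  have hm : MeasurableSet {x : ℝ | x - a ∈ A} := (measurable_id.sub_const a) hA
  rw [g1_real_eq _ hm, setIntegral_g1 _ _ hA, ← integral_indicator hm, ← integral_indicator hA,
    ← integral_add_right_eq_self _ a]
  refine integral_congr_ae (Filter.Eventually.of_forall fun x => ?_)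
  show {x | x - a ∈ A}.indicator ph (x + a) = A.indicator _ x
  by_cases hx : x ∈ A
  · rw [indicator_of_mem hx, indicator_of_mem (by simpa using hx), ph_shift]; ring
  · rw [indicator_of_notMem hx, indicator_of_notMem (by simpa using hx)]

end Crest.Agent.R215
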