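import Crest.Agent.R215.LibG
import Crest.Agent.R215.Lib1

/-!
# Row 215, task CM: Cameron–Martin formula
-/

set_option autoImplicit false

open MeasureTheory ProbabilityTheory Set

noncomputable section

namespace Crest.Agent.R215

universe u

namespace CM

theorem shift1 (g : ℝ → ENNReal) (hg : Measurable g) (r : ℝ) :
    ∫⁻ s, g (s - r) ∂g1 = ∫⁻ s, g s * ENNReal.ofReal (Real.exp (-(s * r) - r ^ 2 / 2)) ∂g1 := by
  have hm : Measurable fun t => ENNReal.ofReal (ph t) := ph_measurable.ennreal_ofReal
  have hg1 : Measurable fun s => g (s - r) := hg.comp (measurable_id.sub_const r)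
  have hg2 : Measurable fun s => g s * ENNReal.ofReal (Real.exp (-(s * r) - r ^ 2 / 2)) :=
    hg.mul (by fun_prop)
  rw [g1_eq, lintegral_withDensity_eq_lintegral_mul _ hm hg1,
    lintegral_withDensity_eq_lintegral_mul _ hm hg2]
  simp only [Pi.mul_apply]
  rw [← lintegral_add_right_eq_self (fun s => ENNReal.ofReal (ph s) * g (s - r)) r]
  refine lintegral_congr fun s => ?_
  rw [add_sub_cancel_right]
  have h1 : ph (s + r) = ph s * Real.exp (-(s * r) - r ^ 2 / 2) := by
    unfold ph
    rw [mul_assoc, ← Real.exp_add]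
    congr 2
    ring
  rw [h1, ENNReal.ofReal_mul (ph_pos s).le]
  ring

variable {E : Type u} [NormedAddCommGroup E] [InnerProductSpace ℝ E] [FiniteDimensional ℝ E]
  [MeasurableSpace E] [BorelSpace E]

theorem lint_replace (u : E) (hu : ‖u‖ = 1) (f : E → ENNReal) (hf : Measurable f) :
    ∫⁻ x, f x ∂(stdGaussian E) =
      ∫⁻ x, ∫⁻ s, f (x - (inner ℝ x u : ℝ) • u + s • u) ∂g1 ∂(stdGaussian E) := by
  have hm : Measurable (fun p : E × ℝ => p.1 - (inner ℝ p.1 u : ℝ) • u + p.2 • u) := by fun_prop
  conv_lhs => rw [← sg_replace u hu]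
  have h2 : Measurable fun p : E × ℝ => f (p.1 - (inner ℝ p.1 u : ℝ) • u + p.2 • u) := hf.comp hm
  rw [lintegral_map hf hm, lintegral_prod _ h2.aemeasurable]

end CM

open CM in
theorem cm (E : Type u) [NormedAddCommGroup E] [InnerProductSpace ℝ E] [FiniteDimensional ℝ E]
    [MeasurableSpace E] [BorelSpace E] : StCM E := by
  intro A v hA
  rcases eq_or_ne v 0 with rfl | hv
  · simp
  set r := ‖v‖ with hr
  have hr0 : r ≠ 0 := norm_ne_zero_iff.2 hv
  set u := r⁻¹ • v with hu
  have hu1 : ‖u‖ = 1 := by
    rw [hu, norm_smul, norm_inv, Real.norm_eq_abs, abs_of_nonneg (norm_nonneg v), ← hr]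
    exact inv_mul_cancel₀ hr0
  have hvu : v = r • u := by
    rw [hu, smul_smul, mul_inv_cancel₀ hr0, one_smul]
  set B : Set E := {x | x - v ∈ A} with hB
  have hBm : MeasurableSet B := (measurable_id.sub_const v) hA
  set F : E → ENNReal := A.indicator 1 with hF
  have hFm : Measurable F := measurable_one.indicator hA
  set W : E → ENNReal := fun x => ENNReal.ofReal (Real.exp (-(inner ℝ x v) - ‖v‖ ^ 2 / 2)) with hW
  have hWm : Measurable W := by
    rw [hW]; fun_prop
  have h1 : stdGaussian E B = ∫⁻ x, F (x - v) ∂(stdGaussian E) := by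
    rw [← lintegral_indicator_one hBm]
    refine lintegral_congr fun x => ?_
    rw [hF, hB]
    by_cases hx : x - v ∈ A
    · rw [indicator_of_mem hx, indicator_of_mem (by exact hx)]
      rfl
    · rw [indicator_of_notMem hx, indicator_of_notMem (by exact hx)]
  have h2 : ∫⁻ x in A, W x ∂(stdGaussian E) = ∫⁻ x, F x * W x ∂(stdGaussian E) := by
    rw [← lintegral_indicator hA]
    refine lintegral_congr fun x => ?_
    rw [hF]
    by_cases hx : x ∈ A
    · rw [indicator_of_mem hx, indicator_of_mem hx]; simp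
    · rw [indicator_of_notMem hx, indicator_of_notMem hx]; simp
  have h3 : ∫⁻ x, F (x - v) ∂(stdGaussian E) = ∫⁻ x, F x * W x ∂(stdGaussian E) := by
    rw [lint_replace u hu1 (fun x => F (x - v)) (hFm.comp (measurable_id.sub_const v)),
      lint_replace u hu1 (fun x => F x * W x) (hFm.mul hWm)]
    refine lintegral_congr fun x => ?_
    have h4 := shift1 (fun s => F (x - (inner ℝ x u : ℝ) • u + s • u))
      (hFm.comp (by fun_prop)) r
    have h5 : ∀ s : ℝ, x - (inner ℝ x u : ℝ) • u + (s - r) • u =
        x - (inner ℝ x u : ℝ) • u + s • u - v := by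
      intro s
      rw [hvu, sub_smul]
      abel
    simp only [h5] at h4
    rw [h4]
    refine lintegral_congr fun s => ?_
    simp only [hW]
    have h6 : inner ℝ (x - (inner ℝ x u : ℝ) • u + s • u) v = s * r := by
      rw [hvu]
      simp only [inner_add_left, inner_sub_left, inner_smul_left, inner_smul_right,
        real_inner_self_eq_norm_sq, hu1]
      simp
      ring
    rw [h6, ← hr]
  have h7 : ∫ x in A, Real.exp (-(inner ℝ x v) - ‖v‖ ^ 2 / 2) ∂(stdGaussian E) =
      (∫⁻ x in A, W x ∂(stdGaussian E)).toReal := by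
    rw [integral_eq_lintegral_of_nonneg_ae (Filter.Eventually.of_forall fun x =>
      (Real.exp_pos _).le) (by
        apply Measurable.aestronglyMeasurable
        fun_prop)]
  rw [h7, h2, ← h3, ← h1]
  rfl

end Crest.Agent.R215
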