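import Crest.Agent.R215.Defs

/-!
# Row 215, task CNT: the counting inequality
-/

set_option autoImplicit false

namespace Crest.Agent.R215

namespace CNT

/-- the three available upper bounds -/
structure H (p y : ℝ) : Prop where
  h1 : y ≤ 2 * p ^ 2
  h2 : y ≤ (1904 / 10000 + 5244 / 10000 * p) ^ 2
  h3 : 1 / 10 ≤ p → p ≤ 32 / 100 → y ≤ p ^ 2 * (1818 / 1000 - 1597 / 1000 * p)

theorem L1 {p y : ℝ} (h : H p y) (h0 : 155 / 1000 ≤ p) (h1 : p ≤ 1) :
    y ≤ 1216 / 10000 + 57 / 100 * (p - 3015 / 10000) := by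
  by_cases hp : p ≤ 302 / 1000
  · have h3 := h.h3 (by linarith) (by linarith)
    nlinarith [mul_nonneg (mul_nonneg (sub_nonneg.2 h0) (sub_nonneg.2 hp)) (show (0:ℝ) ≤ 379 / 1000 - p by linarith),
      mul_nonneg (sub_nonneg.2 h0) (sub_nonneg.2 hp)]
  · push Not at hp
    have h2 := h.h2
    nlinarith [mul_nonneg (sub_nonneg.2 hp.le) (sub_nonneg.2 h1)]

theorem L2 {p y : ℝ} (h : H p y) (h0 : 6 / 100 ≤ p) (h1 : p ≤ 68 / 100) :
    y ≤ 1216 / 10000 + 47 / 100 * (p - 3015 / 10000) := by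
  by_cases hp1 : p ≤ 1 / 10
  · have h2 := h.h1
    nlinarith [mul_nonneg (sub_nonneg.2 h0) (sub_nonneg.2 hp1)]
  by_cases hp : p ≤ 3017 / 10000
  · push Not at hp1
    have h3 := h.h3 (by linarith) (by linarith)
    nlinarith [mul_nonneg (mul_nonneg (sub_nonneg.2 hp1.le) (sub_nonneg.2 hp)) (show (0:ℝ) ≤ 379 / 1000 - p by linarith),
      mul_nonneg (sub_nonneg.2 hp1.le) (sub_nonneg.2 hp)]
  · push Not at hp
    have h2 := h.h2
    nlinarith [mul_nonneg (sub_nonneg.2 hp.le) (sub_nonneg.2 h1)]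

theorem N {p y : ℝ} (h : H p y) (h0 : 1 / 10 ≤ p) (h1 : p ≤ 7833 / 10000) :
    y ≤ 1216 / 10000 + 1 / 2 * (p - 3015 / 10000) := by
  by_cases hp : p ≤ 3017 / 10000
  · have h3 := h.h3 (by linarith) (by linarith)
    nlinarith [mul_nonneg (mul_nonneg (sub_nonneg.2 h0) (sub_nonneg.2 hp)) (show (0:ℝ) ≤ 379 / 1000 - p by linarith),
      mul_nonneg (sub_nonneg.2 h0) (sub_nonneg.2 hp)]
  · push Not at hp
    have h2 := h.h2
    nlinarith [mul_nonneg (sub_nonneg.2 hp.le) (sub_nonneg.2 h1)]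

theorem M {p y : ℝ} (h : H p y) (h0 : 38 / 1000 ≤ p) (h1 : p ≤ 3917 / 10000) :
    y ≤ 1216 / 10000 + 45 / 100 * (p - 3015 / 10000) := by
  by_cases hp1 : p ≤ 1 / 10
  · have h2 := h.h1
    nlinarith [mul_nonneg (sub_nonneg.2 h0) (sub_nonneg.2 hp1)]
  by_cases hp : p ≤ 3017 / 10000
  · push Not at hp1
    have h3 := h.h3 (by linarith) (by linarith)
    nlinarith [mul_nonneg (mul_nonneg (sub_nonneg.2 hp1.le) (sub_nonneg.2 hp)) (show (0:ℝ) ≤ 379 / 1000 - p by linarith),
      mul_nonneg (sub_nonneg.2 hp1.le) (sub_nonneg.2 hp)]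
  · push Not at hp
    have h2 := h.h2
    nlinarith [mul_nonneg (sub_nonneg.2 hp.le) (sub_nonneg.2 h1)]

theorem L3 {p y : ℝ} (h : H p y) (h0 : 0 ≤ p) (h1 : p ≤ 7 / 10) :
    y ≤ 461 / 1000 * p := by
  by_cases hp1 : p ≤ 2 / 10
  · have h2 := h.h1
    nlinarith [mul_nonneg h0 (sub_nonneg.2 hp1)]
  by_cases hp : p ≤ 302 / 1000
  · push Not at hp1
    have h3 := h.h3 (by linarith) (by linarith)
    nlinarith [mul_nonneg (mul_nonneg (sub_nonneg.2 hp1.le) (sub_nonneg.2 hp)) (show (0:ℝ) ≤ 379 / 1000 - p by linarith),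
      mul_nonneg (sub_nonneg.2 hp1.le) (sub_nonneg.2 hp)]
  · push Not at hp
    have h2 := h.h2
    nlinarith [mul_nonneg (sub_nonneg.2 hp.le) (sub_nonneg.2 h1)]

/-- the constraint region for `D, ρ ≤ 0.1` -/
theorem small_region {D ρ : ℝ} (hD : D ≤ 1 / 10) (hρ : ρ ≤ 1 / 10) (hD0 : 0 ≤ D) (hρ0 : 0 ≤ ρ)
    (h : 13 / 1000 ≤ D ^ 2 + ρ ^ 2) :
    5469 / 100000 ≤ D ∧ 5469 / 100000 ≤ ρ ∧ 2 / 10 - 4526 / 100000 ≤ D + ρ := by
  have h1 : 5469 / 100000 ≤ D := by
    by_contra hc
    push Not at hc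
    nlinarith
  have h2 : 5469 / 100000 ≤ ρ := by
    by_contra hc
    push Not at hc
    nlinarith
  refine ⟨h1, h2, ?_⟩
  by_contra hc
  push Not at hc
  have h3 : 0 ≤ (1 / 10 - D) * (D - 5469 / 100000) := mul_nonneg (by linarith) (by linarith)
  have h4 : 0 ≤ (1 / 10 - ρ) * (ρ - 5469 / 100000) := mul_nonneg (by linarith) (by linarith)
  nlinarith

/-- data of the four largest and of the rest -/
structure Dat (A B C D ρ yA yB yC e yD yQ : ℝ) : Prop where
  hA : H A yA
  hB : H B yB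
  hC : H C yC
  hD : H D yD
  BA : B ≤ A
  CB : C ≤ B
  DC : D ≤ C
  D0 : 0 ≤ D
  sum : A + B + C + D + ρ = 1
  he : e = yD + yQ
  q1 : yQ ≤ 2 * ρ * D
  q2 : yQ ≤ 2 * ρ ^ 2
  he0 : 26 / 1000 ≤ e
  hρ : 38 / 1000 ≤ ρ

theorem Dat.w {A B C D ρ yA yB yC e yD yQ : ℝ} (h : Dat A B C D ρ yA yB yC e yD yQ) :
    13 / 1000 ≤ D * (D + ρ) := by
  have h1 := h.hD.h1
  have h2 := h.q1
  have h3 := h.he
  have h4 := h.he0
  nlinarith

/-- regime I -/
theorem regI {A B C D ρ yA yB yC e yD yQ : ℝ} (h : Dat A B C D ρ yA yB yC e yD yQ)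
    (hC : 155 / 1000 ≤ C) : yA + yB + yC + e ≤ 358 / 1000 := by
  obtain ⟨hA, hB, hCC, hD, BA, CB, DC, D0, sum, he, q1, q2, he0, hρ⟩ := h
  have l1 := L1 hA (by linarith) (by linarith)
  have l2 := L1 hB (by linarith) (by linarith)
  have l3 := L1 hCC (by linarith) (by linarith)
  suffices hs : e ≤ 57 / 100 * (D + ρ) - 61235 / 1000000 by linarith
  have hD4 : 4 * D ≤ 1 - ρ := by linarith
  by_cases hD1 : D < 1 / 10
  · by_cases hr : ρ ≤ 1 / 10
    · have hreg := small_region hD1.le hr D0 (by linarith) (by nlinarith [hD.h1])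
      obtain ⟨r1, r2, r3⟩ := hreg
      have h1 := hD.h1
      have h3 : 0 ≤ (1 / 10 - D) * (D - 5469 / 100000) := mul_nonneg (by linarith) (by linarith)
      have h4 : 0 ≤ (1 / 10 - ρ) * (ρ - 5469 / 100000) := mul_nonneg (by linarith) (by linarith)
      nlinarith
    · push Not at hr
      have h1 := hD.h1
      have hw : 13 / 1000 ≤ D * (D + ρ) := by nlinarith
      have hw2 : 1655 / 10000 ≤ D + ρ := by
        by_contra hc
        push Not at hc
        have : 785 / 10000 ≤ D := by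
          by_contra hc2
          push Not at hc2
          nlinarith
        linarith
      nlinarith [mul_nonneg (show (0:ℝ) ≤ 1 / 10 - D by linarith) (show (0:ℝ) ≤ D + ρ by linarith)]
  · push Not at hD1
    have h3 := hD.h3 hD1 (by linarith)
    have hD5 : D ≤ 2405 / 10000 := by linarith
    by_cases hD2 : D ≤ 11 / 100
    · have hyD : yD ≤ 1988 / 100000 := by
        nlinarith [mul_nonneg (sub_nonneg.2 hD1) (sub_nonneg.2 hD2)]
      have hg : yD ≤ 57 / 100 * D - 404 / 10000 := by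
        nlinarith [mul_nonneg (sub_nonneg.2 hD1) (sub_nonneg.2 hD2)]
      have hr : 55 / 1000 ≤ ρ := by
        by_contra hc
        push Not at hc
        nlinarith
      by_cases hr2 : ρ ≤ 2 / 10
      · nlinarith [mul_nonneg (sub_nonneg.2 hr) (sub_nonneg.2 hr2)]
      · push Not at hr2
        nlinarith
    · push Not at hD2
      have hg : yD ≤ 57 / 100 * D - 427 / 10000 := by
        nlinarith [mul_nonneg (mul_nonneg (sub_nonneg.2 hD2.le) (sub_nonneg.2 hD5))
          (show (0:ℝ) ≤ 379 / 1000 - D by linarith), mul_nonneg (sub_nonneg.2 hD2.le) (sub_nonneg.2 hD5)]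
      by_cases hr2 : ρ ≤ 2 / 10
      · nlinarith [mul_nonneg (sub_nonneg.2 hρ) (sub_nonneg.2 hr2)]
      · push Not at hr2
        have : D ≤ 2 / 10 := by linarith
        nlinarith

/-- regime II, `D ≥ 0.06` -/
theorem regII1 {A B C D ρ yA yB yC e yD yQ : ℝ} (h : Dat A B C D ρ yA yB yC e yD yQ)
    (hC : C ≤ 155 / 1000) (hD6 : 6 / 100 ≤ D) : yA + yB + yC + e ≤ 358 / 1000 := by
  have hw := h.w
  obtain ⟨hA, hB, hCC, hD, BA, CB, DC, D0, sum, he, q1, q2, he0, hρ⟩ := h
  have hA68 : A ≤ 68 / 100 := by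
    by_contra hc
    push Not at hc
    have h1 : D + ρ ≤ 32 / 100 - 2 * D := by linarith
    nlinarith [mul_nonneg D0 (sub_nonneg.2 h1), sq_nonneg (D - 8 / 100)]
  have l1 := L2 hA (by linarith) hA68
  have l2 := L2 hB (by linarith) (by linarith)
  by_cases hC1 : 1 / 10 ≤ C
  · have h3 := hCC.h3 hC1 (by linarith)
    have hyC : yC ≤ 47 / 100 * C - 304 / 10000 := by
      nlinarith [mul_nonneg (mul_nonneg (sub_nonneg.2 hC1) (sub_nonneg.2 hC))
          (show (0:ℝ) ≤ 379 / 1000 - C by linarith), mul_nonneg (sub_nonneg.2 hC1) (sub_nonneg.2 hC)]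
    suffices hs : e ≤ 47 / 100 * (D + ρ) - 4139 / 100000 by linarith
    by_cases hD1 : D < 1 / 10
    · by_cases hr : ρ ≤ 1 / 10
      · have hreg := small_region hD1.le hr D0 (by linarith) (by nlinarith [hD.h1])
        obtain ⟨r1, r2, r3⟩ := hreg
        have h1 := hD.h1
        have h3 : 0 ≤ (1 / 10 - D) * (D - 5469 / 100000) := mul_nonneg (by linarith) (by linarith)
        have h4 : 0 ≤ (1 / 10 - ρ) * (ρ - 5469 / 100000) := mul_nonneg (by linarith) (by linarith)
        nlinarith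
      · push Not at hr
        have h1 := hD.h1
        have hw2 : 154 / 1000 ≤ D + ρ := by linarith
        nlinarith [mul_nonneg (show (0:ℝ) ≤ 1 / 10 - D by linarith) (show (0:ℝ) ≤ D + ρ by linarith)]
    · push Not at hD1
      have h3 := hD.h3 hD1 (by linarith)
      have hD5 : D ≤ 155 / 1000 := by linarith
      have hyD : yD ≤ 47 / 100 * D - 304 / 10000 := by
        nlinarith [mul_nonneg (mul_nonneg (sub_nonneg.2 hD1) (sub_nonneg.2 hD5))
          (show (0:ℝ) ≤ 379 / 1000 - D by linarith), mul_nonneg (sub_nonneg.2 hD1) (sub_nonneg.2 hD5)]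
      by_cases hr2 : ρ ≤ 19 / 100
      · nlinarith [mul_nonneg (sub_nonneg.2 hρ) (sub_nonneg.2 hr2)]
      · push Not at hr2
        nlinarith
  · push Not at hC1
    have hyC := hCC.h1
    have hmono : 47 / 100 * D - 2 * D ^ 2 ≤ 47 / 100 * C - 2 * C ^ 2 := by nlinarith
    suffices hs : e ≤ 47 / 100 * (D + ρ) + 47 / 100 * D - 2 * D ^ 2 - 7179 / 100000 by linarith
    have hyD := hD.h1
    by_cases hr : ρ ≤ 1 / 10
    · have hreg := small_region (by linarith) hr D0 (by linarith) (by nlinarith [hD.h1])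
      obtain ⟨r1, r2, r3⟩ := hreg
      have hD7 : 744 / 10000 ≤ D := by
        by_contra hc
        push Not at hc
        nlinarith
      have h3 : 0 ≤ (1 / 10 - D) * (D - 744 / 10000) := mul_nonneg (by linarith) (by linarith)
      have h4 : 0 ≤ (1 / 10 - ρ) * (ρ - 5469 / 100000) := mul_nonneg (by linarith) (by linarith)
      nlinarith
    · push Not at hr
      have hDw : 2244 / 10000 ≤ D + (D + ρ) := by
        by_contra hc
        push Not at hc
        nlinarith [sq_nonneg (D - 1122 / 10000)]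
      nlinarith [mul_nonneg (show (0:ℝ) ≤ 1 / 10 - D by linarith) (show (0:ℝ) ≤ D + ρ by linarith)]

/-- regime II, `D ≤ 0.06` -/
theorem regII2 {A B C D ρ yA yB yC e yD yQ : ℝ} (h : Dat A B C D ρ yA yB yC e yD yQ)
    (hD6 : D ≤ 6 / 100) : yA + yB + yC + e ≤ 358 / 1000 := by
  have hw := h.w
  obtain ⟨hA, hB, hCC, hD, BA, CB, DC, D0, sum, he, q1, q2, he0, hρ⟩ := h
  have hyD := hD.h1
  have hee : e ≤ 2 * (D * (D + ρ)) := by nlinarith
  by_cases hD3 : D ≤ 38 / 1000
  · have hw3 : 342 / 1000 ≤ D + ρ := by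
      by_contra hc
      push Not at hc
      nlinarith
    have l1 := L3 hA (by linarith) (by linarith)
    have l2 := L3 hB (by linarith) (by linarith)
    have l3 := L3 hCC (by linarith) (by linarith)
    nlinarith
  · push Not at hD3
    have hw3 : 2166 / 10000 ≤ D + ρ := by
      by_contra hc
      push Not at hc
      nlinarith
    by_cases hA1 : A ≤ 179 / 1000
    · have a1 := hA.h1
      have b1 := hB.h1
      have c1 := hCC.h1
      nlinarith [mul_nonneg (show (0:ℝ) ≤ B by linarith) (sub_nonneg.2 BA),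
        mul_nonneg (show (0:ℝ) ≤ C by linarith) (show (0:ℝ) ≤ A - C by linarith),
        mul_nonneg (show (0:ℝ) ≤ D + ρ by linarith) (show (0:ℝ) ≤ A - D by linarith)]
    · push Not at hA1
      have l1 := N hA (by linarith) (by linarith)
      have l2 := M hB (by linarith) (by linarith)
      have l3 := M hCC (by linarith) (by linarith)
      nlinarith

theorem core {A B C D ρ yA yB yC e yD yQ : ℝ} (h : Dat A B C D ρ yA yB yC e yD yQ) :
    yA + yB + yC + e ≤ 358 / 1000 := by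
  rcases le_total (155 / 1000) C with h1 | h1
  · exact regI h h1
  · rcases le_total (6 / 100) D with h2 | h2
    · exact regII1 h h1 h2
    · exact regII2 h h2

end CNT

open CNT in
theorem cnt : StCnt := by
  intro s p y a b c d ha hb hc hd hab hac had hbc hbd hcd hp0 hp1 hba hcb hdc hQ h1 h2 h3 h26 h38
  have hsub3 : ({a, b, c} : Finset ℕ) ⊆ s := by
    intro i hi
    simp only [Finset.mem_insert, Finset.mem_singleton] at hi
    rcases hi with rfl | rfl | rfl <;> assumption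
  have hsub4 : ({a, b, c, d} : Finset ℕ) ⊆ s := by
    intro i hi
    simp only [Finset.mem_insert, Finset.mem_singleton] at hi
    rcases hi with rfl | rfl | rfl | rfl <;> assumption
  have hsum4 : ∀ f : ℕ → ℝ, ∑ i ∈ s, f i = f a + f b + f c + f d + ∑ i ∈ s \ {a, b, c, d}, f i := by
    intro f
    rw [← Finset.sum_sdiff hsub4, Finset.sum_insert (by simp [hab, hac, had]),
      Finset.sum_insert (by simp [hbc, hbd]), Finset.sum_insert (by simp [hcd]), Finset.sum_singleton]
    ring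
  have hsum3 : ∀ f : ℕ → ℝ, ∑ i ∈ s, f i = f a + f b + f c + ∑ i ∈ s \ {a, b, c}, f i := by
    intro f
    rw [← Finset.sum_sdiff hsub3, Finset.sum_insert (by simp [hab, hac]),
      Finset.sum_insert (by simp [hbc]), Finset.sum_singleton]
    ring
  set ρ := ∑ i ∈ s \ {a, b, c, d}, p i with hρ
  set yQ := ∑ i ∈ s \ {a, b, c, d}, y i with hyQ
  have hd3 : ∑ i ∈ s \ {a, b, c}, y i = y d + yQ := by
    have e1 := hsum4 y
    have e2 := hsum3 y
    linarith
  have hpQ : ∀ i ∈ s \ {a, b, c, d}, 0 ≤ p i := fun i hi => hp0 i (Finset.mem_sdiff.1 hi).1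
  have hle : ∀ i ∈ s \ {a, b, c, d}, p i ≤ ρ := fun i hi => Finset.single_le_sum hpQ hi
  have hbd : ∀ t : ℝ, (∀ i ∈ s \ {a, b, c, d}, p i ≤ t) → yQ ≤ 2 * ρ * t := by
    intro t ht
    calc yQ ≤ ∑ i ∈ s \ {a, b, c, d}, 2 * t * p i := by
          refine Finset.sum_le_sum fun i hi => ?_
          have e1 := h1 i (Finset.mem_sdiff.1 hi).1
          have e2 := ht i hi
          have e3 := hpQ i hi
          nlinarith
      _ = 2 * ρ * t := by rw [← Finset.mul_sum]; ring
  have hH : ∀ i ∈ s, H (p i) (y i) := fun i hi => ⟨h1 i hi, h2 i hi, h3 i hi⟩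
  have hdat : Dat (p a) (p b) (p c) (p d) ρ (y a) (y b) (y c) (y d + yQ) (y d) yQ :=
    { hA := hH a ha
      hB := hH b hb
      hC := hH c hc
      hD := hH d hd
      BA := hba
      CB := hcb
      DC := hdc
      D0 := hp0 d hd
      sum := by rw [← hsum4 p]; exact hp1
      he := rfl
      q1 := hbd (p d) hQ
      q2 := by have := hbd ρ hle; nlinarith
      he0 := by rw [← hd3]; exact h26
      hρ := h38 }
  have := core hdat
  rw [hsum4 y]
  linarith

end Crest.Agent.R215
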