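import Crest.Agent.R215.Defs
import Crest.Agent.R215.ARCH

/-! Row 215, CONE: norm and direction are independent. -/

set_option autoImplicit false

open MeasureTheory ProbabilityTheory Set

noncomputable section

namespace Crest.Agent.R215

namespace CONE

abbrev V3 := EuclideanSpace ℝ (Fin 3)

/-- normalising constant -/
def KK : ℝ := ∫ x : V3, Real.exp (-(1 / 2) * ‖x‖ ^ 2)

theorem KK_eq : KK = (Real.pi / (1 / 2)) ^ (Module.finrank ℝ V3 / 2 : ℝ) := by
  unfold KK
  rw [GaussianFourier.integral_rexp_neg_mul_sq_norm (by norm_num)]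

theorem KK_pos : 0 < KK := by
  rw [KK_eq]
  have := Real.pi_pos
  positivity

/-- the density -/
def dens (x : V3) : ℝ := KK⁻¹ * Real.exp (-(1 / 2) * ‖x‖ ^ 2)

theorem dens_nonneg (x : V3) : 0 ≤ dens x := by
  unfold dens; have := KK_pos; positivity

theorem dens_meas : Measurable dens := by unfold dens; fun_prop

theorem dens_int : Integrable dens := by
  apply Integrable.const_mul
  by_contra h
  have h1 := integral_undef h
  exact (KK_pos.ne') h1

theorem std_eq : stdGaussian V3 = volume.withDensity (fun x => ENNReal.ofReal (dens x)) := by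
  have : IsFiniteMeasure (volume.withDensity (fun x : V3 => ENNReal.ofReal (dens x))) :=
    isFiniteMeasure_withDensity_ofReal dens_int.2
  apply Measure.ext_of_charFun
  ext t
  have hm := dens_meas
  rw [charFun_stdGaussian, charFun_apply,
    integral_withDensity_eq_integral_toReal_smul (by fun_prop) (by simp)]
  have e1 : ∀ x : V3, (ENNReal.ofReal (dens x)).toReal • Complex.exp (inner ℝ x t * Complex.I) =
      (KK⁻¹ : ℂ) * Complex.exp (-(1 / 2 : ℂ) * ‖x‖ ^ 2 + Complex.I * inner ℝ t x) := by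
    intro x
    rw [ENNReal.toReal_ofReal (dens_nonneg x), Complex.exp_add, Complex.real_smul]
    unfold dens
    push_cast
    rw [real_inner_comm t x, mul_comm Complex.I]
    ring
  simp only [e1]
  rw [integral_const_mul, GaussianFourier.integral_cexp_neg_mul_sq_norm_add (by norm_num)]
  have e2 : ((Real.pi : ℂ) / (1 / 2)) ^ ((Module.finrank ℝ V3 : ℂ) / 2) = (KK : ℂ) := by
    rw [KK_eq, Complex.ofReal_cpow (by have := Real.pi_pos; positivity)]
    push_cast
    rfl
  rw [e2, ← mul_assoc, inv_mul_cancel₀ (by exact_mod_cast KK_pos.ne'), one_mul, Complex.I_sq]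
  congr 1
  ring

theorem cone_lint (B : Set V3) (hB : MeasurableSet B)
    (hc : ∀ x ∈ B, ∀ c : ℝ, 0 < c → c • x ∈ B) (g : ℝ → ENNReal) (hg : Measurable g) :
    ∫⁻ x in B, g ‖x‖ = (volume : Measure V3).toSphere {ω | (ω : V3) ∈ B} *
      ∫⁻ r : Ioi (0:ℝ), g r ∂(Measure.volumeIoiPow 2) := by
  classical
  have h := (volume : Measure V3).measurePreserving_homeomorphUnitSphereProd
  have hd : Module.finrank ℝ V3 - 1 = 2 := by simp
  rw [hd] at h
  set F : Metric.sphere (0 : V3) 1 × Ioi (0:ℝ) → ENNReal :=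
    fun p => ({ω : Metric.sphere (0 : V3) 1 | (ω : V3) ∈ B}.indicator (fun _ => 1) p.1) * g p.2 with hF
  have hS : MeasurableSet {ω : Metric.sphere (0 : V3) 1 | (ω : V3) ∈ B} :=
    measurable_subtype_coe hB
  have e1 := h.lintegral_comp_emb (Homeomorph.measurableEmbedding _) F
  rw [hF] at e1
  rw [lintegral_prod_mul (f := {ω : Metric.sphere (0 : V3) 1 | (ω : V3) ∈ B}.indicator fun _ => (1 : ENNReal))
    (g := fun r : Ioi (0:ℝ) => g r) (by fun_prop (disch := assumption)) (by fun_prop),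
    lintegral_indicator hS, setLIntegral_one] at e1
  rw [← e1, ← lintegral_indicator hB]
  have e2 : ∀ a : ({0}ᶜ : Set V3), {ω : Metric.sphere (0 : V3) 1 | (ω : V3) ∈ B}.indicator
      (fun _ => (1 : ENNReal)) (homeomorphUnitSphereProd V3 a).1 *
        g ((homeomorphUnitSphereProd V3 a).2 : ℝ) = B.indicator (fun x => g ‖x‖) (a : V3) := by
    intro a
    have ha : (a : V3) ≠ 0 := a.2
    have hn : 0 < ‖(a : V3)‖ := norm_pos_iff.2 ha
    rw [homeomorphUnitSphereProd_apply_snd_coe]
    by_cases hB' : (a : V3) ∈ B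
    · rw [indicator_of_mem (s := B) hB', indicator_of_mem, one_mul]
      show ((homeomorphUnitSphereProd V3 a).1 : V3) ∈ B
      rw [homeomorphUnitSphereProd_apply_fst_coe]
      exact hc _ hB' _ (inv_pos.2 hn)
    · rw [indicator_of_notMem (s := B) hB', indicator_of_notMem, zero_mul]
      intro hmem
      have h' : ((homeomorphUnitSphereProd V3 a).1 : V3) ∈ B := hmem
      rw [homeomorphUnitSphereProd_apply_fst_coe] at h'
      apply hB'
      have := hc _ h' _ hn
      rwa [smul_smul, mul_inv_cancel₀ hn.ne', one_smul] at this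
  simp only [e2]
  rw [lintegral_subtype_comap (measurableSet_singleton (0:V3)).compl
    (fun x => B.indicator (fun x => g ‖x‖) x), restrict_compl_singleton]

theorem std_lint (B : Set V3) (hB : MeasurableSet B)
    (hc : ∀ x ∈ B, ∀ c : ℝ, 0 < c → c • x ∈ B) (g : ℝ → ENNReal) (hg : Measurable g) :
    ∫⁻ x in B, g ‖x‖ ∂(stdGaussian V3) = (volume : Measure V3).toSphere {ω | (ω : V3) ∈ B} *
      ∫⁻ r : Ioi (0:ℝ), ENNReal.ofReal (KK⁻¹ * Real.exp (-(1 / 2) * (r:ℝ) ^ 2)) * g r
        ∂(Measure.volumeIoiPow 2) := by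
  have hm := dens_meas
  rw [std_eq, restrict_withDensity hB, lintegral_withDensity_eq_lintegral_mul _ (by fun_prop)
    (by fun_prop)]
  rw [← cone_lint B hB hc (fun r => ENNReal.ofReal (KK⁻¹ * Real.exp (-(1 / 2) * r ^ 2)) * g r)
    (by fun_prop)]
  rfl

theorem key (B : Set V3) (hB : MeasurableSet B)
    (hc : ∀ x ∈ B, ∀ c : ℝ, 0 < c → c • x ∈ B) :
    ∫⁻ x in B, ENNReal.ofReal ‖x‖ ∂(stdGaussian V3) =
      stdGaussian V3 B * ∫⁻ x, ENNReal.ofReal ‖x‖ ∂(stdGaussian V3) := by
  have h1 := std_lint B hB hc (fun r => ENNReal.ofReal r) (by fun_prop)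
  have h2 := std_lint B hB hc (fun _ => 1) (by fun_prop)
  have h3 := std_lint univ MeasurableSet.univ (fun _ _ _ _ => mem_univ _)
    (fun r => ENNReal.ofReal r) (by fun_prop)
  have h4 := std_lint univ MeasurableSet.univ (fun _ _ _ _ => mem_univ _)
    (fun _ => 1) (by fun_prop)
  rw [setLIntegral_one] at h2 h4
  rw [Measure.restrict_univ] at h3
  rw [measure_univ] at h4
  rw [h1, h2, h3]
  set S := (volume : Measure V3).toSphere {ω | (ω : V3) ∈ B}
  set T := (volume : Measure V3).toSphere {ω | (ω : V3) ∈ (univ : Set V3)}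
  set I0 := ∫⁻ r : Ioi (0:ℝ), ENNReal.ofReal (KK⁻¹ * Real.exp (-(1 / 2) * (r:ℝ) ^ 2)) * 1
        ∂(Measure.volumeIoiPow 2)
  set I1 := ∫⁻ r : Ioi (0:ℝ), ENNReal.ofReal (KK⁻¹ * Real.exp (-(1 / 2) * (r:ℝ) ^ 2)) *
        ENNReal.ofReal r ∂(Measure.volumeIoiPow 2)
  calc S * I1 = (S * I1) * 1 := (mul_one _).symm
    _ = (S * I1) * (T * I0) := by rw [← h4]
    _ = (S * I0) * (T * I1) := by ring

end CONE

theorem cone : StCone := by
  intro B hB hc
  have hc' : ∀ x ∈ B, ∀ c : ℝ, 0 < c → c • x ∈ B := hc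
  rw [integral_eq_lintegral_of_nonneg_ae (Filter.Eventually.of_forall fun x => norm_nonneg _)
    (by fun_prop), CONE.key B hB hc', ENNReal.toReal_mul]
  congr 1
  rw [← arch.1, integral_eq_lintegral_of_nonneg_ae (Filter.Eventually.of_forall fun x => norm_nonneg _)
    (by fun_prop)]

end Crest.Agent.R215
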