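import Crest.Agent.R215.LibG

set_option autoImplicit false
set_option linter.unusedSectionVars false

open MeasureTheory ProbabilityTheory Set

noncomputable section

namespace Crest.Agent.R215

universe u

namespace CRIT

variable {E : Type u} [NormedAddCommGroup E] [InnerProductSpace ℝ E] [FiniteDimensional ℝ E]
  [MeasurableSpace E] [BorelSpace E]

theorem VV_nonneg (s : Finset ℕ) (z : ℕ → E) : 0 ≤ VV s z :=
  Finset.sum_nonneg fun _ _ => by positivity

theorem VV_smul (c : ℝ) (s : Finset ℕ) (z : ℕ → E) : VV s (fun i => c • z i) = c ^ 2 * VV s z := by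
  unfold VV
  rw [Finset.mul_sum]
  refine Finset.sum_congr rfl fun i _ => ?_
  rw [norm_smul, mul_pow, Real.norm_eq_abs, sq_abs]

theorem CC_pos : 0 < CC := by unfold CC; positivity

/-- squares from a partition: if the sum of squares of the moments is `X`, then
`X ≤ em s a`. -/
theorem sum_inner_self (s : Finset ℕ) (a : ℕ → E) :
    ∑ i ∈ s, (inner ℝ (a i) (a i) : ℝ) = VV s a := by
  unfold VV
  exact Finset.sum_congr rfl fun i _ => real_inner_self_eq_norm_sq _

theorem inner_sum_le (s : Finset ℕ) (v a : ℕ → E) :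
    ∑ i ∈ s, (inner ℝ (v i) (a i) : ℝ) ≤ Real.sqrt (VV s v) * Real.sqrt (VV s a) := by
  calc ∑ i ∈ s, (inner ℝ (v i) (a i) : ℝ) ≤ ∑ i ∈ s, ‖v i‖ * ‖a i‖ :=
        Finset.sum_le_sum fun i _ => real_inner_le_norm _ _
    _ ≤ Real.sqrt (∑ i ∈ s, ‖v i‖ ^ 2) * Real.sqrt (∑ i ∈ s, ‖a i‖ ^ 2) :=
        Real.sum_mul_le_sqrt_mul_sqrt s _ _
    _ = _ := rfl

end CRIT

open CRIT

variable (E : Type u) [NormedAddCommGroup E] [InnerProductSpace ℝ E] [FiniteDimensional ℝ E]
  [MeasurableSpace E] [BorelSpace E]

theorem crit (hP : StPart E) (hM : StMax E) : StCrit E := by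
  classical
  intro n H hex
  obtain ⟨s, w, hcard, hw⟩ := hex
  have hs : s.Nonempty := by
    rw [← Finset.card_pos]; omega
  -- nontriviality
  have hnt : Nontrivial E := by
    by_contra hcon
    rw [not_nontrivial_iff_subsingleton] at hcon
    have h0 : em s w = 0 := by
      unfold em
      have : ∀ x : E, mx s w x = 0 := by
        intro x
        obtain ⟨i, _, h⟩ := exists_mx hs w x
        rw [h, Subsingleton.elim x 0, inner_zero_left]
      simp [this]
    rw [h0] at hw
    have := mul_nonneg CC_pos.le (VV_nonneg s w)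
    nlinarith
  obtain ⟨v, hv1, hv⟩ := hM hnt s hs
  set m := em s v with hm
  have hm0 : 0 ≤ m := em_nonneg s v
  have hCm : CC < m ^ 2 := by
    have h1 := hv w
    have h2 : (em s w) ^ 2 ≤ m ^ 2 * VV s w := by
      have h3 : (em s w) ^ 2 ≤ (m * Real.sqrt (VV s w)) ^ 2 :=
        pow_le_pow_left₀ (em_nonneg s w) h1 2
      rwa [mul_pow, Real.sq_sqrt (VV_nonneg s w)] at h3
    have h4 : CC * VV s w < m ^ 2 * VV s w := lt_of_lt_of_le hw h2
    exact lt_of_mul_lt_mul_right h4 (VV_nonneg s w)
  have hmpos : 0 < m := by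
    rcases hm0.lt_or_eq with h | h
    · exact h
    · rw [← h] at hCm; have := CC_pos; norm_num at hCm; linarith
  obtain ⟨hP1, hP2⟩ := hP s hs
  -- the critical vectors
  set z : ℕ → E := fun i => m • v i with hz
  have hVz : VV s z = m ^ 2 := by rw [hz, VV_smul, hv1, mul_one]
  have hez : em s z = m ^ 2 := by rw [hz, em_smul hm0, ← hm]; ring
  obtain ⟨B, hBm, hBd, hBc, hBs, hBe⟩ := hP2 z
  set a : ℕ → E := fun i => ∫ x in B i, x ∂(stdGaussian E) with ha
  have hva : ∑ i ∈ s, (inner ℝ (v i) (a i) : ℝ) = m := by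
    have h1 : ∑ i ∈ s, (inner ℝ (z i) (a i) : ℝ) = m ^ 2 := by rw [← hez]; exact hBe
    have h2 : ∑ i ∈ s, (inner ℝ (z i) (a i) : ℝ) = m * ∑ i ∈ s, (inner ℝ (v i) (a i) : ℝ) := by
      rw [Finset.mul_sum]
      refine Finset.sum_congr rfl fun i _ => ?_
      rw [hz]; simp only [inner_smul_left]; simp
    rw [h2, pow_two] at h1
    exact mul_left_cancel₀ hmpos.ne' h1
  have hA1 : m ≤ Real.sqrt (VV s a) := by
    have h1 := inner_sum_le s v a
    rw [hva, hv1] at h1
    simpa using h1
  have hA2 : VV s a ≤ m * Real.sqrt (VV s a) := by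
    have h1 := hP1 a B hBm hBd hBc
    have h2 : ∑ i ∈ s, (inner ℝ (a i) (∫ x in B i, x ∂(stdGaussian E)) : ℝ) = VV s a :=
      sum_inner_self s a
    rw [h2] at h1
    exact h1.trans (hv a)
  have hA3 : Real.sqrt (VV s a) = m := by
    apply le_antisymm _ hA1
    have h1 : Real.sqrt (VV s a) * Real.sqrt (VV s a) ≤ m * Real.sqrt (VV s a) := by
      rw [Real.mul_self_sqrt (VV_nonneg s a)]; exact hA2
    exact le_of_mul_le_mul_right h1 (lt_of_lt_of_le hmpos hA1)
  have hA4 : VV s a = m ^ 2 := by
    rw [← hA3, Real.sq_sqrt (VV_nonneg s a)]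
  have haz : ∀ i ∈ s, a i = z i := by
    have h1 : ∑ i ∈ s, ‖a i - z i‖ ^ 2 = 0 := by
      have h2 : ∀ i ∈ s, ‖a i - z i‖ ^ 2 = ‖a i‖ ^ 2 - 2 * m * (inner ℝ (v i) (a i) : ℝ) + m ^ 2 * ‖v i‖ ^ 2 := by
        intro i _
        rw [norm_sub_sq_real, hz]
        simp only [inner_smul_right, norm_smul, Real.norm_eq_abs, mul_pow, sq_abs]
        rw [real_inner_comm]
        ring
      rw [Finset.sum_congr rfl h2, Finset.sum_add_distrib, Finset.sum_sub_distrib,
        ← Finset.mul_sum, ← Finset.mul_sum, hva]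
      have h3 : ∑ i ∈ s, ‖a i‖ ^ 2 = m ^ 2 := hA4
      have h4 : ∑ i ∈ s, ‖v i‖ ^ 2 = 1 := hv1
      rw [h3, h4]; ring
    intro i hi
    have h5 := (Finset.sum_eq_zero_iff_of_nonneg (fun i _ => by positivity)).1 h1 i hi
    have h6 : a i - z i = 0 := by simpa using h5
    exact sub_eq_zero.1 h6
  -- the vectors are distinct
  have hne : ∀ i ∈ s, ∀ j ∈ s, i ≠ j → z i ≠ z j := by
    intro i hi j hj hij hcon
    have hi' : i ∈ s.erase j := Finset.mem_erase.2 ⟨hij, hi⟩
    have h1 : em s z = em (s.erase j) z := by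
      unfold em
      refine integral_congr_ae (ae_of_all _ fun x => ?_)
      apply le_antisymm
      · rw [mx_le_iff hs]
        intro k hk
        by_cases hkj : k = j
        · rw [hkj, ← hcon]; exact inner_le_mx hi'
        · exact inner_le_mx (Finset.mem_erase.2 ⟨hkj, hk⟩)
      · exact mx_mono ⟨i, hi'⟩ (Finset.erase_subset _ _) z x
    have h2 := H (s.erase j) z (by rw [Finset.card_erase_of_mem hj]; omega)
    have h3 : VV (s.erase j) z ≤ VV s z :=
      Finset.sum_le_sum_of_subset_of_nonneg (Finset.erase_subset _ _) fun _ _ _ => by positivity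
    rw [← h1, hez] at h2
    rw [hVz] at h3
    have h4 : (m ^ 2) ^ 2 ≤ CC * m ^ 2 := h2.trans (mul_le_mul_of_nonneg_left h3 CC_pos.le)
    have h5 : 0 < m ^ 2 := by positivity
    nlinarith
  have tie : ∀ i ∈ s, ∀ j ∈ s, i ≠ j → stdGaussian E (cell s z i ∩ cell s z j) = 0 := by
    intro i hi j hj hij
    have h1 : cell s z i ∩ cell s z j ⊆ {x | (inner ℝ x (z i - z j) : ℝ) = 0} := by
      intro x hx
      have h2 := mx_of_mem_cell hi hx.1
      have h3 := mx_of_mem_cell hj hx.2
      show (inner ℝ x (z i - z j) : ℝ) = 0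
      rw [inner_sub_right, ← h2, ← h3, sub_self]
    exact measure_mono_null h1 (sg_null _ (sub_ne_zero.2 (hne i hi j hj hij)) 0)
  have mom : ∀ i ∈ s, ∫ x in cell s z i, x ∂(stdGaussian E) = z i := by
    intro i hi
    have h1 : B i =ᵐ[stdGaussian E] cell s z i := by
      have h2 : stdGaussian E (⋃ j ∈ s.erase i, (cell s z i ∩ cell s z j)) = 0 := by
        refine (measure_biUnion_null_iff (Finset.countable_toSet _)).2 fun j hj => ?_
        exact tie i hi j (Finset.mem_of_mem_erase hj) (Finset.ne_of_mem_erase hj).symm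
      have h3 : ∀ᵐ x ∂(stdGaussian E), x ∉ ⋃ j ∈ s.erase i, (cell s z i ∩ cell s z j) :=
        measure_eq_zero_iff_ae_notMem.1 h2
      filter_upwards [h3] with x hx
      apply propext
      constructor
      · intro h; exact hBs i hi h
      · intro h
        obtain ⟨j, hj, hxj⟩ := hBc x
        by_cases hij : j = i
        · rw [hij] at hxj; exact hxj
        · exfalso
          apply hx
          rw [Set.mem_iUnion₂]
          exact ⟨j, Finset.mem_erase.2 ⟨hij, hj⟩, h, hBs j hj hxj⟩
    rw [← setIntegral_congr_set h1]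
    exact haz i hi
  have sum0 : ∑ i ∈ s, z i = 0 := by
    have h1 := integral_eq_sum_cell hs tie (fun x : E => x) sg_integrable_id
    have h2 : ∫ x : E, x ∂(stdGaussian E) = 0 := by
      have h3 := sg_integral_neg (fun x : E => x)
      rw [integral_neg] at h3
      have h4 : (2 : ℝ) • ∫ x : E, x ∂(stdGaussian E) = 0 := by
        rw [two_smul]; nth_rewrite 1 [← h3]; simp
      exact (smul_eq_zero.1 h4).resolve_left (by norm_num)
    rw [h2, Finset.sum_congr rfl mom] at h1
    exact h1.symm
  refine ⟨s, z, hcard, ?_, ?_, mom, tie, sum0, ?_, ?_⟩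
  · rw [hVz]; exact hCm
  · rw [hez, hVz]
  · intro i hi j hj hij
    set s' := s.erase j with hs'
    have hi' : i ∈ s' := Finset.mem_erase.2 ⟨hij, hi⟩
    obtain ⟨hQ1, -⟩ := hP s' ⟨i, hi'⟩
    set B' : ℕ → Set E := fun k => if k = i then B i ∪ B j else B k with hB'
    set b : ℕ → E := fun k => if k = i then z i + z j else z k with hb
    have hb1 : ∀ k ∈ s', ∫ x in B' k, x ∂(stdGaussian E) = b k := by
      intro k hk
      by_cases hki : k = i
      · simp only [hB', hb, hki, if_true]
        rw [setIntegral_union (hBd i hi j hj hij) (hBm j hj) sg_integrable_id.integrableOn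
          sg_integrable_id.integrableOn]
        have e1 := haz i hi
        have e2 := haz j hj
        simp only [ha] at e1 e2
        rw [e1, e2]
      · simp only [hB', hb, hki, if_false]
        exact haz k (Finset.mem_of_mem_erase hk)
    have h1 := hQ1 b B' (by
        intro k hk
        by_cases hki : k = i
        · simp only [hB', hki, if_true]; exact (hBm i hi).union (hBm j hj)
        · simp only [hB', hki, if_false]; exact hBm k (Finset.mem_of_mem_erase hk)) (by
        intro k hk l hl hkl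
        have hk' := Finset.mem_of_mem_erase hk
        have hl' := Finset.mem_of_mem_erase hl
        have hkj := Finset.ne_of_mem_erase hk
        have hlj := Finset.ne_of_mem_erase hl
        by_cases hki : k = i
        · have hli : l ≠ i := fun h => hkl (hki.trans h.symm)
          simp only [hB', hki, if_true, hli, if_false]
          rw [Set.disjoint_union_left]
          exact ⟨hBd i hi l hl' hli.symm, hBd j hj l hl' hlj.symm⟩
        · by_cases hli : l = i
          · simp only [hB', hki, if_false, hli, if_true]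
            rw [Set.disjoint_union_right]
            exact ⟨hBd k hk' i hi hki, hBd k hk' j hj hkj⟩
          · simp only [hB', hki, if_false, hli]
            exact hBd k hk' l hl' hkl) (by
        intro x
        obtain ⟨k, hk, hx⟩ := hBc x
        by_cases hkj : k = j
        · refine ⟨i, hi', ?_⟩
          simp only [hB', if_true]
          right; rw [← hkj]; exact hx
        · by_cases hki : k = i
          · refine ⟨i, hi', ?_⟩
            simp only [hB', if_true]
            left; rw [← hki]; exact hx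
          · refine ⟨k, Finset.mem_erase.2 ⟨hkj, hk⟩, ?_⟩
            simp only [hB', hki, if_false]
            exact hx)
    have h2 : ∑ k ∈ s', (inner ℝ (b k) (∫ x in B' k, x ∂(stdGaussian E)) : ℝ) = VV s' b := by
      rw [← sum_inner_self]
      exact Finset.sum_congr rfl fun k hk => by rw [hb1 k hk]
    rw [h2] at h1
    have h3 := H s' b (by rw [hs', Finset.card_erase_of_mem hj]; omega)
    have h4 : VV s' b ≤ CC := by
      by_contra hcon
      push Not at hcon
      have h5 : 0 < VV s' b := CC_pos.trans hcon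
      have h6 : (VV s' b) ^ 2 ≤ (em s' b) ^ 2 := pow_le_pow_left₀ h5.le h1 2
      nlinarith
    have h5 : VV s' b = VV s z + 2 * (inner ℝ (z i) (z j) : ℝ) := by
      unfold VV
      have e1 : ∑ k ∈ s', ‖b k‖ ^ 2 = ‖z i + z j‖ ^ 2 + ∑ k ∈ s'.erase i, ‖z k‖ ^ 2 := by
        rw [← Finset.add_sum_erase s' _ hi']
        congr 1
        · simp [hb]
        · refine Finset.sum_congr rfl fun k hk => ?_
          simp [hb, Finset.ne_of_mem_erase hk]
      have e2 : ∑ k ∈ s, ‖z k‖ ^ 2 = ‖z j‖ ^ 2 + (‖z i‖ ^ 2 + ∑ k ∈ s'.erase i, ‖z k‖ ^ 2) := by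
        rw [← Finset.add_sum_erase s _ hj, ← Finset.add_sum_erase s' _ hi']
      rw [e1, e2, norm_add_sq_real]
      ring
    rw [h5, hVz] at h4
    linarith
  · intro K hK w'
    exact H K w' (by omega)

end Crest.Agent.R215
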