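import Crest.Agent.R215.Defs
import Crest.Agent.R215.Lib1

/-! Row 215, CUB: cubic bound in three dimensional real form. -/

set_option autoImplicit false

open MeasureTheory ProbabilityTheory Set

noncomputable section

namespace Crest.Agent.R215

namespace CUB

/-- the integrand -/
def F (α β : Fin 2 → ℝ) (g : Fin 3 → ℝ) (R s : ℝ) (p : ℝ × ℝ) : ℝ :=
  max (min (min (s * (R - g 0) - (α 0 * p.1 + β 0 * p.2))
        (s * (R - g 1) - (α 1 * p.1 + β 1 * p.2)))
        (s * (R - g 2) + ((α 0 + α 1) * p.1 + (β 0 + β 1) * p.2) / 2)) 0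

variable (α β : Fin 2 → ℝ) (g : Fin 3 → ℝ) (R s : ℝ)

theorem F_nonneg (p : ℝ × ℝ) : 0 ≤ F α β g R s p := le_max_right _ _

theorem F_cont : Continuous (F α β g R s) := by unfold F; fun_prop

theorem F_lt (p : ℝ × ℝ) (t : ℝ) (ht : 0 ≤ t) (h : t < F α β g R s p) :
    t < s * (R - g 0) - (α 0 * p.1 + β 0 * p.2) ∧ t < s * (R - g 1) - (α 1 * p.1 + β 1 * p.2) ∧
    t < s * (R - g 2) + ((α 0 + α 1) * p.1 + (β 0 + β 1) * p.2) / 2 := by
  unfold F at h
  rcases lt_max_iff.1 h with h | h
  · rw [lt_min_iff, lt_min_iff] at h
    exact ⟨h.1.1, h.1.2, h.2⟩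
  · exact absurd h (not_lt.2 ht)

theorem F_le (hg : g 0 + g 1 + 2 * g 2 = 0) (p : ℝ × ℝ) : F α β g R s p ≤ max (s * R) 0 := by
  by_contra hcon
  have hc := not_le.1 hcon
  have h := F_lt α β g R s p _ (le_max_right _ _) hc
  have h1 : s * R ≤ max (s * R) 0 := le_max_left _ _
  obtain ⟨ha, hb, hd⟩ := h
  have : s * (g 0 + g 1 + 2 * g 2) = 0 := by rw [hg, mul_zero]
  nlinarith

theorem inner_bound (hB : StBath) (hT : StTri) (hg : g 0 + g 1 + 2 * g 2 = 0) (hR : 0 < R)
    (δ : ℝ) (hδ : 0 < δ) (hΔ : δ ≤ |α 0 * β 1 - α 1 * β 0|) :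
    ∫ p, F α β g R s p ∂(g1.prod g1) ≤ 4 * R ^ 3 / (3 * Real.pi * δ) * (max s 0) ^ 3 := by
  have hpi := Real.pi_pos
  rcases le_or_gt s 0 with hs | hs
  · have h0 : ∀ p, F α β g R s p = 0 := by
      intro p
      apply le_antisymm _ (F_nonneg _ _ _ _ _ _)
      have := F_le α β g R s hg p
      rwa [max_eq_right (mul_nonpos_of_nonpos_of_nonneg hs hR.le)] at this
    simp only [h0, integral_zero]
    positivity
  · set M := s * R with hM
    have hMpos : 0 < M := mul_pos hs hR
    have hle : ∀ p, F α β g R s p ≤ M := by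
      intro p
      have := F_le α β g R s hg p
      rwa [← hM, max_eq_left hMpos.le] at this
    have hint : Integrable (F α β g R s) (g1.prod g1) := by
      apply Integrable.of_bound (F_cont α β g R s).aestronglyMeasurable M
      apply Filter.Eventually.of_forall
      intro p
      rw [Real.norm_eq_abs, abs_of_nonneg (F_nonneg _ _ _ _ _ _)]
      exact hle p
    rw [hint.integral_eq_integral_meas_lt (Filter.Eventually.of_forall (F_nonneg α β g R s))]
    set h : ℝ → ℝ := (Ioc 0 M).indicator fun t => 4 / (Real.pi * δ) * (M - t) ^ 2 with hh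
    have hb : ∀ t ∈ Ioi (0:ℝ), (g1.prod g1).real {p | t < F α β g R s p} ≤ h t := by
      intro t ht
      have ht0 : 0 < t := ht
      rcases le_or_gt t M with htM | htM
      · rw [hh, indicator_of_mem (show t ∈ Ioc 0 M from ⟨ht0, htM⟩)]
        have hsub : {p | t < F α β g R s p} ⊆ {p : ℝ × ℝ | ∀ j : Fin 3,
            (![α 0, α 1, -(α 0 + α 1)] : Fin 3 → ℝ) j * p.1 +
            (![β 0, β 1, -(β 0 + β 1)] : Fin 3 → ℝ) j * p.2 ≤
            (![s * (R - g 0) - t, s * (R - g 1) - t, 2 * (s * (R - g 2) - t)] : Fin 3 → ℝ) j} := by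
          intro p hp
          obtain ⟨h1, h2, h3⟩ := F_lt α β g R s p t ht0.le hp
          intro j
          fin_cases j
          · simp; linarith
          · simp; linarith
          · simp; linarith
        have hs1 : ∑ j, (![s * (R - g 0) - t, s * (R - g 1) - t, 2 * (s * (R - g 2) - t)] :
            Fin 3 → ℝ) j = 4 * (M - t) := by
          simp only [Fin.sum_univ_three, Matrix.cons_val_zero, Matrix.cons_val_one,
            Matrix.cons_val]
          have : s * (g 0 + g 1 + 2 * g 2) = 0 := by rw [hg, mul_zero]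
          rw [hM]
          linarith
        have hvol := hT ![α 0, α 1, -(α 0 + α 1)] ![β 0, β 1, -(β 0 + β 1)]
          ![s * (R - g 0) - t, s * (R - g 1) - t, 2 * (s * (R - g 2) - t)]
          (by simp [Fin.sum_univ_three]) (by simp [Fin.sum_univ_three])
          (by
            simp only [Matrix.cons_val_zero, Matrix.cons_val_one]
            intro h0
            rw [h0, abs_zero] at hΔ
            linarith)
          (by rw [hs1]; linarith)
        rw [hs1] at hvol
        simp only [Matrix.cons_val_zero, Matrix.cons_val_one] at hvol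
        have hΔ0 : 0 < |α 0 * β 1 - α 1 * β 0| := lt_of_lt_of_le hδ hΔ
        have hmeas : MeasurableSet {p : ℝ × ℝ | ∀ j : Fin 3,
            (![α 0, α 1, -(α 0 + α 1)] : Fin 3 → ℝ) j * p.1 +
            (![β 0, β 1, -(β 0 + β 1)] : Fin 3 → ℝ) j * p.2 ≤
            (![s * (R - g 0) - t, s * (R - g 1) - t, 2 * (s * (R - g 2) - t)] : Fin 3 → ℝ) j} := by
          rw [ofPred_forall]
          exact MeasurableSet.iInter fun j => measurableSet_le (by fun_prop) (by fun_prop)
        have h2 := (hB _ hmeas _ (by positivity) hvol.le).2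
        calc (g1.prod g1).real {p | t < F α β g R s p} ≤ _ :=
              measureReal_mono hsub (measure_ne_top _ _)
          _ ≤ _ := h2
          _ = 4 / (Real.pi * |α 0 * β 1 - α 1 * β 0|) * (M - t) ^ 2 := by
              field_simp
              ring
          _ ≤ 4 / (Real.pi * δ) * (M - t) ^ 2 := by
              gcongr
      · rw [hh, indicator_of_notMem (fun hx => absurd hx.2 (not_le.2 htM))]
        have : {p | t < F α β g R s p} = ∅ := by
          ext p
          simp only [mem_empty_iff_false, iff_false]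
          intro hp
          exact absurd (lt_of_lt_of_le (show t < F α β g R s p from hp) (hle p)) (not_lt.2 htM.le)
        rw [this]
        simp
    have hhint : IntegrableOn h (Ioi 0) := by
      apply Integrable.integrableOn
      rw [hh, integrable_indicator_iff measurableSet_Ioc]
      apply (Continuous.integrableOn_Icc (by fun_prop)).mono_set Ioc_subset_Icc_self
    have hhval : ∫ t in Ioi (0:ℝ), h t = 4 * M ^ 3 / (3 * Real.pi * δ) := by
      rw [hh, setIntegral_indicator measurableSet_Ioc,
        inter_eq_right.2 (fun x hx => hx.1), ← intervalIntegral.integral_of_le hMpos.le,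
        intervalIntegral.integral_const_mul]
      have : ∫ t in (0:ℝ)..M, (M - t) ^ 2 = M ^ 3 / 3 := by
        rw [intervalIntegral.integral_eq_sub_of_hasDerivAt (f := fun t => -(M - t) ^ 3 / 3)]
        · simp only [sub_self, sub_zero]
          ring
        · intro t _
          have h5 := ((((hasDerivAt_id t).const_sub M)).pow 3).neg.div_const 3
          refine h5.congr_deriv ?_
          simp
        · apply Continuous.intervalIntegrable; fun_prop
      rw [this]
      field_simp
    calc ∫ t in Ioi (0:ℝ), (g1.prod g1).real {p | t < F α β g R s p} ≤ ∫ t in Ioi (0:ℝ), h t := by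
          apply integral_mono_of_nonneg
          · exact Filter.Eventually.of_forall fun t => measureReal_nonneg
          · exact hhint
          · filter_upwards [ae_restrict_mem measurableSet_Ioi] with t ht
            exact hb t ht
      _ = 4 * M ^ 3 / (3 * Real.pi * δ) := hhval
      _ = 4 * R ^ 3 / (3 * Real.pi * δ) * (max s 0) ^ 3 := by
          rw [max_eq_left hs.le, hM]
          ring

end CUB

theorem cub : StBath → StTri → StCub := by
  intro hB hT α β g R δ hg hR hδ hΔ
  have hpi := Real.pi_pos
  have key := fun s => CUB.inner_bound α β g R s hB hT hg hR δ hδ hΔ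
  have hint : Integrable (fun s : ℝ => 4 * R ^ 3 / (3 * Real.pi * δ) * (max s 0) ^ 3) g1 := by
    apply Integrable.const_mul
    apply (integrable_abs_pow_g1 3).mono' (by fun_prop)
    apply Filter.Eventually.of_forall
    intro s
    have h0 : 0 ≤ max s 0 := le_max_right _ _
    rw [Real.norm_eq_abs, abs_of_nonneg (by positivity)]
    apply pow_le_pow_left₀ h0
    exact max_le (le_abs_self s) (abs_nonneg s)
  calc _ ≤ ∫ s : ℝ, 4 * R ^ 3 / (3 * Real.pi * δ) * (max s 0) ^ 3 ∂g1 := by
        apply integral_mono_of_nonneg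
        · exact Filter.Eventually.of_forall fun s => integral_nonneg fun p => le_max_right _ _
        · exact hint
        · exact Filter.Eventually.of_forall key
    _ = 4 * R ^ 3 / (3 * Real.pi * δ) * (2 * c0) := by
        rw [integral_const_mul, integral_cube_pos]
    _ = 8 * c0 / (3 * Real.pi) * R ^ 3 / δ := by
        field_simp
        ring

end Crest.Agent.R215
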