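import Crest.Agent.R215.Lib1

/-!
# Row 215, task DISC
-/

set_option autoImplicit false

open MeasureTheory ProbabilityTheory Set Filter Topology

noncomputable section

namespace Crest.Agent.R215

namespace DISC

/-- the layer cake lemma: if the superlevel sets of `F s` have mass at most `h (s R - r)` and are
empty for `r ≥ s R`, the double integral is at most `∫_{ρ>0} h ρ * Φ̄(ρ/R)`. -/
theorem layer (F : ℝ → ℝ × ℝ → ℝ) (h : ℝ → ℝ) (R : ℝ) (hR : 0 < R)
    (hF0 : ∀ s p, 0 ≤ F s p) (hFm : ∀ s, Measurable (F s)) (hFR : ∀ s p, F s p ≤ max (s * R) 0)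
    (hhm : Measurable h) (hh0 : ∀ ρ, 0 < ρ → 0 ≤ h ρ)
    (hk : ∀ s r, 0 < r → r < s * R → (g1.prod g1).real {p | r < F s p} ≤ h (s * R - r))
    (hint : IntegrableOn (fun ρ => h ρ * Ph (ρ / R)) (Ioi 0)) :
    ∫ s, ∫ p, F s p ∂(g1.prod g1) ∂g1 ≤ ∫ ρ in Ioi (0:ℝ), h ρ * Ph (ρ / R) := by
  have hnn : ∀ ρ ∈ Ioi (0:ℝ), 0 ≤ h ρ * Ph (ρ / R) := fun ρ hρ =>
    mul_nonneg (hh0 ρ hρ) (Ph_pos _).le
  have hRHS0 : 0 ≤ ∫ ρ in Ioi (0:ℝ), h ρ * Ph (ρ / R) :=
    setIntegral_nonneg measurableSet_Ioi hnn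
  -- the main estimate in `ℝ≥0∞`
  have key : ∫⁻ s, ∫⁻ p, ‖F s p‖ₑ ∂(g1.prod g1) ∂g1 ≤
      ENNReal.ofReal (∫ ρ in Ioi (0:ℝ), h ρ * Ph (ρ / R)) := by
    have h1 : ∀ s, ∫⁻ p, ‖F s p‖ₑ ∂(g1.prod g1) ≤
        ∫⁻ ρ, (if 0 < ρ ∧ ρ < s * R then ENNReal.ofReal (h ρ) else 0) := by
      intro s
      have e1 : ∀ p, ‖F s p‖ₑ = ENNReal.ofReal (F s p) := fun p => by
        rw [Real.enorm_eq_ofReal (hF0 s p)]
      simp only [e1]
      rw [lintegral_eq_lintegral_meas_lt _ (Eventually.of_forall (hF0 s)) (hFm s).aemeasurable]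
      have e2 : ∫⁻ ρ, (if 0 < ρ ∧ ρ < s * R then ENNReal.ofReal (h ρ) else 0) =
          ∫⁻ r, (if 0 < s * R - r ∧ s * R - r < s * R then ENNReal.ofReal (h (s * R - r)) else 0) :=
        (lintegral_sub_left_eq_self
          (fun ρ => if 0 < ρ ∧ ρ < s * R then ENNReal.ofReal (h ρ) else 0) (s * R)).symm
      rw [e2, ← lintegral_indicator measurableSet_Ioi]
      apply lintegral_mono
      intro r
      by_cases hr : r ∈ Ioi (0:ℝ)
      · rw [indicator_of_mem hr]
        have hr0 : 0 < r := hr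
        beta_reduce
        by_cases hr1 : r < s * R
        · have hc : 0 < s * R - r ∧ s * R - r < s * R := ⟨by linarith, by linarith⟩
          rw [if_pos hc]
          have := hk s r hr0 hr1
          rw [← ofReal_measureReal]
          exact ENNReal.ofReal_le_ofReal this
        · have : {p | r < F s p} = ∅ := by
            ext p
            simp only [mem_ofPred_eq, mem_empty_iff_false, iff_false, not_lt]
            refine (hFR s p).trans (max_le (by linarith) hr0.le)
          rw [this]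
          simp
      · rw [indicator_of_notMem hr]
        exact bot_le
    refine (lintegral_mono h1).trans ?_
    have hmeas : Measurable (Function.uncurry fun (s ρ : ℝ) =>
        if 0 < ρ ∧ ρ < s * R then ENNReal.ofReal (h ρ) else 0) := by
      apply Measurable.ite
      · exact (measurableSet_lt measurable_const measurable_snd).inter
          (measurableSet_lt measurable_snd (measurable_fst.mul_const R))
      · exact (hhm.comp measurable_snd).ennreal_ofReal
      · exact measurable_const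
    rw [lintegral_lintegral_swap hmeas.aemeasurable]
    rw [ofReal_integral_eq_lintegral_ofReal hint
      ((ae_restrict_iff' measurableSet_Ioi).2 (Eventually.of_forall hnn)),
      ← lintegral_indicator measurableSet_Ioi]
    apply lintegral_mono
    intro ρ
    by_cases hρ : ρ ∈ Ioi (0:ℝ)
    · rw [indicator_of_mem hρ]
      have hρ0 : 0 < ρ := hρ
      have e3 : ∀ s, (if 0 < ρ ∧ ρ < s * R then ENNReal.ofReal (h ρ) else 0) =
          (Ioi (ρ / R)).indicator (fun _ => ENNReal.ofReal (h ρ)) s := by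
        intro s
        by_cases hs : s ∈ Ioi (ρ / R)
        · rw [indicator_of_mem hs, if_pos ⟨hρ0, (div_lt_iff₀ hR).1 hs⟩]
        · rw [indicator_of_notMem hs, if_neg]
          intro hc
          exact hs ((div_lt_iff₀ hR).2 hc.2)
      simp only [e3]
      rw [lintegral_indicator_const measurableSet_Ioi, ENNReal.ofReal_mul (hh0 ρ hρ0),
        ← ofReal_measureReal, g1_real_Ioi]
    · rw [indicator_of_notMem hρ]
      have : ∀ s, (if 0 < ρ ∧ ρ < s * R then ENNReal.ofReal (h ρ) else 0) = 0 := by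
        intro s
        rw [if_neg]
        intro hc
        exact hρ hc.1
      simp [this]
  -- conclusion
  have h2 : ‖∫ s, ∫ p, F s p ∂(g1.prod g1) ∂g1‖ₑ ≤
      ENNReal.ofReal (∫ ρ in Ioi (0:ℝ), h ρ * Ph (ρ / R)) := by
    refine (enorm_integral_le_lintegral_enorm _).trans (le_trans ?_ key)
    exact lintegral_mono fun s => enorm_integral_le_lintegral_enorm _
  rw [Real.enorm_eq_ofReal_abs] at h2
  exact (le_abs_self _).trans ((ENNReal.ofReal_le_ofReal_iff hRHS0).1 h2)

end DISC

open DISC in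
theorem disc : StAtan → StArc → StBath → StTri → StDisc := by
  intro hAtan hArc hBath hTri α β g R δ hα hβ hg hR hδ hδΔ
  set Δ := |α 0 * β 1 - α 1 * β 0| with hΔ
  have hΔ0 : 0 < Δ := lt_of_lt_of_le hδ hδΔ
  have hne : α 0 * β 1 - α 1 * β 0 ≠ 0 := abs_pos.1 hΔ0
  have hπ := Real.pi_pos
  set h : ℝ → ℝ := fun ρ => 1 - Real.exp (-((3 * ρ) ^ 2 / (2 * Δ)) / (2 * Real.pi)) with hh
  have hh0 : ∀ ρ, 0 ≤ h ρ := by
    intro ρ
    have : Real.exp (-((3 * ρ) ^ 2 / (2 * Δ)) / (2 * Real.pi)) ≤ 1 := by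
      rw [Real.exp_le_one_iff, neg_div, neg_nonpos]
      positivity
    simp only [hh]
    linarith
  have hh1 : ∀ ρ, h ρ ≤ 1 := by
    intro ρ
    have := Real.exp_pos (-((3 * ρ) ^ 2 / (2 * Δ)) / (2 * Real.pi))
    simp only [hh]
    linarith
  have hhc : Continuous h := by
    simp only [hh]
    fun_prop
  have hPhR : IntegrableOn (fun ρ => Ph (ρ / R)) (Ioi 0) := by
    have h1 := (integrableOn_Ioi_comp_mul_left_iff Ph 0 (inv_pos.2 hR)).2
      (by simpa using integrableOn_Ph_Ioi 0)
    refine h1.congr_fun (fun ρ _ => ?_) measurableSet_Ioi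
    simp only [div_eq_inv_mul]
  have hint : IntegrableOn (fun ρ => h ρ * Ph (ρ / R)) (Ioi 0) := by
    refine Integrable.mono hPhR ?_ ?_
    · exact (hhc.mul (Ph_continuous.comp (continuous_id.div_const R))).aestronglyMeasurable
    · refine Eventually.of_forall fun ρ => ?_
      rw [norm_mul, Real.norm_of_nonneg (hh0 ρ)]
      exact mul_le_of_le_one_left (norm_nonneg _) (hh1 ρ)
  have hmain := layer (fun s p => max (min (min (s * (R - g 0) - (α 0 * p.1 + β 0 * p.2))
        (s * (R - g 1) - (α 1 * p.1 + β 1 * p.2))) (s * (R - g 2) - (α 2 * p.1 + β 2 * p.2))) 0)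
        h R hR (fun s p => le_max_right _ _) (fun s => by fun_prop) ?_ hhc.measurable
        (fun ρ _ => hh0 ρ) ?_ hint
  · refine hmain.trans ?_
    -- change of variables
    set b : ℝ := (3 * R * c0) ^ 2 / Δ with hb
    have hc0 := c0_pos
    have hb0 : 0 < b := by positivity
    have e1 : ∫ ρ in Ioi (0:ℝ), h ρ * Ph (ρ / R) =
        R * ∫ σ in Ioi (0:ℝ), (Ph σ - Ph σ * Real.exp (-(b * σ ^ 2) / 2)) := by
      have := integral_comp_mul_left_Ioi (fun σ => (Ph σ - Ph σ * Real.exp (-(b * σ ^ 2) / 2))) 0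
        (inv_pos.2 hR)
      rw [mul_zero, inv_inv, smul_eq_mul] at this
      rw [← this]
      refine setIntegral_congr_fun measurableSet_Ioi fun ρ _ => ?_
      simp only [hh]
      have e2 : -((3 * ρ) ^ 2 / (2 * Δ)) / (2 * Real.pi) = -(b * (R⁻¹ * ρ) ^ 2) / 2 := by
        rw [hb, mul_pow, mul_pow, c0_sq]
        field_simp
      rw [e2, div_eq_inv_mul]
      ring
    rw [e1]
    have hPh := integrableOn_Ph_Ioi 0
    have hPe : IntegrableOn (fun σ => Ph σ * Real.exp (-(b * σ ^ 2) / 2)) (Ioi 0) := by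
      refine Integrable.mono hPh ?_ ?_
      · exact (Ph_continuous.mul (by fun_prop)).aestronglyMeasurable
      · refine Eventually.of_forall fun ρ => ?_
        rw [norm_mul]
        refine mul_le_of_le_one_right (norm_nonneg _) ?_
        rw [Real.norm_of_nonneg (Real.exp_pos _).le, Real.exp_le_one_iff, neg_div, neg_nonpos]
        positivity
    rw [integral_sub hPh hPe, hArc b hb0, integral_Ph_Ioi_zero]
    -- final estimate
    have hsb : 0 < Real.sqrt b := Real.sqrt_pos.2 hb0
    have hsb2 : Real.sqrt b = 3 * R * c0 / Real.sqrt Δ := by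
      rw [hb, Real.sqrt_div (by positivity), Real.sqrt_sq (by positivity)]
    have ha := hAtan (Real.sqrt b) hsb.le
    have h3 : c0 - c0 * Real.arctan (Real.sqrt b) / Real.sqrt b ≤ c0 * (kap * Real.sqrt b) := by
      have : c0 - c0 * Real.arctan (Real.sqrt b) / Real.sqrt b =
          c0 * ((Real.sqrt b - Real.arctan (Real.sqrt b)) / Real.sqrt b) := by
        field_simp
      rw [this]
      refine mul_le_mul_of_nonneg_left ?_ hc0.le
      rw [div_le_iff₀ hsb]
      nlinarith
    refine (mul_le_mul_of_nonneg_left h3 hR.le).trans ?_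
    rw [hsb2]
    have e4 : R * (c0 * (kap * (3 * R * c0 / Real.sqrt Δ))) =
        3 * kap / (2 * Real.pi) * R ^ 2 / Real.sqrt Δ := by
      have : R * (c0 * (kap * (3 * R * c0 / Real.sqrt Δ))) = 3 * kap * c0 ^ 2 * R ^ 2 / Real.sqrt Δ := by
        ring
      rw [this, c0_sq]
      ring_nf
    rw [e4]
    have hk0 : 0 < kap := by unfold kap; norm_num
    exact div_le_div_of_nonneg_left (by positivity) (Real.sqrt_pos.2 hδ) (Real.sqrt_le_sqrt hδΔ)
  · -- `F ≤ s R`
    intro s p
    refine max_le_max ?_ le_rfl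
    by_contra hc
    rw [not_le, lt_min_iff, lt_min_iff] at hc
    obtain ⟨⟨h0, h1⟩, h2⟩ := hc
    rw [Fin.sum_univ_three] at hα hβ hg
    have e : (s * (R - g 0) - (α 0 * p.1 + β 0 * p.2)) + (s * (R - g 1) - (α 1 * p.1 + β 1 * p.2)) +
        (s * (R - g 2) - (α 2 * p.1 + β 2 * p.2)) = 3 * (s * R) := by
      linear_combination (-s) * hg - p.1 * hα - p.2 * hβ
    linarith
  · -- measure of the superlevel sets
    intro s r hr hrs
    set c : Fin 3 → ℝ := fun j => s * (R - g j) - r with hc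
    have hcs : ∑ j, c j = 3 * (s * R - r) := by
      simp only [hc, Fin.sum_univ_three]
      rw [Fin.sum_univ_three] at hg
      linear_combination (-s) * hg
    have hcs0 : 0 ≤ ∑ j, c j := by rw [hcs]; linarith
    set T : Set (ℝ × ℝ) := {p : ℝ × ℝ | ∀ j, α j * p.1 + β j * p.2 ≤ c j} with hT
    have hTm : MeasurableSet T := by
      have : T = ⋂ j, {p : ℝ × ℝ | α j * p.1 + β j * p.2 ≤ c j} := by
        ext p
        simp [hT]
      rw [this]
      exact MeasurableSet.iInter fun j => measurableSet_le (by fun_prop) measurable_const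
    have hv := hTri α β c hα hβ hne hcs0
    have hb := (hBath T hTm ((∑ j, c j) ^ 2 / (2 * Δ)) (by positivity) (by rw [hT, hv])).1
    have hsub : {p : ℝ × ℝ | r < max (min (min (s * (R - g 0) - (α 0 * p.1 + β 0 * p.2))
        (s * (R - g 1) - (α 1 * p.1 + β 1 * p.2))) (s * (R - g 2) - (α 2 * p.1 + β 2 * p.2))) 0} ⊆ T := by
      intro p hp
      simp only [mem_ofPred_eq, lt_max_iff, lt_min_iff] at hp
      rcases hp with ⟨⟨h0, h1⟩, h2⟩ | h3
      · intro j
        fin_cases j <;> simp only [hc] <;> simp <;> linarith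
      · exact absurd h3 (not_lt.2 hr.le)
    refine (measureReal_mono hsub).trans (hb.trans ?_)
    rw [hcs]

end Crest.Agent.R215
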