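import Mathlib

/-!
# Row 215 (S0334): the propeller conjecture in all dimensions.  Interface.

All `St...` are closed statements (`Prop`), one task each.  See table `r215_tasks`.
Namespace for the tasks: `Crest.Agent.R215`; private helper lemmas in `Crest.Agent.R215.<TASK>`.
-/

set_option autoImplicit false

open MeasureTheory ProbabilityTheory Set

noncomputable section

namespace Crest.Agent.R215

universe u v

/-! ## one-dimensional normal functions -/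

/-- `φ(0) = 1/√(2π)` -/
def c0 : ℝ := 1 / Real.sqrt (2 * Real.pi)
/-- the constant of the propeller conjecture, `C = 9/(8π) = (9/4) c0²` -/
def CC : ℝ := 9 / (8 * Real.pi)
/-- standard normal density -/
def ph (t : ℝ) : ℝ := c0 * Real.exp (-(t ^ 2) / 2)
/-- `N(0,1)` -/
abbrev g1 : Measure ℝ := gaussianReal 0 1
/-- normal distribution function -/
def Fi (t : ℝ) : ℝ := g1.real (Iic t)
/-- normal tail -/
def Ph (t : ℝ) : ℝ := g1.real (Ici t)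
/-- `κ₀`, an upper bound of `sup (t - arctan t)/t²` -/
def kap : ℝ := 2302 / 10000

/-! ## Gaussian maxima in a finite dimensional space -/

section E

variable {E : Type u} [NormedAddCommGroup E] [InnerProductSpace ℝ E]

/-- `mx s z x = max_{i ∈ s} ⟪x, z i⟫` (and `0` if `s = ∅`). -/
def mx (s : Finset ℕ) (z : ℕ → E) (x : E) : ℝ :=
  if h : s.Nonempty then s.sup' h (fun i => inner ℝ x (z i)) else 0

/-- `∑_{i ∈ s} ‖z i‖²` -/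
def VV (s : Finset ℕ) (z : ℕ → E) : ℝ := ∑ i ∈ s, ‖z i‖ ^ 2

/-- the (closed) cell where `⟪x, z i⟫` is maximal -/
def cell (s : Finset ℕ) (z : ℕ → E) (i : ℕ) : Set E :=
  {x | ∀ j ∈ s, inner ℝ x (z j) ≤ inner ℝ x (z i)}

/-- sum of the removed vectors, `R = s \ J` -/
def zR (s J : Finset ℕ) (z : ℕ → E) : E := ∑ i ∈ s \ J, z i

/-- `E_R = ∑_{i ∈ s \ J} ‖z i‖² + ‖z_R‖²/m`, `m = |J|` -/
def ER (s J : Finset ℕ) (z : ℕ → E) : ℝ := VV (s \ J) z + ‖zR s J z‖ ^ 2 / (J.card : ℝ)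

/-- the recentred vectors `t j = z j + z_R / m` (they sum to `0` over `J` if `∑_s z = 0`) -/
def tt (s J : Finset ℕ) (z : ℕ → E) (j : ℕ) : E := z j + ((J.card : ℝ)⁻¹) • zR s J z

variable [FiniteDimensional ℝ E] [MeasurableSpace E] [BorelSpace E]

/-- `E max_{i∈s} ⟪x, z i⟫` -/
def em (s : Finset ℕ) (z : ℕ → E) : ℝ := ∫ x, mx s z x ∂(stdGaussian E)

/-- Gaussian mass of a cell -/
def mass (s : Finset ℕ) (z : ℕ → E) (i : ℕ) : ℝ := (stdGaussian E).real (cell s z i)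

/-- `Λ(y) = E (⟪x,y⟫ - max_{j∈J} ⟪x, t j⟫)^+` -/
def Lam (J : Finset ℕ) (t : ℕ → E) (y : E) : ℝ :=
  ∫ x, max (inner ℝ x y - mx J t x) 0 ∂(stdGaussian E)

/-- The data of a minimal counterexample. -/
structure Crit (s : Finset ℕ) (z : ℕ → E) : Prop where
  big : CC < VV s z
  val : em s z = VV s z
  mom : ∀ i ∈ s, ∫ x in cell s z i, x ∂(stdGaussian E) = z i
  tie : ∀ i ∈ s, ∀ j ∈ s, i ≠ j → stdGaussian E (cell s z i ∩ cell s z j) = 0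
  sum0 : ∑ i ∈ s, z i = 0
  neg : ∀ i ∈ s, ∀ j ∈ s, i ≠ j → inner ℝ (z i) (z j) < 0
  sub : ∀ K : Finset ℕ, K.card < s.card → ∀ w : ℕ → E, (em K w) ^ 2 ≤ CC * VV K w

end E

/-! ## A. Foundations -/

section A

variable (E : Type u) [NormedAddCommGroup E] [InnerProductSpace ℝ E] [FiniteDimensional ℝ E]
  [MeasurableSpace E] [BorelSpace E]

/-- exact formulas for two and three vectors -/
def StThree : Prop :=
  ∀ (z : ℕ → E) (a b c : ℕ), a ≠ b → a ≠ c → b ≠ c →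
    em {a, b} z = c0 * ‖z a - z b‖ ∧
    em {a, b, c} z = c0 / 2 * (‖z a - z b‖ + ‖z b - z c‖ + ‖z a - z c‖)

/-- the bound for at most three vectors -/
def StSmall : Prop := ∀ (s : Finset ℕ) (z : ℕ → E), s.card ≤ 3 → (em s z) ^ 2 ≤ CC * VV s z

/-- the bound for Gaussian maxima implies the statement about partitions -/
def StRed : Prop :=
  (∀ (s : Finset ℕ) (z : ℕ → E), (em s z) ^ 2 ≤ CC * VV s z) →
  ∀ (ι : Type v) [Fintype ι] (A : ι → Set E), (∀ i, MeasurableSet (A i)) →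
    (Pairwise fun i j => Disjoint (A i) (A j)) → (⋃ i, A i = Set.univ) →
    ∑ i, ‖∫ x in A i, x ∂stdGaussian E‖ ^ 2 ≤ 9 / (8 * Real.pi)

/-- partitions versus maxima: inequality for every partition, equality for a selection partition -/
def StPart : Prop :=
  ∀ (s : Finset ℕ), s.Nonempty →
    (∀ (w : ℕ → E) (B : ℕ → Set E), (∀ i ∈ s, MeasurableSet (B i)) →
      (∀ i ∈ s, ∀ j ∈ s, i ≠ j → Disjoint (B i) (B j)) → (∀ x, ∃ i ∈ s, x ∈ B i) →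
      ∑ i ∈ s, inner ℝ (w i) (∫ x in B i, x ∂(stdGaussian E)) ≤ em s w) ∧
    (∀ w : ℕ → E, ∃ B : ℕ → Set E, (∀ i ∈ s, MeasurableSet (B i)) ∧
      (∀ i ∈ s, ∀ j ∈ s, i ≠ j → Disjoint (B i) (B j)) ∧ (∀ x, ∃ i ∈ s, x ∈ B i) ∧
      (∀ i ∈ s, B i ⊆ cell s w i) ∧
      ∑ i ∈ s, inner ℝ (w i) (∫ x in B i, x ∂(stdGaussian E)) = em s w)

/-- the supremum of `em s w / √(VV s w)` is attained -/
def StMax : Prop :=
  Nontrivial E → ∀ (s : Finset ℕ), s.Nonempty →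
    ∃ z : ℕ → E, VV s z = 1 ∧ ∀ w : ℕ → E, em s w ≤ em s z * Real.sqrt (VV s w)

/-- existence of a critical configuration in a minimal counterexample -/
def StCrit : Prop :=
  ∀ n : ℕ, (∀ (s : Finset ℕ) (z : ℕ → E), s.card ≤ n → (em s z) ^ 2 ≤ CC * VV s z) →
    (∃ (s : Finset ℕ) (w : ℕ → E), s.card = n + 1 ∧ CC * VV s w < (em s w) ^ 2) →
    ∃ (s : Finset ℕ) (z : ℕ → E), s.card = n + 1 ∧ Crit s z

/-- removal inequality -/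
def StNR : Prop :=
  ∀ (s J : Finset ℕ) (z : ℕ → E), Crit s z → J ⊂ s → J.Nonempty →
    (em J z) ^ 2 ≤ CC * (VV s z - ER s J z) ∧ 0 ≤ VV s z - ER s J z

/-- loss formula with the first order identity -/
def StLoss : Prop :=
  ∀ (s J : Finset ℕ) (z : ℕ → E) (θ : ℝ), Crit s z → J ⊆ s → J.Nonempty → 0 ≤ θ → θ ≤ 1 →
    em s z - em J z ≤ (1 - θ) * ER s J z
      + (J.card / (J.card + 1) : ℝ) *
        ∑ i ∈ s \ J, Lam J (tt s J z) ((θ * ((J.card + 1) / J.card : ℝ)) • z i)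
      + (1 / (J.card + 1) : ℝ) * Lam J (tt s J z) ((θ * ((J.card + 1) / J.card : ℝ)) • zR s J z)

/-- elementary consequences of negativity; `m = |J|`, `R = s \ J`, `t = tt s J z`. -/
def StNeg : Prop :=
  ∀ (s J : Finset ℕ) (z : ℕ → E), Crit s z → J ⊆ s → J.Nonempty →
    (∑ j ∈ J, tt s J z j = 0) ∧
    (∀ i ∈ s \ J, ∀ j ∈ J, inner ℝ (z i) (tt s J z j) ≤ ‖z i‖ ^ 2 / J.card) ∧
    (∀ j ∈ J, inner ℝ (zR s J z) (tt s J z j) ≤ ‖zR s J z‖ ^ 2 / J.card) ∧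
    (‖zR s J z‖ ^ 2 ≤ VV (s \ J) z) ∧
    (VV J (tt s J z) = VV s z - ER s J z) ∧
    (∀ j ∈ J, ‖z j‖ ^ 2 - 2 * ‖zR s J z‖ ^ 2 / J.card ≤ ‖tt s J z j‖ ^ 2) ∧
    (∀ j ∈ J, ‖tt s J z j‖ ^ 2 ≤ ‖z j‖ ^ 2 + ‖zR s J z‖ ^ 2 / (J.card : ℝ) ^ 2) ∧
    (∀ i ∈ J, ∀ j ∈ J, i ≠ j →
      inner ℝ (tt s J z i) (tt s J z j) ≤ ‖zR s J z‖ ^ 2 / (J.card : ℝ) ^ 2)

/-- affine independence in the form needed -/
def StAff : Prop :=
  ∀ (s : Finset ℕ) (z : ℕ → E), Crit s z →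
    (∀ lam : ℕ → ℝ, ∑ i ∈ s, lam i • z i = 0 → ∀ i ∈ s, ∀ j ∈ s, lam i = lam j) ∧
    (∀ i ∈ s, ∃ η : E, ∀ j ∈ s, j ≠ i → inner ℝ η (z i - z j) = 1)

/-- half-space bound and normalisation of the masses -/
def StHalf : Prop :=
  ∀ (s : Finset ℕ) (z : ℕ → E), Crit s z →
    (∑ i ∈ s, mass s z i = 1) ∧ (∀ i ∈ s, 0 < mass s z i) ∧
    (∀ i ∈ s, ∀ τ : ℝ, ‖z i‖ ≤ ph τ - τ * (Ph τ - mass s z i))

/-- Cameron-Martin -/
def StCM : Prop :=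
  ∀ (A : Set E) (v : E), MeasurableSet A →
    (stdGaussian E).real {x | x - v ∈ A} =
      ∫ x in A, Real.exp (-(inner ℝ x v) - ‖v‖ ^ 2 / 2) ∂(stdGaussian E)

end A

/-! ## B. Bounds of `Λ` -/

/-- `t - arctan t ≤ κ₀ t²` -/
def StAtan : Prop := ∀ t : ℝ, 0 ≤ t → t - Real.arctan t ≤ kap * t ^ 2

/-- `∫_0^∞ Φ̄(σ) exp(-b σ²/2) dσ = φ(0) arctan(√b)/√b` -/
def StArc : Prop :=
  ∀ b : ℝ, 0 < b →
    ∫ σ in Ioi (0:ℝ), Ph σ * Real.exp (-(b * σ ^ 2) / 2) = c0 * Real.arctan (Real.sqrt b) / Real.sqrt b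

/-- Gaussian measure of a planar set of given area (bathtub): `γ₂(K) ≤ 1 - exp(-|K|/2π)`. -/
def StBath : Prop :=
  ∀ K : Set (ℝ × ℝ), MeasurableSet K → ∀ a : ℝ, 0 ≤ a → volume K ≤ ENNReal.ofReal a →
    (g1.prod g1).real K ≤ 1 - Real.exp (-a / (2 * Real.pi)) ∧ (g1.prod g1).real K ≤ a / (2 * Real.pi)

/-- area of a triangle given by three half planes whose normals sum to zero -/
def StTri : Prop :=
  ∀ α β c : Fin 3 → ℝ, ∑ j, α j = 0 → ∑ j, β j = 0 → α 0 * β 1 - α 1 * β 0 ≠ 0 → 0 ≤ ∑ j, c j →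
    volume {p : ℝ × ℝ | ∀ j, α j * p.1 + β j * p.2 ≤ c j} =
      ENNReal.ofReal ((∑ j, c j) ^ 2 / (2 * |α 0 * β 1 - α 1 * β 0|))

/-- disc bound, three dimensional real form -/
def StDisc : Prop :=
  ∀ (α β g : Fin 3 → ℝ) (R δ : ℝ), ∑ j, α j = 0 → ∑ j, β j = 0 → ∑ j, g j = 0 → 0 < R → 0 < δ →
    δ ≤ |α 0 * β 1 - α 1 * β 0| →
    ∫ s, ∫ p : ℝ × ℝ, max (min (min (s * (R - g 0) - (α 0 * p.1 + β 0 * p.2))
        (s * (R - g 1) - (α 1 * p.1 + β 1 * p.2))) (s * (R - g 2) - (α 2 * p.1 + β 2 * p.2))) 0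
        ∂(g1.prod g1) ∂g1
      ≤ 3 * kap / (2 * Real.pi) * R ^ 2 / Real.sqrt δ

/-- cubic bound, three dimensional real form (weights 1,1,2) -/
def StCub : Prop :=
  ∀ (α β : Fin 2 → ℝ) (g : Fin 3 → ℝ) (R δ : ℝ), g 0 + g 1 + 2 * g 2 = 0 → 0 < R → 0 < δ →
    δ ≤ |α 0 * β 1 - α 1 * β 0| →
    ∫ s, ∫ p : ℝ × ℝ, max (min (min (s * (R - g 0) - (α 0 * p.1 + β 0 * p.2))
        (s * (R - g 1) - (α 1 * p.1 + β 1 * p.2)))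
        (s * (R - g 2) + ((α 0 + α 1) * p.1 + (β 0 + β 1) * p.2) / 2)) 0
        ∂(g1.prod g1) ∂g1
      ≤ 8 * c0 / (3 * Real.pi) * R ^ 3 / δ

section B

variable (E : Type u) [NormedAddCommGroup E] [InnerProductSpace ℝ E] [FiniteDimensional ℝ E]
  [MeasurableSpace E] [BorelSpace E]

/-- disc bound for a centred triangle. `Gram' = |a×b|² - |g_a b - g_b a|²`, `g = ⟪y,·⟫/‖y‖`. -/
def StLam3 : Prop :=
  ∀ (t : ℕ → E) (a b c : ℕ) (y : E) (δ : ℝ), a ≠ b → a ≠ c → b ≠ c → t a + t b + t c = 0 →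
    y ≠ 0 → 0 < δ →
    δ ^ 2 * ‖y‖ ^ 2 ≤ (‖t a‖ ^ 2 * ‖t b‖ ^ 2 - (inner ℝ (t a) (t b)) ^ 2) * ‖y‖ ^ 2
      - ‖(inner ℝ y (t a) : ℝ) • t b - (inner ℝ y (t b) : ℝ) • t a‖ ^ 2 →
    Lam {a, b, c} t y ≤ 3 * kap / (2 * Real.pi) * ‖y‖ ^ 2 / Real.sqrt δ

/-- cubic bound for a centred system of four vectors, any pair `a ≠ b` in `J`. -/
def StLam4 : Prop :=
  ∀ (t : ℕ → E) (J : Finset ℕ) (a b : ℕ) (y : E) (δ : ℝ), J.card = 4 → a ∈ J → b ∈ J → a ≠ b →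
    ∑ j ∈ J, t j = 0 → y ≠ 0 → 0 < δ →
    δ ^ 2 * ‖y‖ ^ 2 ≤ (‖t a‖ ^ 2 * ‖t b‖ ^ 2 - (inner ℝ (t a) (t b)) ^ 2) * ‖y‖ ^ 2
      - ‖(inner ℝ y (t a) : ℝ) • t b - (inner ℝ y (t b) : ℝ) • t a‖ ^ 2 →
    Lam J t y ≤ 8 * c0 / (3 * Real.pi) * ‖y‖ ^ 3 / δ

/-- chord bound -/
def StChord : Prop :=
  ∀ (t : ℕ → E) (a b c : ℕ) (y : E), a ≠ b → a ≠ c → b ≠ c → t a + t b + t c = 0 → t a ≠ t b →
    Lam {a, b, c} t y ≤ 3 * c0 * ‖y‖ ^ 2 / (2 * ‖t a - t b‖)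

end B

/-! ## C. D. Elementary geometry of the removal lemmas -/

/-- real inequality behind the removal of a small set keeping three vectors.
`x,y,w` the sides (`x` the longest), `D = (x²+y²+w²)/3`, `G = |t_a × t_b|²`. -/
def StSgeo : Prop :=
  ∀ x y w D G r : ℝ, 0 ≤ y → 0 ≤ w → y ≤ x → w ≤ x → x ≤ y + w →
    D = (x ^ 2 + y ^ 2 + w ^ 2) / 3 →
    G = (2 * x ^ 2 * y ^ 2 + 2 * y ^ 2 * w ^ 2 + 2 * w ^ 2 * x ^ 2 - x ^ 4 - y ^ 4 - w ^ 4) / 36 →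
    CC - 4 / 3 * (26 / 1000) ≤ D →
    r = (CC - c0 ^ 2 * (x + y + w) ^ 2 / (4 * D)) / (4 / 3 * (26 / 1000)) →
    1 ≤ r ∨ (r ≤ 1 ∧ 4 * c0 * (1 - r) ≤ x) ∨
      (r ≤ 1 ∧ 0 < G - 26 / 9000 * x ^ 2 ∧
        (4 * kap / Real.pi * (1 - r)) ^ 4 ≤ G - 26 / 9000 * x ^ 2)

section C

variable (E : Type u) [NormedAddCommGroup E] [InnerProductSpace ℝ E] [FiniteDimensional ℝ E]
  [MeasurableSpace E] [BorelSpace E]

/-- removal of a small set keeping three vectors -/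
def StSrem : Prop :=
  ∀ (s J : Finset ℕ) (z : ℕ → E), Crit s z → J ⊂ s → J.card = 3 → VV (s \ J) z ≤ 26 / 1000 → False

/-- geometry of four nearly obtuse vectors summing to zero -/
def StQgeo : Prop :=
  ∀ (t : ℕ → E) (J : Finset ℕ) (q : ℝ), J.card = 4 → ∑ j ∈ J, t j = 0 → 0 ≤ q → q ≤ 289 / 100000 →
    (∀ i ∈ J, ∀ j ∈ J, i ≠ j → inner ℝ (t i) (t j) ≤ q / 16) →
    (∀ j ∈ J, 26 / 1000 - 3 / 2 * q ≤ ‖t j‖ ^ 2) → CC - 5 / 4 * q ≤ VV J t →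
    ∃ a ∈ J, ∃ b ∈ J, a ≠ b ∧
      27 / 10000 ≤ ‖t a‖ ^ 2 * ‖t b‖ ^ 2 - (inner ℝ (t a) (t b)) ^ 2

/-- removal of a small set keeping four vectors -/
def StQrem : Prop :=
  ∀ (s J : Finset ℕ) (z : ℕ → E), Crit s z → J ⊂ s → J.card = 4 →
    VV (s \ J) z ≤ 289 / 100000 → (∀ j ∈ J, 26 / 1000 - VV (s \ J) z ≤ ‖z j‖ ^ 2) → False

end C

/-! ## E. Ehrhard's inequality -/

/-- superadditivity of `q ↦ φ(τ)/τ`, `q = Φ̄(τ)`, on `(0,1/2)`. -/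
def StEhA : Prop :=
  ∀ a b c : ℝ, 0 < a → 0 < b → 0 < c → Ph c = Ph a + Ph b → ph a / a + ph b / b ≤ ph c / c

/-- concavity of `(x,y) ↦ Φ̄⁻¹(Φ̄(x)+Φ̄(y))` on `{x + y > 0}` -/
def StEhB : Prop :=
  ∀ x0 y0 x1 y1 h0 h1 θ : ℝ, 0 ≤ θ → θ ≤ 1 → 0 < x0 + y0 → 0 < x1 + y1 →
    Ph x0 + Ph y0 = Ph h0 → Ph x1 + Ph y1 = Ph h1 →
    Ph ((1 - θ) * x0 + θ * x1) + Ph ((1 - θ) * y0 + θ * y1) ≤ Ph ((1 - θ) * h0 + θ * h1)

/-- one-dimensional Ehrhard inequality for convex sets, and the enlargement lemma -/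
def StEhC : Prop :=
  (∀ (θ r0 r1 : ℝ) (I J L : Set ℝ), 0 ≤ θ → θ ≤ 1 → Convex ℝ I → Convex ℝ J → Convex ℝ L →
    (∀ x ∈ I, ∀ y ∈ J, (1 - θ) * x + θ * y ∈ L) →
    Fi r0 ≤ g1.real I → Fi r1 ≤ g1.real J → Fi ((1 - θ) * r0 + θ * r1) ≤ g1.real L) ∧
  (∀ (r d : ℝ) (I L : Set ℝ), 0 ≤ d → Convex ℝ I → Convex ℝ L →
    (∀ x ∈ I, ∀ y, |y - x| ≤ d → y ∈ L) → Fi r ≤ g1.real I → Fi (r + d) ≤ g1.real L)

/-- one integration step: `Φ⁻¹(∫Φ(f)dγ)` for concave Lipschitz functions (Ehrhard in `ℝ²`) -/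
def StEhD : Prop :=
  ∀ (θ : ℝ) (K : NNReal) (f g h : ℝ → ℝ), 0 ≤ θ → θ ≤ 1 →
    ConcaveOn ℝ univ f → ConcaveOn ℝ univ g → ConcaveOn ℝ univ h →
    LipschitzWith K f → LipschitzWith K g → LipschitzWith K h →
    (∀ s t : ℝ, (1 - θ) * f s + θ * g t ≤ h ((1 - θ) * s + θ * t)) →
    ∀ r0 r1 : ℝ, Fi r0 ≤ ∫ s, Fi (f s) ∂g1 → Fi r1 ≤ ∫ s, Fi (g s) ∂g1 →
      Fi ((1 - θ) * r0 + θ * r1) ≤ ∫ s, Fi (h s) ∂g1

/-- the same in `ℝⁿ` -/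
def StEhN : Prop :=
  ∀ (n : ℕ) (θ : ℝ) (K : NNReal) (f g h : (Fin n → ℝ) → ℝ), 0 ≤ θ → θ ≤ 1 →
    ConcaveOn ℝ univ f → ConcaveOn ℝ univ g → ConcaveOn ℝ univ h →
    LipschitzWith K f → LipschitzWith K g → LipschitzWith K h →
    (∀ s t : Fin n → ℝ, (1 - θ) * f s + θ * g t ≤ h ((1 - θ) • s + θ • t)) →
    ∀ r0 r1 : ℝ, Fi r0 ≤ ∫ s, Fi (f s) ∂(Measure.pi fun _ : Fin n => g1) →
      Fi r1 ≤ ∫ s, Fi (g s) ∂(Measure.pi fun _ : Fin n => g1) →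
      Fi ((1 - θ) * r0 + θ * r1) ≤ ∫ s, Fi (h s) ∂(Measure.pi fun _ : Fin n => g1)

section Eh

variable (E : Type u) [NormedAddCommGroup E] [InnerProductSpace ℝ E] [FiniteDimensional ℝ E]
  [MeasurableSpace E] [BorelSpace E]

/-- Ehrhard for the superlevel sets of a minimum of finitely many linear forms -/
def StEhE : Prop :=
  ∀ (K : Finset ℕ) (a : ℕ → E) (t0 t1 r0 r1 θ : ℝ), (∀ j ∈ K, a j ≠ 0) → 0 ≤ θ → θ ≤ 1 →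
    Fi r0 ≤ (stdGaussian E).real {x | ∀ j ∈ K, t0 ≤ inner ℝ x (a j)} →
    Fi r1 ≤ (stdGaussian E).real {x | ∀ j ∈ K, t1 ≤ inner ℝ x (a j)} →
    Fi ((1 - θ) * r0 + θ * r1) ≤
      (stdGaussian E).real {x | ∀ j ∈ K, (1 - θ) * t0 + θ * t1 ≤ inner ℝ x (a j)}

/-- bound of the loss when one vector is removed -/
def StLi : Prop :=
  ∀ (s : Finset ℕ) (z : ℕ → E) (i : ℕ) (τ : ℝ), Crit s z → 2 ≤ s.card → i ∈ s →
    Ph τ = mass s z i →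
    em s z - em (s.erase i) z ≤ (s.card / (s.card - 1) : ℝ) * (ph τ * (ph τ - τ * Ph τ))

end Eh

/-! ## F. Numerics of the normal tail -/

/-- Mills ratio facts: `0 ≤ φ - τΦ̄` and `φ(φ - τΦ̄) ≤ Φ̄²` -/
def StMills : Prop := ∀ τ : ℝ, 0 ≤ ph τ - τ * Ph τ ∧ ph τ * (ph τ - τ * Ph τ) ≤ (Ph τ) ^ 2

/-- polynomial upper bound of `2x - x²/C` on `0.1 ≤ p ≤ 0.32` -/
def StNum1 : Prop :=
  ∀ τ : ℝ, 1 / 10 ≤ Ph τ → Ph τ ≤ 32 / 100 →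
    2 * (ph τ * (ph τ - τ * Ph τ)) - (ph τ * (ph τ - τ * Ph τ)) ^ 2 / CC
      ≤ (Ph τ) ^ 2 * (1818 / 1000 - 1597 / 1000 * Ph τ)

/-- `φ(τ) - τΦ̄(τ) ≤ 0.1904` at `τ = 0.5244`, and `x ≤ 0.08` for `p ≤ 0.32` -/
def StNum2 : Prop :=
  ph (5244 / 10000) - 5244 / 10000 * Ph (5244 / 10000) ≤ 1904 / 10000 ∧
  ∀ τ : ℝ, Ph τ ≤ 32 / 100 → ph τ * (ph τ - τ * Ph τ) ≤ 8 / 100

/-! ## G. Counting, `k ≥ 5` -/

/-- the counting inequality -/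
def StCnt : Prop :=
  ∀ (s : Finset ℕ) (p y : ℕ → ℝ) (a b c d : ℕ), a ∈ s → b ∈ s → c ∈ s → d ∈ s →
    a ≠ b → a ≠ c → a ≠ d → b ≠ c → b ≠ d → c ≠ d →
    (∀ i ∈ s, 0 ≤ p i) → ∑ i ∈ s, p i = 1 → p b ≤ p a → p c ≤ p b → p d ≤ p c →
    (∀ i ∈ s \ {a, b, c, d}, p i ≤ p d) →
    (∀ i ∈ s, y i ≤ 2 * (p i) ^ 2) →
    (∀ i ∈ s, y i ≤ (1904 / 10000 + 5244 / 10000 * p i) ^ 2) →
    (∀ i ∈ s, 1 / 10 ≤ p i → p i ≤ 32 / 100 →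
      y i ≤ (p i) ^ 2 * (1818 / 1000 - 1597 / 1000 * p i)) →
    26 / 1000 ≤ ∑ i ∈ s \ {a, b, c}, y i → 38 / 1000 ≤ ∑ i ∈ s \ {a, b, c, d}, p i →
    ∑ i ∈ s, y i ≤ 358 / 1000

section K

variable (E : Type u) [NormedAddCommGroup E] [InnerProductSpace ℝ E] [FiniteDimensional ℝ E]
  [MeasurableSpace E] [BorelSpace E]

/-- bounds of `‖z i‖²` by the mass of the cell -/
def StUb : Prop :=
  ∀ (s : Finset ℕ) (z : ℕ → E), Crit s z → 5 ≤ s.card → ∀ i ∈ s,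
    ‖z i‖ ^ 2 ≤ 2 * (mass s z i) ^ 2 ∧
    ‖z i‖ ^ 2 ≤ (1904 / 10000 + 5244 / 10000 * mass s z i) ^ 2 ∧
    (1 / 10 ≤ mass s z i → mass s z i ≤ 32 / 100 →
      ‖z i‖ ^ 2 ≤ (mass s z i) ^ 2 * (1818 / 1000 - 1597 / 1000 * mass s z i))

/-- no critical configuration with at least five vectors -/
def StK5 : Prop := ∀ (s : Finset ℕ) (z : ℕ → E), Crit s z → 5 ≤ s.card → False

/-- cap bound for four vectors -/
def StCap : Prop :=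
  ∀ (s : Finset ℕ) (z : ℕ → E), Crit s z → s.card = 4 → ∀ i ∈ s,
    ‖z i‖ ≤ Real.sqrt (8 / Real.pi) * mass s z i * (1 - mass s z i)

/-- no critical configuration with four vectors -/
def StK4 : Prop := ∀ (s : Finset ℕ) (z : ℕ → E), Crit s z → s.card = 4 → False

end K

/-! ## H. Cap bound for cones in `ℝ³` and the quartic inequality -/

/-- `E‖x‖ = √(8/π)` and Archimedes: `E(⟪x,u⟫ - c‖x‖)^+ = √(8/π)(1-c)²/4` for `-1 ≤ c ≤ 1` in `ℝ³` -/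
def StArch : Prop :=
  (∫ x, ‖x‖ ∂(stdGaussian (EuclideanSpace ℝ (Fin 3))) = Real.sqrt (8 / Real.pi)) ∧
  ∀ (u : EuclideanSpace ℝ (Fin 3)) (c : ℝ), ‖u‖ = 1 → -1 ≤ c → c ≤ 1 →
    ∫ x, max (inner ℝ x u - c * ‖x‖) 0 ∂(stdGaussian (EuclideanSpace ℝ (Fin 3)))
      = Real.sqrt (8 / Real.pi) * (1 - c) ^ 2 / 4

/-- norm and direction are independent: for a cone `B`, `E(‖x‖; B) = γ(B) E‖x‖`. -/
def StCone : Prop :=
  ∀ (B : Set (EuclideanSpace ℝ (Fin 3))), MeasurableSet B → (∀ x ∈ B, ∀ c : ℝ, 0 < c → c • x ∈ B) →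
    ∫ x in B, ‖x‖ ∂(stdGaussian (EuclideanSpace ℝ (Fin 3)))
      = (stdGaussian (EuclideanSpace ℝ (Fin 3))).real B * Real.sqrt (8 / Real.pi)

/-- quartic inequality -/
def StPoly4 : Prop :=
  ∀ a b c d : ℝ, 1138 / 10000 ≤ a → 1138 / 10000 ≤ b → 1138 / 10000 ≤ c → 1138 / 10000 ≤ d →
    a + b + c + d = 1 →
    (a * (1 - a)) ^ 2 + (b * (1 - b)) ^ 2 + (c * (1 - c)) ^ 2 + (d * (1 - d)) ^ 2 ≤ 9 / 64

end Crest.Agent.R215
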