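import Crest.Agent.R215.Lib1

set_option autoImplicit false

open MeasureTheory ProbabilityTheory Set Filter Topology

noncomputable section

namespace Crest.Agent.R215

namespace EHA

lemma hasDerivAt_psi (t : ℝ) (ht : 0 < t) :
    HasDerivAt (fun t => ph t / t) (-(ph t * (1 + 1 / t ^ 2))) t := by
  have h := (hasDerivAt_ph t).div (hasDerivAt_id' t) ht.ne'
  refine h.congr_deriv ?_
  field_simp
  ring

lemma hasDerivAt_aux (k t : ℝ) (ht : 0 < t) :
    HasDerivAt (fun t => ph t / t - (1 + 1 / k ^ 2) * Ph t)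
      (ph t * (1 / k ^ 2 - 1 / t ^ 2)) t := by
  have h := (hasDerivAt_psi t ht).sub ((hasDerivAt_Ph t).const_mul (1 + 1 / k ^ 2))
  refine h.congr_deriv ?_
  ring

lemma lemA (c b : ℝ) (hc : 0 < c) (hcb : c ≤ b) :
    (1 + 1 / b ^ 2) * (Ph c - Ph b) ≤ ph c / c - ph b / b := by
  have hanti : AntitoneOn (fun t => ph t / t - (1 + 1 / b ^ 2) * Ph t) (Icc c b) := by
    apply antitoneOn_of_deriv_nonpos (convex_Icc c b)
    · intro t ht
      exact (hasDerivAt_aux b t (lt_of_lt_of_le hc ht.1)).continuousAt.continuousWithinAt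
    · intro t ht
      rw [interior_Icc] at ht
      exact (hasDerivAt_aux b t (hc.trans ht.1)).differentiableAt.differentiableWithinAt
    · intro t ht
      rw [interior_Icc] at ht
      have ht0 : 0 < t := hc.trans ht.1
      rw [(hasDerivAt_aux b t ht0).deriv]
      have h1 : 1 / b ^ 2 ≤ 1 / t ^ 2 :=
        one_div_le_one_div_of_le (by positivity) (pow_le_pow_left₀ ht0.le ht.2.le 2)
      nlinarith [ph_pos t]
  have := hanti (left_mem_Icc.2 hcb) (right_mem_Icc.2 hcb) hcb
  simp only at this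
  linarith

lemma psi_tendsto : Tendsto (fun t => ph t / t) atTop (𝓝 0) := by
  have h : Tendsto (fun t : ℝ => ph t * t⁻¹) atTop (𝓝 (0 * 0)) :=
    ph_tendsto_atTop.mul tendsto_inv_atTop_zero
  simpa [div_eq_mul_inv] using h

lemma lemB (a : ℝ) (ha : 0 < a) : ph a / a ≤ (1 + 1 / a ^ 2) * Ph a := by
  have hmono : MonotoneOn (fun t => ph t / t - (1 + 1 / a ^ 2) * Ph t) (Ici a) := by
    apply monotoneOn_of_deriv_nonneg (convex_Ici a)
    · intro t ht
      exact (hasDerivAt_aux a t (lt_of_lt_of_le ha ht)).continuousAt.continuousWithinAt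
    · intro t ht
      rw [interior_Ici] at ht
      exact (hasDerivAt_aux a t (ha.trans ht)).differentiableAt.differentiableWithinAt
    · intro t ht
      rw [interior_Ici] at ht
      have ht0 : 0 < t := ha.trans ht
      rw [(hasDerivAt_aux a t ht0).deriv]
      have h1 : 1 / t ^ 2 ≤ 1 / a ^ 2 :=
        one_div_le_one_div_of_le (by positivity) (pow_le_pow_left₀ ha.le (le_of_lt ht) 2)
      exact mul_nonneg (ph_pos t).le (by linarith)
  have hlim : Tendsto (fun t => ph t / t - (1 + 1 / a ^ 2) * Ph t) atTop (𝓝 (0 - (1 + 1 / a ^ 2) * 0)) :=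
    psi_tendsto.sub (Ph_tendsto_atTop.const_mul _)
  have h := ge_of_tendsto hlim (eventually_atTop.2 ⟨a, fun t ht => hmono self_mem_Ici ht ht⟩)
  simp only [mul_zero, sub_zero] at h
  linarith

lemma main (a b c : ℝ) (ha : 0 < a) (hb : 0 < b) (hc : 0 < c) (hba : b ≤ a)
    (h : Ph c = Ph a + Ph b) : ph a / a + ph b / b ≤ ph c / c := by
  have hcb : c ≤ b := by
    by_contra hlt
    push Not at hlt
    have := Ph_strictAnti hlt
    linarith [Ph_pos a]
  have h1 := lemA c b hc hcb
  have h2 := lemB a ha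
  have h3 : 1 / a ^ 2 ≤ 1 / b ^ 2 :=
    one_div_le_one_div_of_le (by positivity) (pow_le_pow_left₀ hb.le hba 2)
  have h4 : Ph c - Ph b = Ph a := by linarith
  rw [h4] at h1
  nlinarith [Ph_pos a]

end EHA

theorem ehA : StEhA := by
  intro a b c ha hb hc h
  rcases le_total b a with hba | hab
  · exact EHA.main a b c ha hb hc hba h
  · have := EHA.main b a c hb ha hc hab (by linarith)
    linarith

end Crest.Agent.R215
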