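import Crest.Agent.R215.Lib1

set_option autoImplicit false

open MeasureTheory ProbabilityTheory Set Filter Topology

noncomputable section

namespace Crest.Agent.R215

namespace EHB

/-- the quadratic form inequality, `x, y, k > 0` -/
lemma core1 (x y k a b c X Y : ℝ) (hx : 0 < x) (hy : 0 < y) (hk : 0 < k) (ha : 0 < a) (hb : 0 < b)
    (hc : 0 < c) (h : a / x + b / y ≤ c / k) :
    k * (a * X + b * Y) ^ 2 ≤ c * (x * a * X ^ 2 + y * b * Y ^ 2) := by
  have h1 : (a * y + b * x) * k ≤ c * (x * y) := by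
    rw [div_add_div _ _ hx.ne' hy.ne', div_le_div_iff₀ (by positivity) hk] at h
    linarith
  -- (aX+bY)^2 xy ≤ (a y + b x)(a x X² + b y Y²)
  have h2 : (a * X + b * Y) ^ 2 * (x * y) ≤ (a * y + b * x) * (x * a * X ^ 2 + y * b * Y ^ 2) := by
    have : (a * y + b * x) * (x * a * X ^ 2 + y * b * Y ^ 2) - (a * X + b * Y) ^ 2 * (x * y) =
        a * b * (x * X - y * Y) ^ 2 := by ring
    have h3 : 0 ≤ a * b * (x * X - y * Y) ^ 2 := by positivity
    linarith
  have h4 : 0 ≤ x * a * X ^ 2 + y * b * Y ^ 2 := by positivity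
  have h5 : (k * (a * X + b * Y) ^ 2) * (x * y) ≤ (c * (x * a * X ^ 2 + y * b * Y ^ 2)) * (x * y) := by
    calc (k * (a * X + b * Y) ^ 2) * (x * y) = k * ((a * X + b * Y) ^ 2 * (x * y)) := by ring
      _ ≤ k * ((a * y + b * x) * (x * a * X ^ 2 + y * b * Y ^ 2)) :=
          mul_le_mul_of_nonneg_left h2 hk.le
      _ = ((a * y + b * x) * k) * (x * a * X ^ 2 + y * b * Y ^ 2) := by ring
      _ ≤ (c * (x * y)) * (x * a * X ^ 2 + y * b * Y ^ 2) := mul_le_mul_of_nonneg_right h1 h4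
      _ = _ := by ring
  exact le_of_mul_le_mul_right h5 (by positivity)

/-- the quadratic form inequality, `x > 0`, `y = -m < 0`, `k = -K < 0` -/
lemma core2 (x m K a b c X Y : ℝ) (hx : 0 < x) (hm : 0 < m) (hK : 0 < K) (ha : 0 < a) (hb : 0 < b)
    (hc : 0 < c) (h : c / K + a / x ≤ b / m) :
    -K * (a * X + b * Y) ^ 2 ≤ c * (x * a * X ^ 2 + -m * b * Y ^ 2) := by
  have h1 : (c * x + a * K) * m ≤ b * (K * x) := by
    rw [div_add_div _ _ hK.ne' hx.ne', div_le_div_iff₀ (by positivity) hm] at h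
    linarith
  -- Q = A X² + 2 B X Y + C Y², A = a (c x + K a), B = K a b, C = b (K b - c m)
  have hA : 0 < a * (c * x + K * a) := by positivity
  have hdisc : (K * a * b) ^ 2 ≤ (a * (c * x + K * a)) * (b * (K * b - c * m)) := by
    have : (a * (c * x + K * a)) * (b * (K * b - c * m)) - (K * a * b) ^ 2 =
        a * b * c * (b * (K * x) - (c * x + a * K) * m) := by ring
    have h3 : 0 ≤ a * b * c * (b * (K * x) - (c * x + a * K) * m) := by
      apply mul_nonneg (by positivity); linarith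
    linarith
  have hQ : 0 ≤ (a * (c * x + K * a)) *
      (c * (x * a * X ^ 2 + -m * b * Y ^ 2) + K * (a * X + b * Y) ^ 2) := by
    have : (a * (c * x + K * a)) *
      (c * (x * a * X ^ 2 + -m * b * Y ^ 2) + K * (a * X + b * Y) ^ 2) =
      (a * (c * x + K * a) * X + K * a * b * Y) ^ 2 +
        ((a * (c * x + K * a)) * (b * (K * b - c * m)) - (K * a * b) ^ 2) * Y ^ 2 := by ring
    rw [this]
    have h4 : 0 ≤ ((a * (c * x + K * a)) * (b * (K * b - c * m)) - (K * a * b) ^ 2) * Y ^ 2 :=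
      mul_nonneg (by linarith) (sq_nonneg Y)
    positivity
  have := nonneg_of_mul_nonneg_right hQ hA
  linarith

lemma core (hA : StEhA) (x y k X Y : ℝ) (hxy : 0 < x + y) (hk : Ph k = Ph x + Ph y) :
    k * (ph x * X + ph y * Y) ^ 2 ≤ ph k * (x * ph x * X ^ 2 + y * ph y * Y ^ 2) := by
  have hkx : k < x := by
    by_contra h
    push Not at h
    have := Ph_strictAnti.antitone h
    have := Ph_pos y
    linarith
  have hky : k < y := by
    by_contra h
    push Not at h
    have := Ph_strictAnti.antitone h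
    have := Ph_pos x
    linarith
  have key : ∀ x y : ℝ, ∀ X Y : ℝ, 0 < x + y → Ph k = Ph x + Ph y → k < y → y < 0 →
      k * (ph x * X + ph y * Y) ^ 2 ≤ ph k * (x * ph x * X ^ 2 + y * ph y * Y ^ 2) := by
    intro x y X Y hxy hk hky hy
    have hx : 0 < x := by linarith
    have h1 : Ph (-y) = Ph (-k) + Ph x := by rw [Ph_neg, Ph_neg, hk]; ring
    have h2 := hA (-k) x (-y) (by linarith) hx (by linarith) h1
    rw [ph_neg, ph_neg] at h2
    have := core2 x (-y) (-k) (ph x) (ph y) (ph k) X Y hx (by linarith) (by linarith) (ph_pos x)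
      (ph_pos y) (ph_pos k) h2
    rw [neg_neg, neg_neg] at this
    exact this
  rcases lt_or_ge y 0 with hy | hy
  · exact key x y X Y hxy hk hky hy
  · rcases lt_or_ge x 0 with hx | hx
    · have := key y x Y X (by linarith) (by linarith) hkx hx
      calc k * (ph x * X + ph y * Y) ^ 2 = k * (ph y * Y + ph x * X) ^ 2 := by ring
        _ ≤ _ := this
        _ = _ := by ring
    · rcases le_or_gt k 0 with hk0 | hk0
      · have h1 : k * (ph x * X + ph y * Y) ^ 2 ≤ 0 :=
          mul_nonpos_of_nonpos_of_nonneg hk0 (sq_nonneg _)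
        have := ph_pos x
        have := ph_pos y
        have := ph_pos k
        have h2 : 0 ≤ ph k * (x * ph x * X ^ 2 + y * ph y * Y ^ 2) := by positivity
        linarith
      · exact core1 x y k (ph x) (ph y) (ph k) X Y (hk0.trans hkx) (hk0.trans hky) hk0 (ph_pos x)
          (ph_pos y) (ph_pos k) (hA x y k (hk0.trans hkx) (hk0.trans hky) hk0 hk)

/-- second derivative test, contradiction form -/
lemma no_min (G G' : ℝ → ℝ) (t g : ℝ) (h1 : ∀ s, HasDerivAt G (G' s) s) (h2 : HasDerivAt G' g t)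
    (hmin : IsLocalMin G t) (hg : g < 0) : False := by
  have e1 : deriv G = G' := funext fun s => (h1 s).deriv
  have h3 : G' t = 0 := hmin.hasDerivAt_eq_zero (h1 t)
  have h4 : deriv (deriv G) t < 0 := by rw [e1, h2.deriv]; exact hg
  have h5 : IsLocalMax G t := isLocalMax_of_deriv_deriv_neg h4 (by rw [e1]; exact h3)
    (h1 t).continuousAt
  have h6 : ∀ᶠ s in 𝓝 t, G s = G t := by
    filter_upwards [hmin, h5] with s hs hs'
    exact le_antisymm hs' hs
  have h7 : ∀ᶠ s in 𝓝 t, G' s = 0 := by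
    filter_upwards [h6.eventually_nhds] with s hs
    have h8 : G =ᶠ[𝓝 s] fun _ => G t := hs
    have h9 := h8.deriv_eq
    rw [(h1 s).deriv] at h9
    simpa using h9
  have h8 : G' =ᶠ[𝓝 t] fun _ => 0 := h7
  have h9 := h8.deriv_eq
  rw [h2.deriv] at h9
  simp at h9
  linarith

end EHB

open EHB in
theorem ehB : StEhA → StEhB := by
  intro hA x0 y0 x1 y1 h0 h1 θ0 hθ0 hθ1 hxy0 hxy1 hh0 hh1
  by_contra hcon
  push Not at hcon
  -- functions
  set X := x1 - x0 with hX
  set Y := y1 - y0 with hY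
  set H := h1 - h0 with hH
  let xx : ℝ → ℝ := fun t => x0 + t * X
  let yy : ℝ → ℝ := fun t => y0 + t * Y
  let hh : ℝ → ℝ := fun t => h0 + t * H
  let p : ℝ → ℝ := fun t => Ph (xx t) + Ph (yy t)
  have hxx : xx θ0 = (1 - θ0) * x0 + θ0 * x1 := by simp only [xx, hX]; ring
  have hyy : yy θ0 = (1 - θ0) * y0 + θ0 * y1 := by simp only [yy, hY]; ring
  have hhh : hh θ0 = (1 - θ0) * h0 + θ0 * h1 := by simp only [hh, hH]; ring
  rw [← hxx, ← hyy, ← hhh] at hcon
  have hxycont : Continuous xx ∧ Continuous yy ∧ Continuous hh := by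
    refine ⟨?_, ?_, ?_⟩ <;> simp only [xx, yy, hh] <;> fun_prop
  obtain ⟨cxx, cyy, chh⟩ := hxycont
  have cp : Continuous p := (Ph_continuous.comp cxx).add (Ph_continuous.comp cyy)
  have hsum : ∀ t ∈ Icc (0:ℝ) 1, 0 < xx t + yy t := by
    intro t ht
    have : xx t + yy t = (1 - t) * (x0 + y0) + t * (x1 + y1) := by
      simp only [xx, yy, hX, hY]; ring
    rw [this]
    rcases eq_or_lt_of_le ht.1 with h | h
    · rw [← h]; linarith
    · have := mul_pos h hxy1
      have := mul_nonneg (by linarith [ht.2] : 0 ≤ 1 - t) hxy0.le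
      linarith
  have hp1 : ∀ t ∈ Icc (0:ℝ) 1, p t < 1 := by
    intro t ht
    have h1 := hsum t ht
    have h2 : Ph (yy t) < Ph (-(xx t)) := Ph_strictAnti (by linarith)
    rw [Ph_neg] at h2
    simp only [p]; linarith
  -- epsilon
  obtain ⟨ε, hε, hεlt⟩ : ∃ ε > 0, Ph (hh θ0 - ε * (θ0 - θ0 ^ 2)) < p θ0 := by
    have hc : Continuous fun e : ℝ => Ph (hh θ0 - e * (θ0 - θ0 ^ 2)) :=
      Ph_continuous.comp (by fun_prop)
    have h1 : ∀ᶠ e in 𝓝 (0:ℝ), Ph (hh θ0 - e * (θ0 - θ0 ^ 2)) < p θ0 := by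
      apply hc.continuousAt.eventually_lt continuousAt_const
      simpa using hcon
    have h2 : ∀ᶠ e in 𝓝[>] (0:ℝ), Ph (hh θ0 - e * (θ0 - θ0 ^ 2)) < p θ0 :=
      h1.filter_mono nhdsWithin_le_nhds
    obtain ⟨e, he, he'⟩ := (h2.and self_mem_nhdsWithin).exists
    exact ⟨e, he', he⟩
  let hε : ℝ → ℝ := fun t => hh t - ε * (t - t ^ 2)
  have chε : Continuous hε := by simp only [hε]; fun_prop
  -- bound M
  obtain ⟨tm, htm, hpm⟩ := (isCompact_Icc (a := (0:ℝ)) (b := 1)).exists_isMaxOn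
    ⟨0, by simp⟩ cp.continuousOn
  obtain ⟨tb, htb, hpb⟩ := (isCompact_Icc (a := (0:ℝ)) (b := 1)).exists_isMaxOn
    ⟨0, by simp⟩ chε.continuousOn
  have hpm1 := hp1 tm htm
  have hpm0 : 0 < p tm := by
    simp only [p]; have := Ph_pos (xx tm); have := Ph_pos (yy tm); linarith
  obtain ⟨r, hr⟩ := exists_Ph_eq (p := (p tm + 1) / 2) (by linarith) (by linarith)
  set M := max 1 (hε tb - r) with hM
  have hMpos : 0 < M := lt_of_lt_of_le one_pos (le_max_left _ _)
  have hMf : ∀ t ∈ Icc (0:ℝ) 1, p t < Ph (hε t - M) := by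
    intro t ht
    have h1 : p t ≤ p tm := hpm ht
    have h2 : hε t ≤ hε tb := hpb ht
    have h3 : hε tb - r ≤ M := le_max_right _ _
    have h4 : Ph r ≤ Ph (hε t - M) := Ph_strictAnti.antitone (by linarith)
    rw [hr] at h4
    linarith
  let f : ℝ × ℝ → ℝ := fun q => Ph (hε q.1 - q.2) - p q.1
  have cf : Continuous f := by
    apply Continuous.sub
    · exact Ph_continuous.comp ((chε.comp continuous_fst).sub continuous_snd)
    · exact cp.comp continuous_fst
  have hK : IsCompact ((Icc (0:ℝ) 1 ×ˢ Icc (0:ℝ) M) ∩ {q | f q ≤ 0}) :=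
    (isCompact_Icc.prod isCompact_Icc).inter_right (isClosed_le cf continuous_const)
  have hθ0K : ((θ0, 0) : ℝ × ℝ) ∈ ((Icc (0:ℝ) 1 ×ˢ Icc (0:ℝ) M) ∩ {q | f q ≤ 0}) := by
    refine ⟨⟨⟨hθ0, hθ1⟩, ⟨le_rfl, hMpos.le⟩⟩, ?_⟩
    show Ph (hε θ0 - 0) - p θ0 ≤ 0
    rw [sub_zero]; exact (sub_neg.2 hεlt).le
  obtain ⟨⟨t, δ⟩, ⟨⟨htt, hδδ⟩, hfq⟩, hmax⟩ := hK.exists_isMaxOn ⟨_, hθ0K⟩ continuous_snd.continuousOn
  have htt : t ∈ Icc (0:ℝ) 1 := htt
  have hδδ : δ ∈ Icc (0:ℝ) M := hδδ
  have hfq : f (t, δ) ≤ 0 := hfq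
  -- claim A
  have hclA : ∀ s ∈ Icc (0:ℝ) 1, 0 ≤ f (s, δ) := by
    intro s hs
    by_contra hneg
    push Not at hneg
    have hδM : δ < M := by
      rcases eq_or_lt_of_le hδδ.2 with h | h
      · rw [h] at hneg
        have := hMf s hs
        have h5 : f (s, M) = Ph (hε s - M) - p s := rfl
        linarith
      · exact h
    have c1 : Continuous fun d : ℝ => f (s, d) := cf.comp (by fun_prop)
    have e1 : ∀ᶠ d in 𝓝[>] δ, f (s, d) < 0 :=
      (c1.continuousAt.eventually_lt continuousAt_const hneg).filter_mono nhdsWithin_le_nhds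
    have e2 : ∀ᶠ d in 𝓝[>] δ, d ∈ Ioo δ M := Ioo_mem_nhdsGT hδM
    obtain ⟨d, hd1, hd2⟩ := (e1.and e2).exists
    have h3 := hmax (a := (s, d)) ⟨⟨hs, ⟨hδδ.1.trans hd2.1.le, hd2.2.le⟩⟩, hd1.le⟩
    have h3 : d ≤ δ := h3
    linarith [hd2.1]
  have hδpos : 0 < δ := by
    rcases eq_or_lt_of_le hδδ.1 with h | h
    · exfalso
      have h2 := hclA θ0 ⟨hθ0, hθ1⟩
      rw [← h] at h2
      have h3 : f (θ0, 0) = Ph (hε θ0 - 0) - p θ0 := rfl
      rw [h3, sub_zero] at h2
      have h4 : Ph (hε θ0) < p θ0 := hεlt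
      linarith
    · exact h
  have hf0 : f (t, δ) = 0 := le_antisymm hfq (hclA t htt)
  have ht0 : 0 < t := by
    rcases eq_or_lt_of_le htt.1 with h | h
    · exfalso
      rw [← h] at hf0
      have h3 : f (0, δ) = Ph (hε 0 - δ) - p 0 := rfl
      have h4 : hε 0 = h0 := by simp [hε, hh]
      have h5 : p 0 = Ph h0 := by simp only [p, xx, yy]; rw [← hh0]; simp
      rw [h3, h4, h5] at hf0
      have : Ph h0 < Ph (h0 - δ) := Ph_strictAnti (by linarith)
      linarith
    · exact h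
  have ht1 : t < 1 := by
    rcases eq_or_lt_of_le htt.2 with h | h
    · exfalso
      rw [h] at hf0
      have h3 : f (1, δ) = Ph (hε 1 - δ) - p 1 := rfl
      have h4 : hε 1 = h1 := by simp [hε, hh, hH]
      have h5 : p 1 = Ph h1 := by
        simp only [p, xx, yy, hX, hY]; rw [← hh1]; congr 1 <;> congr 1 <;> ring
      rw [h3, h4, h5] at hf0
      have : Ph h1 < Ph (h1 - δ) := Ph_strictAnti (by linarith)
      linarith
    · exact h
  -- the second derivative test
  let G : ℝ → ℝ := fun s => f (s, δ)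
  let u : ℝ → ℝ := fun s => hε s - δ
  let u' : ℝ → ℝ := fun s => H - ε * (1 - 2 * s)
  let G' : ℝ → ℝ := fun s => -(ph (u s)) * u' s + ph (xx s) * X + ph (yy s) * Y
  have du : ∀ s, HasDerivAt u (u' s) s := by
    intro s
    have h1 : HasDerivAt (fun s : ℝ => h0 + s * H - ε * (s - s ^ 2) - δ)
        (1 * H - ε * (1 - 2 * s ^ 1 * 1)) s := by
      have a1 : HasDerivAt (fun s : ℝ => s * H) (1 * H) s := (hasDerivAt_id s).mul_const H
      have a2 : HasDerivAt (fun s : ℝ => h0 + s * H) (1 * H) s := a1.const_add h0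
      have a3 : HasDerivAt (fun s : ℝ => s ^ 2) (2 * s ^ 1 * 1) s := by
        simpa using hasDerivAt_pow 2 s
      have a4 : HasDerivAt (fun s : ℝ => s - s ^ 2) (1 - 2 * s ^ 1 * 1) s := (hasDerivAt_id s).sub a3
      exact ((a2.sub (a4.const_mul ε)).sub_const δ)
    have h2 : u' s = 1 * H - ε * (1 - 2 * s ^ 1 * 1) := by simp only [u']; ring
    rw [h2]
    exact h1
  have dxx : ∀ s, HasDerivAt xx X s := by
    intro s
    have a1 : HasDerivAt (fun s : ℝ => s * X) (1 * X) s := (hasDerivAt_id s).mul_const X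
    have := a1.const_add x0
    rwa [one_mul] at this
  have dyy : ∀ s, HasDerivAt yy Y s := by
    intro s
    have a1 : HasDerivAt (fun s : ℝ => s * Y) (1 * Y) s := (hasDerivAt_id s).mul_const Y
    have := a1.const_add y0
    rwa [one_mul] at this
  have dG : ∀ s, HasDerivAt G (G' s) s := by
    intro s
    have b1 : HasDerivAt (fun s => Ph (u s)) (-(ph (u s)) * u' s) s :=
      (hasDerivAt_Ph (u s)).comp s (du s)
    have b2 : HasDerivAt (fun s => Ph (xx s)) (-(ph (xx s)) * X) s :=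
      (hasDerivAt_Ph (xx s)).comp s (dxx s)
    have b3 : HasDerivAt (fun s => Ph (yy s)) (-(ph (yy s)) * Y) s :=
      (hasDerivAt_Ph (yy s)).comp s (dyy s)
    have b4 := b1.sub (b2.add b3)
    have e : G' s = -(ph (u s)) * u' s - (-(ph (xx s)) * X + -(ph (yy s)) * Y) := by
      simp only [G']; ring
    rw [e]
    exact b4
  have dG' : HasDerivAt G' (u t * ph (u t) * (u' t) ^ 2 - ph (u t) * (2 * ε)
      - xx t * ph (xx t) * X ^ 2 - yy t * ph (yy t) * Y ^ 2) t := by
    have b1 : HasDerivAt (fun s => ph (u s)) (-(u t * ph (u t)) * u' t) t :=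
      (hasDerivAt_ph (u t)).comp t (du t)
    have b1' : HasDerivAt u' (2 * ε) t := by
      have a1 : HasDerivAt (fun s : ℝ => 2 * s) (2 * 1) t := (hasDerivAt_id t).const_mul 2
      have a2 : HasDerivAt (fun s : ℝ => 1 - 2 * s) (-(2 * 1)) t := a1.const_sub 1
      have a3 : HasDerivAt (fun s : ℝ => H - ε * (1 - 2 * s)) (-(ε * (-(2 * 1)))) t :=
        (a2.const_mul ε).const_sub H
      have e : (2 * ε) = -(ε * (-(2 * 1))) := by ring
      rw [e]; exact a3
    have b2 : HasDerivAt (fun s => ph (xx s)) (-(xx t * ph (xx t)) * X) t :=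
      (hasDerivAt_ph (xx t)).comp t (dxx t)
    have b3 : HasDerivAt (fun s => ph (yy s)) (-(yy t * ph (yy t)) * Y) t :=
      (hasDerivAt_ph (yy t)).comp t (dyy t)
    have b4 := ((b1.neg.mul b1').add (b2.mul_const X)).add (b3.mul_const Y)
    refine b4.congr_deriv ?_
    simp only [Pi.neg_apply]
    ring
  have hmin : IsLocalMin G t := by
    have : ∀ᶠ s in 𝓝 t, s ∈ Icc (0:ℝ) 1 := Icc_mem_nhds ht0 ht1
    filter_upwards [this] with s hs
    show f (t, δ) ≤ f (s, δ)
    rw [hf0]; exact hclA s hs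
  have hG't : G' t = 0 := hmin.hasDerivAt_eq_zero (dG t)
  refine no_min G G' t _ dG dG' hmin ?_
  have hPk : Ph (u t) = Ph (xx t) + Ph (yy t) := by
    have h3 : f (t, δ) = Ph (u t) - (Ph (xx t) + Ph (yy t)) := rfl
    rw [h3] at hf0; linarith
  have hcore := core hA (xx t) (yy t) (u t) X Y (hsum t htt) hPk
  have hsub : ph (xx t) * X + ph (yy t) * Y = ph (u t) * u' t := by
    have : G' t = -(ph (u t)) * u' t + ph (xx t) * X + ph (yy t) * Y := rfl
    rw [this] at hG't; linarith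
  rw [hsub] at hcore
  have hpu := ph_pos (u t)
  have h5 : ph (u t) * (u t * ph (u t) * (u' t) ^ 2) ≤
      ph (u t) * (xx t * ph (xx t) * X ^ 2 + yy t * ph (yy t) * Y ^ 2) := by
    calc ph (u t) * (u t * ph (u t) * (u' t) ^ 2) = u t * (ph (u t) * u' t) ^ 2 := by ring
      _ ≤ _ := hcore
  have h6 := le_of_mul_le_mul_left h5 hpu
  have h7 : 0 < ph (u t) * (2 * ε) := by positivity
  linarith

end Crest.Agent.R215
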