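import Crest.Agent.R215.Lib1

set_option autoImplicit false

open MeasureTheory ProbabilityTheory Set Filter Topology

namespace Crest.Agent.R215

namespace EHC

lemma real_Icc (a b : ℝ) (hab : a ≤ b) : g1.real (Icc a b) = Fi b - Ph (-a) := by
  rw [Ph_eq_Fi_neg, neg_neg, Fi_sub, g1_real_eq _ measurableSet_Icc, integral_Icc_eq_integral_Ioc,
    intervalIntegral.integral_of_le hab]

lemma measurable_of_convex {I : Set ℝ} (hI : Convex ℝ I) : MeasurableSet I :=
  hI.ordConnected.measurableSet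

/-- inner approximation by a compact interval -/
lemma exists_Icc {I : Set ℝ} (hI : Convex ℝ I) {r r' : ℝ} (hr : Fi r ≤ g1.real I) (hrr : r' < r) :
    ∃ a b : ℝ, a < b ∧ a ∈ I ∧ b ∈ I ∧ Fi r' < g1.real (Icc a b) := by
  have hlt : Fi r' < g1.real I := lt_of_lt_of_le (Fi_strictMono hrr) hr
  have h1 : ENNReal.ofReal (Fi r') < g1 I := by
    rw [← ENNReal.ofReal_toReal (measure_ne_top g1 I)]
    exact (ENNReal.ofReal_lt_ofReal_iff (lt_of_le_of_lt (Fi_nonneg _) hlt)).2 hlt
  obtain ⟨K, hKI, hK, hKm⟩ := (measurable_of_convex hI).exists_lt_isCompact_of_ne_top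
    (measure_ne_top g1 I) h1
  have hKne : K.Nonempty := by
    by_contra h
    rw [not_nonempty_iff_eq_empty] at h
    rw [h] at hKm
    simp at hKm
  have ha : sInf K ∈ K := hK.sInf_mem hKne
  have hb : sSup K ∈ K := hK.sSup_mem hKne
  have hsub : K ⊆ Icc (sInf K) (sSup K) := fun x hx =>
    ⟨csInf_le hK.bddBelow hx, le_csSup hK.bddAbove hx⟩
  have hle : g1 K ≤ g1 (Icc (sInf K) (sSup K)) := measure_mono hsub
  have hlt2 : Fi r' < g1.real (Icc (sInf K) (sSup K)) := by
    have := lt_of_lt_of_le hKm hle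
    rw [Measure.real, ← ENNReal.ofReal_lt_iff_lt_toReal (Fi_nonneg _) (measure_ne_top _ _)]
    exact this
  refine ⟨sInf K, sSup K, ?_, hKI ha, hKI hb, hlt2⟩
  rcases lt_or_ge (sInf K) (sSup K) with h | h
  · exact h
  · exfalso
    have h2 : Icc (sInf K) (sSup K) ⊆ {sInf K} := by
      intro x hx
      have : x = sInf K := le_antisymm (hx.2.trans h) hx.1
      exact this
    have h3 : g1.real (Icc (sInf K) (sSup K)) ≤ g1.real {sInf K} := measureReal_mono h2
    have h4 : g1.real {sInf K} = 0 := by simp [Measure.real]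
    linarith [Fi_pos r']

/-- the parameter `h` of a compact interval -/
lemma exists_h {a b : ℝ} (hab : a < b) {r' : ℝ} (h : Fi r' < g1.real (Icc a b)) :
    ∃ h0, Ph b + Ph (-a) = Ph h0 ∧ r' < h0 := by
  have hI := real_Icc a b hab.le
  have e : Ph b + Ph (-a) = 1 - g1.real (Icc a b) := by rw [hI, Ph_eq_one_sub b]; ring
  have hpos : 0 < Ph b + Ph (-a) := add_pos (Ph_pos _) (Ph_pos _)
  have hlt : Ph b + Ph (-a) < 1 := by rw [e]; linarith [Fi_pos r']
  obtain ⟨h0, hh0⟩ := exists_Ph_eq hpos hlt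
  refine ⟨h0, hh0.symm, ?_⟩
  have : Fi r' < Fi h0 := by rw [Fi_eq_one_sub h0, hh0, e]; linarith
  exact Fi_strictMono.lt_iff_lt.1 this

lemma le_of_forall_lt_Fi {c m : ℝ} (h : ∀ ε : ℝ, 0 < ε → Fi (c - ε) ≤ m) : Fi c ≤ m := by
  have hc : Tendsto (fun ε : ℝ => Fi (c - ε)) (𝓝[>] 0) (𝓝 (Fi (c - 0))) :=
    ((Fi_continuous.comp (continuous_const.sub continuous_id)).tendsto 0).mono_left
      nhdsWithin_le_nhds
  rw [sub_zero] at hc
  exact le_of_tendsto hc (eventually_nhdsWithin_of_forall fun ε hε => h ε hε)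

lemma two_Ph_le {t : ℝ} (ht : 2 ≤ t) : 2 * Ph t ≤ Ph (t - 1) := by
  have h1 : Ph (t - 1) = ∫ x in Ioi t, ph (x - 1) := by
    rw [Ph_eq_Ioi, ← integral_indicator measurableSet_Ioi, ← integral_indicator measurableSet_Ioi,
      ← integral_sub_right_eq_self _ (1:ℝ)]
    refine integral_congr_ae (Filter.Eventually.of_forall fun x => ?_)
    show (Ioi (t - 1)).indicator ph (x - 1) = (Ioi t).indicator (fun x => ph (x - 1)) x
    by_cases hx : t < x
    · rw [indicator_of_mem (by simpa using hx), indicator_of_mem (by exact hx)]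
    · rw [indicator_of_notMem (by simpa using hx), indicator_of_notMem (by exact hx)]
  have hint : Integrable (fun x => ph (x - 1)) := ph_integrable.comp_sub_right 1
  rw [h1, Ph_eq_Ioi, ← integral_const_mul]
  refine setIntegral_mono_on (ph_integrable.const_mul 2).integrableOn hint.integrableOn
    measurableSet_Ioi fun x hx => ?_
  have hx' : t < x := hx
  have h2 := ph_shift x (-1)
  rw [← sub_eq_add_neg] at h2
  rw [h2]
  have h3 : (-(x * -1) - (-1) ^ 2 / 2 : ℝ) + 1 ≤ Real.exp (-(x * -1) - (-1) ^ 2 / 2) :=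
    Real.add_one_le_exp _
  have h4 : (2:ℝ) ≤ Real.exp (-(x * -1) - (-1) ^ 2 / 2) := by
    refine le_trans ?_ h3
    norm_num; linarith
  nlinarith [ph_pos x]

/-- the parameter of the enlarged interval -/
lemma enlarge (hB : StEhB) {x y h d : ℝ} (hxy : 0 < x + y) (hd : 0 ≤ d) (hh : Ph x + Ph y = Ph h) :
    Ph (x + d) + Ph (y + d) ≤ Ph (h + d) := by
  set m := min x y with hm
  have hlim : Tendsto (fun N : ℝ => Ph (h + d + d / N * (m - 1 - h))) atTop (𝓝 (Ph (h + d))) := by
    have h1 : Tendsto (fun N : ℝ => h + d + d / N * (m - 1 - h)) atTop (𝓝 (h + d + 0 * (m - 1 - h))) :=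
      ((tendsto_const_nhds.div_atTop tendsto_id).mul_const _).const_add _
    rw [zero_mul, add_zero] at h1
    exact (Ph_continuous.tendsto _).comp h1
  refine ge_of_tendsto hlim ?_
  filter_upwards [eventually_gt_atTop (d + |m| + 2)] with N hN
  have hN0 : 0 < N := by have := abs_nonneg m; linarith
  have hmN : 2 ≤ m + N := by have := neg_abs_le m; linarith
  have hsum : Ph (x + N) + Ph (y + N) ≤ Ph (m + N - 1) := by
    have hx : Ph (x + N) ≤ Ph (m + N) := Ph_strictAnti.antitone (by have := min_le_left x y; linarith)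
    have hy : Ph (y + N) ≤ Ph (m + N) := Ph_strictAnti.antitone (by have := min_le_right x y; linarith)
    have := two_Ph_le hmN
    linarith
  have hpos : 0 < Ph (x + N) + Ph (y + N) := add_pos (Ph_pos _) (Ph_pos _)
  obtain ⟨k, hk⟩ := exists_Ph_eq hpos (lt_of_le_of_lt hsum (Ph_lt_one _))
  have hkge : m + N - 1 ≤ k := by
    have : Ph k ≤ Ph (m + N - 1) := by rw [hk]; exact hsum
    exact Ph_strictAnti.le_iff_ge.1 this
  have hθ1 : d / N ≤ 1 := by rw [div_le_one hN0]; have := abs_nonneg m; linarith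
  have key := hB x y (x + N) (y + N) h k (d / N) (by positivity) hθ1 hxy (by linarith) hh hk.symm
  have e1 : (1 - d / N) * x + d / N * (x + N) = x + d := by field_simp; ring
  have e2 : (1 - d / N) * y + d / N * (y + N) = y + d := by field_simp; ring
  rw [e1, e2] at key
  refine key.trans (Ph_strictAnti.antitone ?_)
  have h5 : d / N * (m + N - 1) ≤ d / N * k := mul_le_mul_of_nonneg_left hkge (by positivity)
  have h6 : d / N * (m + N - 1) = d + d / N * (m - 1) := by field_simp; ring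
  nlinarith

end EHC

theorem ehC (hB : StEhB) : StEhC := by
  constructor
  · intro θ r0 r1 I J L h0 h1 hI hJ hL hIJ hr0 hr1
    refine EHC.le_of_forall_lt_Fi fun ε hε => ?_
    obtain ⟨a0, b0, hab0, ha0, hb0, hm0⟩ := EHC.exists_Icc hI hr0 (sub_lt_self r0 hε)
    obtain ⟨a1, b1, hab1, ha1, hb1, hm1⟩ := EHC.exists_Icc hJ hr1 (sub_lt_self r1 hε)
    obtain ⟨k0, hk0, hk0'⟩ := EHC.exists_h hab0 hm0
    obtain ⟨k1, hk1, hk1'⟩ := EHC.exists_h hab1 hm1
    have key := hB b0 (-a0) b1 (-a1) k0 k1 θ h0 h1 (by linarith) (by linarith) hk0 hk1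
    set a := (1 - θ) * a0 + θ * a1 with ha
    set b := (1 - θ) * b0 + θ * b1 with hb
    have hneg : (1 - θ) * -a0 + θ * -a1 = -a := by rw [ha]; ring
    rw [hneg] at key
    have hab : a ≤ b := by
      rw [ha, hb]
      have := mul_le_mul_of_nonneg_left hab0.le (by linarith : (0:ℝ) ≤ 1 - θ)
      have := mul_le_mul_of_nonneg_left hab1.le h0
      linarith
    have hsub : Icc a b ⊆ L := hL.ordConnected.out (hIJ a0 ha0 a1 ha1) (hIJ b0 hb0 b1 hb1)
    have h2 : g1.real (Icc a b) ≤ g1.real L := measureReal_mono hsub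
    have h3 := EHC.real_Icc a b hab
    have h4 : Fi ((1 - θ) * k0 + θ * k1) ≤ g1.real (Icc a b) := by
      rw [h3, Fi_eq_one_sub, Fi_eq_one_sub b]; linarith
    have h5 : (1 - θ) * r0 + θ * r1 - ε ≤ (1 - θ) * k0 + θ * k1 := by
      have := mul_le_mul_of_nonneg_left hk0'.le (by linarith : (0:ℝ) ≤ 1 - θ)
      have := mul_le_mul_of_nonneg_left hk1'.le h0
      linarith
    exact (Fi_strictMono.monotone h5).trans (h4.trans h2)
  · intro r d I L hd hI hL hIL hr
    refine EHC.le_of_forall_lt_Fi fun ε hε => ?_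
    obtain ⟨a0, b0, hab0, ha0, hb0, hm0⟩ := EHC.exists_Icc hI hr (sub_lt_self r hε)
    obtain ⟨k0, hk0, hk0'⟩ := EHC.exists_h hab0 hm0
    have hsub : Icc (a0 - d) (b0 + d) ⊆ L := hL.ordConnected.out
      (hIL a0 ha0 _ (by rw [sub_sub_cancel_left, abs_neg, abs_of_nonneg hd]))
      (hIL b0 hb0 _ (by rw [add_sub_cancel_left, abs_of_nonneg hd]))
    have h2 : g1.real (Icc (a0 - d) (b0 + d)) ≤ g1.real L := measureReal_mono hsub
    have h3 := EHC.real_Icc (a0 - d) (b0 + d) (by linarith)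
    have key : Ph (b0 + d) + Ph (-(a0 - d)) ≤ Ph (k0 + d) := by
      have := EHC.enlarge hB (x := b0) (y := -a0) (by linarith) hd hk0
      have e : -(a0 - d) = -a0 + d := by ring
      rw [e]; exact this
    have h4 : Fi (k0 + d) ≤ g1.real (Icc (a0 - d) (b0 + d)) := by
      rw [h3, Fi_eq_one_sub, Fi_eq_one_sub (b0 + d)]; linarith
    exact (Fi_strictMono.monotone (by linarith)).trans (h4.trans h2)

end Crest.Agent.R215
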