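import Crest.Agent.R215.Defs

/-! Task EHD: the planar Ehrhard step by symmetrisation and rotation. -/

set_option autoImplicit false

open MeasureTheory ProbabilityTheory Set Filter Topology

noncomputable section

namespace Crest.Agent.R215.EHD

open Crest.Agent.R215

/-! ### facts on `Fi` -/

theorem Fi_mono {a b : ℝ} (h : a ≤ b) : Fi a ≤ Fi b :=
  measureReal_mono (Iic_subset_Iic.2 h)

theorem Fi_sub {a b : ℝ} (h : a ≤ b) : Fi b - Fi a = g1.real (Ioc a b) := by
  unfold Fi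
  rw [← Iic_union_Ioc_eq_Iic h, measureReal_union (Iic_disjoint_Ioc le_rfl) measurableSet_Ioc]
  ring

theorem Fi_strictMono : StrictMono Fi := by
  intro a b h
  have h1 := Fi_sub h.le
  have h2 : 0 < g1.real (Ioc a b) := by
    rw [measureReal_def, ENNReal.toReal_pos_iff]
    refine ⟨?_, measure_lt_top _ _⟩
    rw [pos_iff_ne_zero]
    intro h0
    have := (gaussianReal_absolutelyContinuous' 0 (one_ne_zero : (1 : NNReal) ≠ 0)) h0
    rw [Real.volume_Ioc, ENNReal.ofReal_eq_zero] at this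
    linarith
  linarith

theorem Fi_pos (t : ℝ) : 0 < Fi t :=
  lt_of_le_of_lt measureReal_nonneg (Fi_strictMono (sub_one_lt t))

theorem Fi_lt_one (t : ℝ) : Fi t < 1 :=
  lt_of_lt_of_le (Fi_strictMono (lt_add_one t)) measureReal_le_one

theorem Fi_lip (a b : ℝ) : |Fi a - Fi b| ≤ |a - b| := by
  wlog h : b ≤ a with H
  · rw [abs_sub_comm, abs_sub_comm a b]
    exact H b a (le_of_not_ge h)
  rw [Fi_sub h, abs_of_nonneg measureReal_nonneg, abs_of_nonneg (sub_nonneg.2 h)]
  rw [measureReal_def]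
  refine ENNReal.toReal_le_of_le_ofReal (sub_nonneg.2 h) ?_
  rw [gaussianReal_apply 0 (one_ne_zero : (1 : NNReal) ≠ 0)]
  calc ∫⁻ x in Ioc b a, gaussianPDF 0 1 x ≤ ∫⁻ x in Ioc b a, 1 := by
        refine lintegral_mono fun x => ?_
        unfold gaussianPDF
        rw [ENNReal.ofReal_le_one, gaussianPDFReal_def]
        have h1 : Real.exp (-(x - 0) ^ 2 / (2 * ((1 : NNReal) : ℝ))) ≤ 1 := by
          rw [Real.exp_le_one_iff]
          have := sq_nonneg (x - 0)
          simp only [NNReal.coe_one]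
          linarith
        have h2 : (Real.sqrt (2 * Real.pi * ((1 : NNReal) : ℝ)))⁻¹ ≤ 1 := by
          refine inv_le_one_of_one_le₀ ?_
          rw [Real.one_le_sqrt]
          have := Real.pi_gt_three
          simp only [NNReal.coe_one]
          linarith
        have h3 : 0 ≤ (Real.sqrt (2 * Real.pi * ((1 : NNReal) : ℝ)))⁻¹ := by positivity
        calc _ ≤ (1 : ℝ) * 1 := mul_le_mul h2 h1 (Real.exp_pos _).le (by norm_num)
          _ = 1 := by norm_num
    _ = ENNReal.ofReal (a - b) := by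
        rw [setLIntegral_one, Real.volume_Ioc]

theorem Fi_cont : Continuous Fi := by
  have : LipschitzWith 1 Fi := LipschitzWith.of_dist_le_mul fun a b => by
    rw [Real.dist_eq, Real.dist_eq, NNReal.coe_one, one_mul]
    exact Fi_lip a b
  exact this.continuous

theorem Fi_surj {m : ℝ} (h0 : 0 < m) (h1 : m < 1) : ∃ r, Fi r = m := by
  have hb : Tendsto Fi atBot (𝓝 0) := by
    have := tendsto_cdf_atBot g1
    refine this.congr fun x => ?_
    rw [cdf_eq_real]; rfl
  have ht : Tendsto Fi atTop (𝓝 1) := by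
    have := tendsto_cdf_atTop g1
    refine this.congr fun x => ?_
    rw [cdf_eq_real]; rfl
  obtain ⟨a, ha⟩ := (hb.eventually (gt_mem_nhds h0)).exists
  obtain ⟨b, hb⟩ := (ht.eventually (lt_mem_nhds h1)).exists
  exact mem_range_of_exists_le_of_exists_ge Fi_cont ⟨a, ha.le⟩ ⟨b, hb.le⟩

theorem g1_sub {m : ENNReal} (hm : m ≤ 1) : g1 {r | Fi r ≤ m.toReal} = m := by
  rcases eq_or_ne m 0 with rfl | h0
  · have : {r | Fi r ≤ (0 : ENNReal).toReal} = ∅ := by
      ext r
      simp only [ENNReal.toReal_zero, mem_setOf_eq, mem_empty_iff_false, iff_false, not_le]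
      exact Fi_pos r
    rw [this, measure_empty]
  rcases eq_or_ne m 1 with rfl | h1
  · have : {r | Fi r ≤ (1 : ENNReal).toReal} = univ := by
      ext r
      simp only [ENNReal.toReal_one, mem_setOf_eq, mem_univ, iff_true]
      exact (Fi_lt_one r).le
    rw [this, measure_univ]
  have hmt : m ≠ ⊤ := ne_top_of_le_ne_top ENNReal.one_ne_top hm
  have hlt : m < 1 := lt_of_le_of_ne hm h1
  obtain ⟨r0, hr0⟩ := Fi_surj (ENNReal.toReal_pos h0 hmt)
    (by rw [← ENNReal.toReal_one]; exact (ENNReal.toReal_lt_toReal hmt ENNReal.one_ne_top).2 hlt)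
  have : {r | Fi r ≤ m.toReal} = Iic r0 := by
    ext r
    simp only [mem_setOf_eq, mem_Iic]
    rw [← hr0]
    exact Fi_strictMono.le_iff_le
  rw [this, ← ENNReal.ofReal_toReal hmt, ← hr0]
  unfold Fi
  rw [ofReal_measureReal]

/-! ### the class of sets -/

abbrev γ2 : Measure (ℝ × ℝ) := g1.prod g1

structure Cl (c s : ℝ) (A : Set (ℝ × ℝ)) : Prop where
  meas : MeasurableSet A
  conv : Convex ℝ A
  right : ∀ p ∈ A, ∀ τ : ℝ, 0 ≤ τ → (p.1 + τ * c, p.2 - τ * s) ∈ A
  left : ∀ p ∈ A, ∀ τ : ℝ, 0 ≤ τ → (p.1 - τ * c, p.2 - τ * s) ∈ A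

/-- Minkowski relation -/
def Rel (θ : ℝ) (A B C : Set (ℝ × ℝ)) : Prop :=
  ∀ p ∈ A, ∀ q ∈ B, ((1 - θ) * p.1 + θ * q.1, (1 - θ) * p.2 + θ * q.2) ∈ C

/-- horizontal slice -/
def sl (A : Set (ℝ × ℝ)) (y : ℝ) : Set ℝ := {t | (t, y) ∈ A}

/-- symmetrisation -/
def Sy (A : Set (ℝ × ℝ)) : Set (ℝ × ℝ) := {p | Fi p.1 ≤ g1.real (sl A p.2)}

theorem sl_convex {A : Set (ℝ × ℝ)} (hA : Convex ℝ A) (y : ℝ) : Convex ℝ (sl A y) := by
  intro u hu v hv a b ha hb hab
  have h := hA (show ((u, y) : ℝ × ℝ) ∈ A from hu) (show ((v, y) : ℝ × ℝ) ∈ A from hv) ha hb hab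
  have e : a • ((u, y) : ℝ × ℝ) + b • ((v, y) : ℝ × ℝ) = (a • u + b • v, y) := by
    ext
    · simp
    · simp only [Prod.smul_mk, Prod.mk_add_mk, smul_eq_mul]
      rw [← add_mul, hab, one_mul]
  rw [e] at h
  exact h

theorem Sy_meas {A : Set (ℝ × ℝ)} (hA : MeasurableSet A) : MeasurableSet (Sy A) := by
  have h1 : Measurable fun y : ℝ => g1 ((fun t : ℝ => (t, y)) ⁻¹' A) :=
    measurable_measure_prodMk_right hA
  have h2 : Measurable fun p : ℝ × ℝ => g1.real (sl A p.2) := by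
    have : (fun p : ℝ × ℝ => g1.real (sl A p.2)) =
      fun p : ℝ × ℝ => (g1 ((fun t : ℝ => (t, p.2)) ⁻¹' A)).toReal := rfl
    rw [this]
    exact (h1.comp measurable_snd).ennreal_toReal
  exact measurableSet_le (Fi_cont.measurable.comp measurable_fst) h2

theorem Sy_measure {A : Set (ℝ × ℝ)} (hA : MeasurableSet A) : γ2 (Sy A) = γ2 A := by
  rw [Measure.prod_apply_symm (Sy_meas hA), Measure.prod_apply_symm hA]
  refine lintegral_congr fun y => ?_
  have : (fun x => (x, y)) ⁻¹' Sy A = {r | Fi r ≤ (g1 ((fun x => (x, y)) ⁻¹' A)).toReal} := rfl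
  rw [this, g1_sub prob_le_one]

theorem Sy_rel (hC : StEhC) {θ : ℝ} (h0 : 0 ≤ θ) (h1 : θ ≤ 1) {A B C : Set (ℝ × ℝ)}
    (hA : Convex ℝ A) (hB : Convex ℝ B) (hCc : Convex ℝ C) (h : Rel θ A B C) :
    Rel θ (Sy A) (Sy B) (Sy C) := by
  intro p hp q hq
  exact hC.1 θ p.1 q.1 (sl A p.2) (sl B q.2) (sl C ((1 - θ) * p.2 + θ * q.2)) h0 h1
    (sl_convex hA _) (sl_convex hB _) (sl_convex hCc _)
    (fun x hx y hy => h (x, p.2) hx (y, q.2) hy) hp hq

theorem rel_self {θ : ℝ} (h0 : 0 ≤ θ) (h1 : θ ≤ 1) {A : Set (ℝ × ℝ)} (hA : Convex ℝ A) :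
    Rel θ A A A := by
  intro p hp q hq
  have := hA hp hq (sub_nonneg.2 h1) h0 (by ring)
  exact this

theorem convex_of_rel {A : Set (ℝ × ℝ)} (h : ∀ θ : ℝ, 0 ≤ θ → θ ≤ 1 → Rel θ A A A) :
    Convex ℝ A := by
  intro p hp q hq a b ha hb hab
  have := h b hb (by linarith) p hp q hq
  have e : 1 - b = a := by linarith
  rw [e] at this
  exact this

theorem Sy_convex (hC : StEhC) {A : Set (ℝ × ℝ)} (hA : Convex ℝ A) : Convex ℝ (Sy A) :=
  convex_of_rel fun _ h0 h1 => Sy_rel hC h0 h1 hA hA hA (rel_self h0 h1 hA)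

theorem Sy_left {A : Set (ℝ × ℝ)} {p : ℝ × ℝ} (hp : p ∈ Sy A) {τ : ℝ} (hτ : 0 ≤ τ) :
    (p.1 - τ, p.2) ∈ Sy A :=
  le_trans (Fi_mono (by linarith)) hp

theorem Sy_dir (hC : StEhC) {c s : ℝ} (hc : 0 ≤ c) {A : Set (ℝ × ℝ)} (hA : Cl c s A)
    {p : ℝ × ℝ} (hp : p ∈ Sy A) {τ : ℝ} (hτ : 0 ≤ τ) :
    (p.1 + τ * c, p.2 - τ * s) ∈ Sy A := by
  refine hC.2 p.1 (τ * c) (sl A p.2) (sl A (p.2 - τ * s)) (mul_nonneg hτ hc)
    (sl_convex hA.conv _) (sl_convex hA.conv _) (fun x hx y hy => ?_) hp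
  have hr := hA.right (x, p.2) hx τ hτ
  have hl := hA.left (x, p.2) hx τ hτ
  have hcv := sl_convex hA.conv (p.2 - τ * s)
  have hr' : x + τ * c ∈ sl A (p.2 - τ * s) := hr
  have hl' : x - τ * c ∈ sl A (p.2 - τ * s) := hl
  rw [abs_le] at hy
  exact hcv.ordConnected.out hl' hr' ⟨by linarith, by linarith⟩

/-- one step -/
def St (c' s' : ℝ) (A : Set (ℝ × ℝ)) : Set (ℝ × ℝ) :=
  {p | (c' * p.1 + s' * p.2, -s' * p.1 + c' * p.2) ∈ Sy A}

theorem St_cl (hC : StEhC) {c s c' s' : ℝ} (hc : 0 ≤ c) (h1 : c' ^ 2 + s' ^ 2 = 1)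
    (h2 : c = c' ^ 2 - s' ^ 2) (h3 : s = 2 * s' * c') {A : Set (ℝ × ℝ)} (hA : Cl c s A) :
    Cl c' s' (St c' s' A) where
  meas := by
    refine (show Measurable fun p : ℝ × ℝ => (c' * p.1 + s' * p.2, -s' * p.1 + c' * p.2) by
      fun_prop) (Sy_meas hA.meas)
  conv := by
    refine convex_of_rel fun θ h0 h1 p hp q hq => ?_
    have := Sy_rel hC h0 h1 hA.conv hA.conv hA.conv (rel_self h0 h1 hA.conv) _ hp _ hq
    show (_, _) ∈ Sy A
    convert this using 2 <;> ring
  right := by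
    intro p hp τ hτ
    have := Sy_dir hC hc hA hp hτ
    show (_, _) ∈ Sy A
    convert this using 2
    · simp only; rw [h2]; ring
    · simp only; rw [h3]; ring
  left := by
    intro p hp τ hτ
    have := Sy_left hp hτ
    show (_, _) ∈ Sy A
    convert this using 2
    · simp only
      linear_combination (-τ) * h1
    · simp only; ring

theorem St_rel (hC : StEhC) {θ : ℝ} (h0 : 0 ≤ θ) (h1 : θ ≤ 1) {A B C : Set (ℝ × ℝ)}
    (hA : Convex ℝ A) (hB : Convex ℝ B) (hCc : Convex ℝ C) (h : Rel θ A B C) (c' s' : ℝ) :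
    Rel θ (St c' s' A) (St c' s' B) (St c' s' C) := by
  intro p hp q hq
  have := Sy_rel hC h0 h1 hA hB hCc h _ hp _ hq
  show (_, _) ∈ Sy C
  convert this using 2 <;> ring

theorem St_measure {A : Set (ℝ × ℝ)} (hA : MeasurableSet A) (ω : ℝ) :
    γ2 (St (Real.cos ω) (Real.sin ω) A) = γ2 A := by
  have hm : ∫ x, id x ∂g1 = 0 := by
    simp [integral_id_gaussianReal]
  have hrot : Measure.map (ContinuousLinearMap.rotation ω) γ2 = γ2 :=
    IsGaussian.map_rotation_eq_self (μ := g1) hm ω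
  rw [← Sy_measure hA]
  conv_rhs => rw [← hrot]
  rw [Measure.map_apply (ContinuousLinearMap.continuous _).measurable (Sy_meas hA)]
  rfl

/-- iteration -/
theorem iter (hC : StEhC) {θ : ℝ} (h0 : 0 ≤ θ) (h1 : θ ≤ 1) {ω : ℝ} (hω : 0 < ω)
    (hω2 : ω < Real.pi / 2) {A B C : Set (ℝ × ℝ)}
    (hA : Cl (Real.cos ω) (Real.sin ω) A) (hB : Cl (Real.cos ω) (Real.sin ω) B)
    (hCc : Cl (Real.cos ω) (Real.sin ω) C) (h : Rel θ A B C) (n : ℕ) :
    ∃ A' B' C' : Set (ℝ × ℝ), Cl (Real.cos (ω / 2 ^ n)) (Real.sin (ω / 2 ^ n)) A' ∧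
      Cl (Real.cos (ω / 2 ^ n)) (Real.sin (ω / 2 ^ n)) B' ∧
      Cl (Real.cos (ω / 2 ^ n)) (Real.sin (ω / 2 ^ n)) C' ∧ Rel θ A' B' C' ∧
      γ2 A' = γ2 A ∧ γ2 B' = γ2 B ∧ γ2 C' = γ2 C := by
  induction n with
  | zero => exact ⟨A, B, C, by simpa using hA, by simpa using hB, by simpa using hCc, h, rfl, rfl, rfl⟩
  | succ n ih =>
    obtain ⟨A', B', C', hA', hB', hC', hr, ea, eb, ec⟩ := ih
    set ψ := ω / 2 ^ (n + 1) with hψ
    have e2 : ω / 2 ^ n = 2 * ψ := by
      rw [hψ, pow_succ]; field_simp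
    rw [e2] at hA' hB' hC'
    have hψ0 : 0 < ψ := by positivity
    have hle : 2 * ψ ≤ ω := by
      rw [← e2]
      exact div_le_self hω.le (one_le_pow₀ (by norm_num))
    have hcos : 0 ≤ Real.cos (2 * ψ) :=
      Real.cos_nonneg_of_neg_pi_div_two_le_of_le (by linarith [Real.pi_pos]) (by linarith)
    have k1 : Real.cos ψ ^ 2 + Real.sin ψ ^ 2 = 1 := Real.cos_sq_add_sin_sq ψ
    have k2 : Real.cos (2 * ψ) = Real.cos ψ ^ 2 - Real.sin ψ ^ 2 := Real.cos_two_mul' ψ
    have k3 : Real.sin (2 * ψ) = 2 * Real.sin ψ * Real.cos ψ := Real.sin_two_mul ψ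
    exact ⟨_, _, _, St_cl hC hcos k1 k2 k3 hA', St_cl hC hcos k1 k2 k3 hB',
      St_cl hC hcos k1 k2 k3 hC', St_rel hC h0 h1 hA'.conv hB'.conv hC'.conv hr _ _,
      (St_measure hA'.meas ψ).trans ea, (St_measure hB'.meas ψ).trans eb,
      (St_measure hC'.meas ψ).trans ec⟩

/-! ### end of the iteration -/

theorem int_abs : Integrable (fun x : ℝ => |x|) g1 := by
  have := (memLp_id_gaussianReal (μ := 0) (v := 1) 1).integrable le_rfl
  exact this.abs

theorem int_abs_le : ∫ x, |x| ∂g1 ≤ 1 := by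
  have h2 : ∫ x, x ^ 2 ∂g1 = 1 := by
    have hv := variance_id_gaussianReal (μ := 0) (v := 1)
    rw [variance_eq_integral aemeasurable_id] at hv
    simpa [integral_id_gaussianReal] using hv
  have hi2 : Integrable (fun x : ℝ => x ^ 2) g1 := by
    have := (memLp_id_gaussianReal (μ := 0) (v := 1) 2).integrable_sq
    simpa using this
  have : ∫ x, |x| ∂g1 ≤ ∫ x, (1 + x ^ 2) / 2 ∂g1 := by
    refine integral_mono int_abs ((integrable_const 1 |>.add hi2).div_const 2) fun x => ?_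
    have := sq_nonneg (|x| - 1)
    have h3 : |x| ^ 2 = x ^ 2 := sq_abs x
    show |x| ≤ (1 + x ^ 2) / 2
    nlinarith
  refine this.trans ?_
  rw [integral_div, integral_add (integrable_const 1) hi2, h2]
  simp

/-- measure of a hypograph -/
theorem hypo_measure {f : ℝ → ℝ} (hf : Continuous f) :
    γ2.real {p : ℝ × ℝ | p.2 ≤ f p.1} = ∫ s, Fi (f s) ∂g1 := by
  have hm : MeasurableSet {p : ℝ × ℝ | p.2 ≤ f p.1} :=
    measurableSet_le measurable_snd (hf.measurable.comp measurable_fst)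
  rw [measureReal_def, Measure.prod_apply hm]
  rw [integral_eq_lintegral_of_nonneg_ae (Filter.Eventually.of_forall fun s => (Fi_pos _).le)
    (Fi_cont.comp hf).aestronglyMeasurable]
  congr 1
  refine lintegral_congr fun s => ?_
  have : Prod.mk s ⁻¹' {p : ℝ × ℝ | p.2 ≤ f p.1} = Iic (f s) := by
    ext y; simp
  rw [this]
  unfold Fi
  rw [ofReal_measureReal]

theorem Fi_comp_int {f : ℝ → ℝ} (hf : Continuous f) : Integrable (fun s => Fi (f s)) g1 := by
  refine Integrable.of_bound (Fi_cont.comp hf).aestronglyMeasurable 1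
    (Filter.Eventually.of_forall fun s => ?_)
  rw [Real.norm_eq_abs, abs_of_nonneg (Fi_pos _).le]
  exact (Fi_lt_one _).le

theorem Cl.down {c s : ℝ} (hs : 0 < s) {A : Set (ℝ × ℝ)} (hA : Cl c s A) {p : ℝ × ℝ}
    (hp : p ∈ A) {y : ℝ} (hy : y ≤ p.2) : (p.1, y) ∈ A := by
  have hτ : 0 ≤ (p.2 - y) / (2 * s) := div_nonneg (by linarith) (by linarith)
  have h1 := hA.right p hp _ hτ
  have h2 := hA.left _ h1 _ hτ
  convert h2 using 2
  · ring
  · simp only
    field_simp
    ring

theorem lower {c s : ℝ} (hc : 0 < c) (hs : 0 < s) {A : Set (ℝ × ℝ)} (hA : Cl c s A) {r : ℝ}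
    (hr : ((0 : ℝ), r) ∈ A) : Fi r - s / c ≤ γ2.real A := by
  have hcont : Continuous fun x : ℝ => r - s / c * |x| := by fun_prop
  have hsub : {p : ℝ × ℝ | p.2 ≤ r - s / c * |p.1|} ⊆ A := by
    rintro ⟨x, y⟩ hxy
    simp only [mem_setOf_eq] at hxy
    have hτ : 0 ≤ |x| / c := div_nonneg (abs_nonneg _) hc.le
    have h1 : (x, r - s / c * |x|) ∈ A := by
      rcases le_total 0 x with hx | hx
      · have := hA.right _ hr _ hτ
        convert this using 2
        · simp only
          rw [abs_of_nonneg hx]; field_simp; ring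
        · simp only; field_simp
      · have := hA.left _ hr _ hτ
        convert this using 2
        · simp only
          rw [abs_of_nonpos hx]; field_simp; ring
        · simp only; field_simp
    exact hA.down hs h1 hxy
  have h2 : γ2.real {p : ℝ × ℝ | p.2 ≤ r - s / c * |p.1|} ≤ γ2.real A := measureReal_mono hsub
  rw [hypo_measure hcont] at h2
  refine le_trans ?_ h2
  have h3 : ∫ x, (Fi r - s / c * |x|) ∂g1 ≤ ∫ x, Fi (r - s / c * |x|) ∂g1 := by
    refine integral_mono ((integrable_const _).sub (int_abs.const_mul _)) (Fi_comp_int hcont)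
      fun x => ?_
    have := Fi_lip r (r - s / c * |x|)
    have h4 : |r - (r - s / c * |x|)| = s / c * |x| := by
      rw [abs_of_nonneg]
      · ring
      · have : 0 ≤ s / c * |x| := by positivity
        linarith
    rw [h4] at this
    have := (abs_le.1 this).2
    show Fi r - s / c * |x| ≤ Fi (r - s / c * |x|)
    linarith
  rw [integral_sub (integrable_const _) (int_abs.const_mul _), integral_const_mul] at h3
  simp only [integral_const, probReal_univ, smul_eq_mul, one_mul] at h3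
  have h5 : s / c * ∫ x, |x| ∂g1 ≤ s / c * 1 :=
    mul_le_mul_of_nonneg_left int_abs_le (by positivity)
  linarith

theorem upper {c s : ℝ} (hc : 0 < c) (hs : 0 < s) {A : Set (ℝ × ℝ)} (hA : Cl c s A) {r : ℝ}
    (hr : ((0 : ℝ), r) ∉ A) : γ2.real A ≤ Fi r + s / c := by
  have hcont : Continuous fun x : ℝ => r + s / c * |x| := by fun_prop
  have hsub : A ⊆ {p : ℝ × ℝ | p.2 ≤ r + s / c * |p.1|} := by
    rintro ⟨x, y⟩ hxy
    simp only [mem_setOf_eq]
    by_contra hcon
    push Not at hcon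
    apply hr
    have hτ : 0 ≤ |x| / c := div_nonneg (abs_nonneg _) hc.le
    have h1 : ((0 : ℝ), y - s / c * |x|) ∈ A := by
      rcases le_total 0 x with hx | hx
      · have := hA.left _ hxy _ hτ
        convert this using 2
        · simp only
          rw [abs_of_nonneg hx]; field_simp; ring
        · simp only; field_simp
      · have := hA.right _ hxy _ hτ
        convert this using 2
        · simp only
          rw [abs_of_nonpos hx]; field_simp; ring
        · simp only; field_simp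
    exact hA.down hs h1 (by simp only; linarith)
  have h2 : γ2.real A ≤ γ2.real {p : ℝ × ℝ | p.2 ≤ r + s / c * |p.1|} := measureReal_mono hsub
  rw [hypo_measure hcont] at h2
  refine le_trans h2 ?_
  have h3 : ∫ x, Fi (r + s / c * |x|) ∂g1 ≤ ∫ x, (Fi r + s / c * |x|) ∂g1 := by
    refine integral_mono (Fi_comp_int hcont) ((integrable_const _).add (int_abs.const_mul _))
      fun x => ?_
    have := Fi_lip (r + s / c * |x|) r
    have h4 : |r + s / c * |x| - r| = s / c * |x| := by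
      rw [abs_of_nonneg]
      · ring
      · have : 0 ≤ s / c * |x| := by positivity
        linarith
    rw [h4] at this
    have := (abs_le.1 this).2
    show Fi (r + s / c * |x|) ≤ Fi r + s / c * |x|
    linarith
  rw [integral_add (integrable_const _) (int_abs.const_mul _), integral_const_mul] at h3
  simp only [integral_const, probReal_univ, smul_eq_mul, one_mul] at h3
  have h5 : s / c * ∫ x, |x| ∂g1 ≤ s / c * 1 :=
    mul_le_mul_of_nonneg_left int_abs_le (by positivity)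
  linarith

/-- hypographs -/
theorem hypo_cl {f : ℝ → ℝ} {K : NNReal} (hf : ConcaveOn ℝ univ f) (hL : LipschitzWith K f)
    {c s : ℝ} (hc : 0 ≤ c) (hs : K * c ≤ s) : Cl c s {p : ℝ × ℝ | p.2 ≤ f p.1} where
  meas := measurableSet_le measurable_snd (hL.continuous.measurable.comp measurable_fst)
  conv := by
    have := hf.convex_hypograph
    simpa using this
  right := by
    rintro ⟨x, y⟩ hxy τ hτ
    simp only [mem_setOf_eq] at hxy ⊢
    have := hL.dist_le_mul x (x + τ * c)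
    rw [Real.dist_eq, Real.dist_eq] at this
    have h1 : |x - (x + τ * c)| = τ * c := by
      rw [show x - (x + τ * c) = -(τ * c) by ring, abs_neg, abs_of_nonneg (mul_nonneg hτ hc)]
    rw [h1] at this
    have h2 := (abs_le.1 this).2
    have h3 : τ * (K * c) ≤ τ * s := mul_le_mul_of_nonneg_left hs hτ
    nlinarith
  left := by
    rintro ⟨x, y⟩ hxy τ hτ
    simp only [mem_setOf_eq] at hxy ⊢
    have := hL.dist_le_mul x (x - τ * c)
    rw [Real.dist_eq, Real.dist_eq] at this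
    have h1 : |x - (x - τ * c)| = τ * c := by
      rw [show x - (x - τ * c) = τ * c by ring, abs_of_nonneg (mul_nonneg hτ hc)]
    rw [h1] at this
    have h2 := (abs_le.1 this).2
    have h3 : τ * (K * c) ≤ τ * s := mul_le_mul_of_nonneg_left hs hτ
    nlinarith

end Crest.Agent.R215.EHD

namespace Crest.Agent.R215

open EHD

theorem ehD : StEhC → StEhD := by
  intro hC θ K f g h h0 h1 cf cg ch lf lg lh hrel r0 r1 hr0 hr1
  -- the starting angle
  set ω : ℝ := Real.arctan (K + 1) with hω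
  have hK : (0 : ℝ) < K + 1 := by positivity
  have hω0 : 0 < ω := Real.arctan_pos.2 hK
  have hω2 : ω < Real.pi / 2 := Real.arctan_lt_pi_div_two _
  have hcos : 0 < Real.cos ω := Real.cos_arctan_pos _
  have htan : Real.tan ω = K + 1 := Real.tan_arctan _
  have hsin : (K : ℝ) * Real.cos ω ≤ Real.sin ω := by
    have : Real.sin ω = (K + 1) * Real.cos ω := by
      rw [← htan, Real.tan_mul_cos hcos.ne']
    rw [this]
    nlinarith
  have clf := hypo_cl cf lf hcos.le hsin
  have clg := hypo_cl cg lg hcos.le hsin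
  have clh := hypo_cl ch lh hcos.le hsin
  have hR : Rel θ {p : ℝ × ℝ | p.2 ≤ f p.1} {p : ℝ × ℝ | p.2 ≤ g p.1}
      {p : ℝ × ℝ | p.2 ≤ h p.1} := by
    intro p hp q hq
    simp only [mem_setOf_eq] at hp hq ⊢
    refine le_trans ?_ (hrel p.1 q.1)
    exact add_le_add (mul_le_mul_of_nonneg_left hp (by linarith))
      (mul_le_mul_of_nonneg_left hq h0)
  rw [← hypo_measure lf.continuous] at hr0
  rw [← hypo_measure lg.continuous] at hr1
  rw [← hypo_measure lh.continuous]
  -- key estimate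
  have key : ∀ ε : ℝ, 0 < ε → ∀ᶠ n : ℕ in atTop,
      Fi ((1 - θ) * r0 + θ * r1 - ε) - Real.tan (ω / 2 ^ n) ≤
        γ2.real {p : ℝ × ℝ | p.2 ≤ h p.1} := by
    intro ε hε
    have hlim : Tendsto (fun n : ℕ => ω / 2 ^ n) atTop (𝓝 0) := by
      have := (tendsto_pow_atTop_nhds_zero_of_lt_one (r := (1 / 2 : ℝ)) (by norm_num)
        (by norm_num)).const_mul ω
      rw [mul_zero] at this
      refine this.congr fun n => ?_
      rw [one_div, inv_pow]; rfl
    have hlimt : Tendsto (fun n : ℕ => Real.tan (ω / 2 ^ n)) atTop (𝓝 0) := by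
      have := (Real.continuousAt_tan.2 (by simp : Real.cos 0 ≠ 0)).tendsto.comp hlim
      simpa [Function.comp_def] using this
    have hd0 : 0 < Fi r0 - Fi (r0 - ε) := sub_pos.2 (Fi_strictMono (by linarith))
    have hd1 : 0 < Fi r1 - Fi (r1 - ε) := sub_pos.2 (Fi_strictMono (by linarith))
    filter_upwards [hlimt.eventually (gt_mem_nhds hd0), hlimt.eventually (gt_mem_nhds hd1)]
      with n hn0 hn1
    obtain ⟨A', B', C', hA', hB', hC', hr, ea, eb, ec⟩ := iter hC h0 h1 hω0 hω2 clf clg clh hR n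
    have hle : ω / 2 ^ n ≤ ω := div_le_self hω0.le (one_le_pow₀ (by norm_num))
    have hpos : 0 < ω / 2 ^ n := by positivity
    have hcn : 0 < Real.cos (ω / 2 ^ n) :=
      Real.cos_pos_of_mem_Ioo ⟨by linarith [Real.pi_pos], by linarith⟩
    have hsn : 0 < Real.sin (ω / 2 ^ n) := Real.sin_pos_of_pos_of_lt_pi hpos (by linarith)
    have hmA : ((0 : ℝ), r0 - ε) ∈ A' := by
      by_contra hcon
      have := upper hcn hsn hA' hcon
      rw [← Real.tan_eq_sin_div_cos, measureReal_def, ea, ← measureReal_def] at this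
      linarith
    have hmB : ((0 : ℝ), r1 - ε) ∈ B' := by
      by_contra hcon
      have := upper hcn hsn hB' hcon
      rw [← Real.tan_eq_sin_div_cos, measureReal_def, eb, ← measureReal_def] at this
      linarith
    have hmC := hr _ hmA _ hmB
    simp only at hmC
    have e1 : (1 - θ) * 0 + θ * 0 = (0 : ℝ) := by ring
    have e2 : (1 - θ) * (r0 - ε) + θ * (r1 - ε) = (1 - θ) * r0 + θ * r1 - ε := by ring
    rw [e1, e2] at hmC
    have := lower hcn hsn hC' hmC
    rw [← Real.tan_eq_sin_div_cos, measureReal_def, ec, ← measureReal_def] at this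
    exact this
  have hlim : Tendsto (fun n : ℕ => ω / 2 ^ n) atTop (𝓝 0) := by
    have := (tendsto_pow_atTop_nhds_zero_of_lt_one (r := (1 / 2 : ℝ)) (by norm_num)
      (by norm_num)).const_mul ω
    rw [mul_zero] at this
    refine this.congr fun n => ?_
    rw [one_div, inv_pow]; rfl
  have hlimt : Tendsto (fun n : ℕ => Real.tan (ω / 2 ^ n)) atTop (𝓝 0) := by
    have := (Real.continuousAt_tan.2 (by simp : Real.cos 0 ≠ 0)).tendsto.comp hlim
    simpa [Function.comp_def] using this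
  have key2 : ∀ ε : ℝ, 0 < ε → Fi ((1 - θ) * r0 + θ * r1 - ε) ≤
      γ2.real {p : ℝ × ℝ | p.2 ≤ h p.1} := by
    intro ε hε
    have := (tendsto_const_nhds (x := Fi ((1 - θ) * r0 + θ * r1 - ε))).sub hlimt
    rw [sub_zero] at this
    exact le_of_tendsto this (key ε hε)
  have hfin : Tendsto (fun ε : ℝ => Fi ((1 - θ) * r0 + θ * r1 - ε)) (𝓝[>] 0)
      (𝓝 (Fi ((1 - θ) * r0 + θ * r1))) := by
    have hc : Continuous fun ε : ℝ => Fi ((1 - θ) * r0 + θ * r1 - ε) :=
      Fi_cont.comp (continuous_const.sub continuous_id)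
    have := (hc.tendsto 0).mono_left (nhdsWithin_le_nhds (s := Ioi 0))
    simpa using this
  refine le_of_tendsto hfin ?_
  filter_upwards [self_mem_nhdsWithin] with ε hε
  exact key2 ε hε

end Crest.Agent.R215
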