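import Crest.Agent.R215.LibG
import Crest.Agent.R215.Lib1

set_option autoImplicit false

open MeasureTheory ProbabilityTheory Set Filter Topology

noncomputable section

namespace Crest.Agent.R215

universe u

namespace EHE

/-- convergence of the smoothed indicator -/
lemma tendsto_smooth {α : Type*} [MeasurableSpace α] {μ : Measure α} [IsProbabilityMeasure μ]
    {F : α → ℝ} (hF : Measurable F) (t : ℝ) (hnull : μ {s | F s = t} = 0) :
    Tendsto (fun n : ℕ => ∫ s, Fi ((n : ℝ) * (F s - t)) ∂μ) atTop (𝓝 (μ.real {s | t ≤ F s})) := by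
  have hm : MeasurableSet {s | t ≤ F s} := measurableSet_le measurable_const hF
  have h1 : μ.real {s | t ≤ F s} = ∫ s, ({s | t ≤ F s}.indicator (fun _ => (1:ℝ)) s) ∂μ := by
    rw [integral_indicator hm]; simp
  rw [h1]
  refine tendsto_integral_of_dominated_convergence (fun _ => (1:ℝ)) ?_ (integrable_const _) ?_ ?_
  · intro n
    exact (Fi_measurable.comp ((hF.sub_const t).const_mul _)).aestronglyMeasurable
  · intro n
    refine ae_of_all _ fun s => ?_
    rw [Real.norm_eq_abs, abs_of_nonneg (Fi_nonneg _)]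
    exact Fi_le_one _
  · have h2 : ∀ᵐ s ∂μ, F s ≠ t := by
      rw [ae_iff]; simpa using hnull
    filter_upwards [h2] with s hs
    rcases lt_or_gt_of_ne hs with h | h
    · have h3 : ({s | t ≤ F s}.indicator (fun _ => (1:ℝ)) s) = 0 := by
        rw [indicator_of_notMem]
        simpa using h
      rw [h3]
      refine Fi_tendsto_atBot.comp ?_
      have h4 : Tendsto (fun n : ℕ => (n : ℝ)) atTop atTop := tendsto_natCast_atTop_atTop
      exact h4.atTop_mul_const_of_neg (by linarith)
    · have h3 : ({s | t ≤ F s}.indicator (fun _ => (1:ℝ)) s) = 1 := by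
        rw [indicator_of_mem]
        exact h.le
      rw [h3]
      refine Fi_tendsto_atTop.comp ?_
      have h4 : Tendsto (fun n : ℕ => (n : ℝ)) atTop atTop := tendsto_natCast_atTop_atTop
      exact h4.atTop_mul_const (by linarith)

end EHE

open EHE

variable (E : Type u) [NormedAddCommGroup E] [InnerProductSpace ℝ E] [FiniteDimensional ℝ E]
  [MeasurableSpace E] [BorelSpace E]

theorem ehE : StEhN → StEhE E := by
  intro hN K a t0 t1 r0 r1 θ ha hθ0 hθ1 hr0 hr1
  rcases K.eq_empty_or_nonempty with rfl | hK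
  · have : {x : E | ∀ j ∈ (∅ : Finset ℕ), (1 - θ) * t0 + θ * t1 ≤ inner ℝ x (a j)} = univ := by
      ext x; simp
    rw [this, probReal_univ]
    exact Fi_le_one _
  -- coordinates
  let b := stdOrthonormalBasis ℝ E
  set n := Module.finrank ℝ E with hn
  let T : (Fin n → ℝ) → E := fun x => ∑ i, x i • b i
  have hT : Measurable T := by
    have : Continuous T := by simp only [T]; fun_prop
    exact this.measurable
  set μ : Measure (Fin n → ℝ) := Measure.pi (fun _ : Fin n => g1) with hμ
  have hmap : stdGaussian E = μ.map T := stdGaussian_eq_map_pi_orthonormalBasis b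
  let l : ℕ → (Fin n → ℝ) → ℝ := fun j x => inner ℝ (T x) (a j)
  have hl : ∀ j x, l j x = ∑ i, x i * inner ℝ (b i) (a j) := by
    intro j x
    simp only [l, T]
    rw [sum_inner]
    refine Finset.sum_congr rfl fun i _ => ?_
    rw [inner_smul_left]; simp
  have hlcont : ∀ j, Continuous (l j) := by
    intro j
    have : l j = fun x => ∑ i, x i * inner ℝ (b i) (a j) := funext (hl j)
    rw [this]
    fun_prop
  have hlin : ∀ j (c d : ℝ) (s t : Fin n → ℝ), l j (c • s + d • t) = c * l j s + d * l j t := by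
    intro j c d s t
    rw [hl, hl, hl, Finset.mul_sum, Finset.mul_sum, ← Finset.sum_add_distrib]
    refine Finset.sum_congr rfl fun i _ => ?_
    simp only [Pi.add_apply, Pi.smul_apply, smul_eq_mul]
    ring
  let F : (Fin n → ℝ) → ℝ := fun s => K.inf' hK (fun j => l j s)
  have hFle : ∀ t s, t ≤ F s ↔ ∀ j ∈ K, t ≤ l j s := fun t s => Finset.le_inf'_iff hK _
  have hFconc : ∀ (s t : Fin n → ℝ) (c d : ℝ), 0 ≤ c → 0 ≤ d → c * F s + d * F t ≤ F (c • s + d • t) := by
    intro s t c d hc hd
    rw [hFle]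
    intro j hj
    rw [hlin]
    have h1 : F s ≤ l j s := Finset.inf'_le _ hj
    have h2 : F t ≤ l j t := Finset.inf'_le _ hj
    exact add_le_add (mul_le_mul_of_nonneg_left h1 hc) (mul_le_mul_of_nonneg_left h2 hd)
  set L : ℝ := ∑ j ∈ K, ∑ i, |inner ℝ (b i) (a j)| with hL
  have hL0 : 0 ≤ L := Finset.sum_nonneg fun j _ => Finset.sum_nonneg fun i _ => abs_nonneg _
  have hllip : ∀ j ∈ K, ∀ s t, l j s ≤ l j t + L * ‖s - t‖ := by
    intro j hj s t
    have h1 : l j s - l j t = ∑ i, (s i - t i) * inner ℝ (b i) (a j) := by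
      rw [hl, hl, ← Finset.sum_sub_distrib]
      exact Finset.sum_congr rfl fun i _ => by ring
    have h2 : ∑ i, (s i - t i) * inner ℝ (b i) (a j) ≤ ∑ i, ‖s - t‖ * |inner ℝ (b i) (a j)| := by
      apply Finset.sum_le_sum
      intro i _
      have h3 : |s i - t i| ≤ ‖s - t‖ := norm_le_pi_norm (s - t) i
      calc (s i - t i) * inner ℝ (b i) (a j) ≤ |(s i - t i) * inner ℝ (b i) (a j)| := le_abs_self _
        _ = |s i - t i| * |inner ℝ (b i) (a j)| := abs_mul _ _
        _ ≤ _ := mul_le_mul_of_nonneg_right h3 (abs_nonneg _)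
    rw [← Finset.mul_sum] at h2
    have h4 : ∑ i, |inner ℝ (b i) (a j)| ≤ L :=
      Finset.single_le_sum (f := fun j => ∑ i, |inner ℝ (b i) (a j)|)
        (fun j _ => Finset.sum_nonneg fun i _ => abs_nonneg _) hj
    have h5 : ‖s - t‖ * ∑ i, |inner ℝ (b i) (a j)| ≤ ‖s - t‖ * L :=
      mul_le_mul_of_nonneg_left h4 (norm_nonneg _)
    linarith
  have hFlip : ∀ s t, F s ≤ F t + L * ‖s - t‖ := by
    intro s t
    obtain ⟨j, hj, hjt⟩ := Finset.exists_mem_eq_inf' hK (fun j => l j t)
    have h1 : F s ≤ l j s := Finset.inf'_le _ hj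
    have h2 : F t = l j t := hjt
    rw [h2]
    exact h1.trans (hllip j hj s t)
  have hFcont : Continuous F := by
    have : LipschitzWith ⟨L, hL0⟩ F := by
      apply LipschitzWith.of_le_add_mul
      intro s t
      rw [dist_eq_norm]
      exact hFlip s t
    exact this.continuous
  have hFm : Measurable F := hFcont.measurable
  -- sets
  have hset : ∀ t, (stdGaussian E).real {x | ∀ j ∈ K, t ≤ inner ℝ x (a j)} = μ.real {s | t ≤ F s} := by
    intro t
    have hm : MeasurableSet {x : E | ∀ j ∈ K, t ≤ inner ℝ x (a j)} := by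
      have : {x : E | ∀ j ∈ K, t ≤ inner ℝ x (a j)} = ⋂ j ∈ K, {x : E | t ≤ inner ℝ x (a j)} := by
        ext x; simp
      rw [this]
      exact Finset.measurableSet_biInter _ fun j _ => measurableSet_le measurable_const (by fun_prop)
    unfold Measure.real
    rw [hmap, Measure.map_apply hT hm]
    congr 2
    ext s
    show (∀ j ∈ K, t ≤ inner ℝ (T s) (a j)) ↔ t ≤ F s
    rw [hFle]
  have hnull : ∀ t, μ {s | F s = t} = 0 := by
    intro t
    have h1 : {s | F s = t} ⊆ ⋃ j ∈ K, {s | l j s = t} := by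
      intro s hs
      obtain ⟨j, hj, hjt⟩ := Finset.exists_mem_eq_inf' hK (fun j => l j s)
      simp only [mem_iUnion]
      refine ⟨j, hj, ?_⟩
      show l j s = t
      rw [← hjt]; exact hs
    refine measure_mono_null h1 ?_
    refine (measure_biUnion_null_iff (Finset.countable_toSet K)).2 fun j hj => ?_
    have h2 := sg_null (a j) (ha j hj) t
    have hm : MeasurableSet {x : E | inner ℝ x (a j) = t} :=
      measurableSet_eq_fun (by fun_prop) measurable_const
    rw [hmap, Measure.map_apply hT hm] at h2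
    exact h2
  rw [hset] at hr0 hr1 ⊢
  -- apply StEhN
  have key : ∀ ε > 0, Fi ((1 - θ) * r0 + θ * r1 - ε) ≤ μ.real {s | (1 - θ) * t0 + θ * t1 ≤ F s} := by
    intro ε hε
    have e0 : ∀ᶠ m : ℕ in atTop, Fi (r0 - ε) ≤ ∫ s, Fi ((m : ℝ) * (F s - t0)) ∂μ := by
      have h1 : Fi (r0 - ε) < μ.real {s | t0 ≤ F s} :=
        lt_of_lt_of_le (Fi_strictMono (by linarith)) hr0
      exact ((tendsto_smooth hFm t0 (hnull t0)).eventually (lt_mem_nhds h1)).mono fun m h => le_of_lt h
    have e1 : ∀ᶠ m : ℕ in atTop, Fi (r1 - ε) ≤ ∫ s, Fi ((m : ℝ) * (F s - t1)) ∂μ := by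
      have h1 : Fi (r1 - ε) < μ.real {s | t1 ≤ F s} :=
        lt_of_lt_of_le (Fi_strictMono (by linarith)) hr1
      exact ((tendsto_smooth hFm t1 (hnull t1)).eventually (lt_mem_nhds h1)).mono fun m h => le_of_lt h
    refine ge_of_tendsto (tendsto_smooth hFm ((1 - θ) * t0 + θ * t1) (hnull _)) ?_
    filter_upwards [e0, e1] with m hm0 hm1
    have hcc : ∀ t : ℝ, ConcaveOn ℝ univ (fun s => (m : ℝ) * (F s - t)) := by
      intro t
      refine ⟨convex_univ, fun x _ y _ c d hc hd hcd => ?_⟩
      have h1 := hFconc x y c d hc hd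
      simp only [smul_eq_mul]
      have h2 : c * ((m : ℝ) * (F x - t)) + d * ((m : ℝ) * (F y - t)) =
          (m : ℝ) * (c * F x + d * F y - (c + d) * t) := by ring
      rw [h2, hcd, one_mul]
      exact mul_le_mul_of_nonneg_left (by linarith) (Nat.cast_nonneg m)
    have hlip : ∀ t : ℝ, LipschitzWith ⟨(m : ℝ) * L, by positivity⟩ (fun s => (m : ℝ) * (F s - t)) := by
      intro t
      apply LipschitzWith.of_le_add_mul
      intro s s'
      rw [dist_eq_norm]
      have h1 := mul_le_mul_of_nonneg_left (hFlip s s') (Nat.cast_nonneg m : (0:ℝ) ≤ m)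
      show (m : ℝ) * (F s - t) ≤ (m : ℝ) * (F s' - t) + (m : ℝ) * L * ‖s - s'‖
      linarith
    have h := hN n θ ⟨(m : ℝ) * L, by positivity⟩ (fun s => (m : ℝ) * (F s - t0))
      (fun s => (m : ℝ) * (F s - t1)) (fun s => (m : ℝ) * (F s - ((1 - θ) * t0 + θ * t1))) hθ0 hθ1
      (hcc _) (hcc _) (hcc _) (hlip _) (hlip _) (hlip _) ?_ (r0 - ε) (r1 - ε) hm0 hm1
    · have h2 : (1 - θ) * (r0 - ε) + θ * (r1 - ε) = (1 - θ) * r0 + θ * r1 - ε := by ring
      rw [h2] at h
      exact h
    · intro s t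
      have h1 := hFconc s t (1 - θ) θ (by linarith) hθ0
      have h2 : (1 - θ) * ((m : ℝ) * (F s - t0)) + θ * ((m : ℝ) * (F t - t1)) =
          (m : ℝ) * ((1 - θ) * F s + θ * F t - ((1 - θ) * t0 + θ * t1)) := by ring
      rw [h2]
      exact mul_le_mul_of_nonneg_left (by linarith) (Nat.cast_nonneg m)
  have hlim : Tendsto (fun ε : ℝ => Fi ((1 - θ) * r0 + θ * r1 - ε)) (𝓝[>] 0)
      (𝓝 (Fi ((1 - θ) * r0 + θ * r1))) := by
    have hc : Continuous fun ε : ℝ => Fi ((1 - θ) * r0 + θ * r1 - ε) :=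
      Fi_continuous.comp (by fun_prop)
    have := hc.tendsto 0
    rw [sub_zero] at this
    exact this.mono_left nhdsWithin_le_nhds
  exact le_of_tendsto hlim (by filter_upwards [self_mem_nhdsWithin] with ε hε using key ε hε)

end Crest.Agent.R215
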