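import Crest.Agent.R215.Lib1

set_option autoImplicit false

open MeasureTheory ProbabilityTheory Set Filter Topology

namespace Crest.Agent.R215

namespace EHN

/-- tangent line inequality for `p ↦ Fi (Fi⁻¹ p + a)` -/
lemma tangent (a : ℝ) (ha : 0 ≤ a) (r r0 : ℝ) :
    Fi (r + a) ≤ Fi (r0 + a) + Real.exp (-(r0 * a) - a ^ 2 / 2) * (Fi r - Fi r0) := by
  set lam := Real.exp (-(r0 * a) - a ^ 2 / 2) with hlam
  let ψ : ℝ → ℝ := fun r => Fi (r + a) - lam * Fi r
  have hd : ∀ r, HasDerivAt ψ (ph (r + a) - lam * ph r) r := by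
    intro r
    have h1 : HasDerivAt (fun r => Fi (r + a)) (ph (r + a)) r :=
      HasDerivAt.comp_add_const r a (hasDerivAt_Fi (r + a))
    exact h1.fun_sub ((hasDerivAt_Fi r).const_mul lam)
  have hcont : Continuous ψ := continuous_iff_continuousAt.2 fun t => (hd t).continuousAt
  have key : ψ r ≤ ψ r0 := by
    rcases le_total r r0 with h | h
    · have hm : MonotoneOn ψ (Iic r0) := by
        apply monotoneOn_of_deriv_nonneg (convex_Iic r0) hcont.continuousOn
          (fun x _ => (hd x).differentiableAt.differentiableWithinAt)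
        intro x hx
        rw [interior_Iic] at hx
        rw [(hd x).deriv, ph_shift]
        have h1 : lam ≤ Real.exp (-(x * a) - a ^ 2 / 2) := by
          rw [hlam, Real.exp_le_exp]
          have : x * a ≤ r0 * a := mul_le_mul_of_nonneg_right (le_of_lt hx) ha
          linarith
        have h2 := ph_pos x
        nlinarith
      exact hm h (le_refl r0 : r0 ∈ Iic r0) h
    · have hm : AntitoneOn ψ (Ici r0) := by
        apply antitoneOn_of_deriv_nonpos (convex_Ici r0) hcont.continuousOn
          (fun x _ => (hd x).differentiableAt.differentiableWithinAt)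
        intro x hx
        rw [interior_Ici] at hx
        rw [(hd x).deriv, ph_shift]
        have h1 : Real.exp (-(x * a) - a ^ 2 / 2) ≤ lam := by
          rw [hlam, Real.exp_le_exp]
          have : r0 * a ≤ x * a := mul_le_mul_of_nonneg_right (le_of_lt hx) ha
          linarith
        have h2 := ph_pos x
        nlinarith
      exact hm (le_refl r0 : r0 ∈ Ici r0) h h
  simp only [ψ] at key
  linarith

lemma integrable_Fi {α : Type*} [MeasurableSpace α] {μ : Measure α} [IsFiniteMeasure μ]
    {u : α → ℝ} (hu : Measurable u) : Integrable (fun s => Fi (u s)) μ := by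
  refine Integrable.of_bound (Fi_measurable.comp hu).aestronglyMeasurable 1
    (Filter.Eventually.of_forall fun s => ?_)
  rw [Real.norm_eq_abs, abs_of_nonneg (Fi_nonneg _)]
  exact Fi_le_one _

lemma exists_inv {u : ℝ → ℝ} (hu : Measurable u) : ∃ t, Fi t = ∫ s, Fi (u s) ∂g1 := by
  have hi := integrable_Fi (μ := g1) hu
  apply exists_Fi_eq
  · rw [integral_pos_iff_support_of_nonneg (fun s => Fi_nonneg _) hi]
    have : Function.support (fun s => Fi (u s)) = univ := by
      ext s; simp [(Fi_pos (u s)).ne']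
    rw [this]; simp
  · have hi2 : Integrable (fun s => 1 - Fi (u s)) g1 := (integrable_const 1).sub hi
    have h1 : 0 < ∫ s, (1 - Fi (u s)) ∂g1 := by
      rw [integral_pos_iff_support_of_nonneg (fun s => by
        have := Fi_le_one (u s); simp only [Pi.zero_apply]; linarith) hi2]
      have : Function.support (fun s => 1 - Fi (u s)) = univ := by
        ext s
        have := Fi_lt_one (u s)
        simp only [Function.mem_support, mem_univ, iff_true]
        linarith
      rw [this]; simp
    rw [integral_sub (integrable_const 1) hi] at h1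
    simp at h1
    linarith

/-- translation estimate -/
lemma shift {u : ℝ → ℝ} (hu : Measurable u) (a U : ℝ) (ha : 0 ≤ a)
    (hU : Fi U = ∫ s, Fi (u s) ∂g1) : ∫ s, Fi (u s + a) ∂g1 ≤ Fi (U + a) := by
  have hi := integrable_Fi (μ := g1) hu
  have hia := integrable_Fi (μ := g1) (hu.add_const a)
  have hi2 : Integrable (fun s => Fi (u s) - Fi U) g1 := hi.sub (integrable_const _)
  calc ∫ s, Fi (u s + a) ∂g1
      ≤ ∫ s, (Fi (U + a) + Real.exp (-(U * a) - a ^ 2 / 2) * (Fi (u s) - Fi U)) ∂g1 := by
        apply integral_mono hia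
        · exact (integrable_const _).add (hi2.const_mul _)
        · intro s
          exact tangent a ha (u s) U
    _ = Fi (U + a) := by
        rw [integral_add (integrable_const _) (hi2.const_mul _),
          integral_const_mul, integral_sub hi (integrable_const _), ← hU]
        simp

def cs {n : ℕ} (s : ℝ) (x : Fin n → ℝ) : Fin (n + 1) → ℝ := Fin.cons s x

lemma cs_lin {n : ℕ} (a b s t : ℝ) (x y : Fin n → ℝ) :
    a • cs s x + b • cs t y = cs (a * s + b * t) (a • x + b • y) := by
  funext i
  refine Fin.cases ?_ (fun j => ?_) i <;> simp [cs]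

lemma dist_cs_left {n : ℕ} (s t : ℝ) (x : Fin n → ℝ) : dist (cs s x) (cs t x) ≤ dist s t := by
  rw [dist_pi_le_iff dist_nonneg]
  intro i
  refine Fin.cases ?_ (fun j => ?_) i
  · simp [cs]
  · simp [cs]

lemma dist_cs_right {n : ℕ} (s : ℝ) (x y : Fin n → ℝ) : dist (cs s x) (cs s y) ≤ dist x y := by
  rw [dist_pi_le_iff dist_nonneg]
  intro i
  refine Fin.cases ?_ (fun j => ?_) i
  · simp [cs]
  · simpa [cs] using dist_le_pi_dist x y j

lemma continuous_cs {n : ℕ} : Continuous (fun p : ℝ × (Fin n → ℝ) => cs p.1 p.2) := by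
  refine continuous_pi fun i => ?_
  refine Fin.cases ?_ (fun j => ?_) i
  · simpa [cs] using continuous_fst
  · show Continuous (fun p : ℝ × (Fin n → ℝ) => p.2 j)
    exact (continuous_apply j).comp continuous_snd

lemma measurable_cs1 {n : ℕ} (x : Fin n → ℝ) : Continuous (fun s : ℝ => cs s x) :=
  continuous_cs.comp (continuous_id.prodMk continuous_const)

lemma fubini {n : ℕ} {f : (Fin (n + 1) → ℝ) → ℝ} (hf : Continuous f) :
    ∫ s, Fi (f s) ∂(Measure.pi fun _ : Fin (n + 1) => g1) =
      ∫ x, ∫ s, Fi (f (cs s x)) ∂g1 ∂(Measure.pi fun _ : Fin n => g1) := by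
  have hmp := (measurePreserving_piFinSuccAbove (fun _ : Fin (n + 1) => g1) 0).symm
  rw [← hmp.integral_comp']
  have h1 : ∀ p : ℝ × (Fin n → ℝ),
      Fi (f ((MeasurableEquiv.piFinSuccAbove (fun _ : Fin (n + 1) => ℝ) 0).symm p)) =
        Fi (f (cs p.1 p.2)) := by
    intro p
    congr 2
    funext i
    refine Fin.cases ?_ (fun j => ?_) i
    · simp [cs, MeasurableEquiv.piFinSuccAbove]
    · simp [cs, MeasurableEquiv.piFinSuccAbove]
  simp_rw [h1]
  rw [integral_prod_symm]
  exact integrable_Fi (hf.comp continuous_cs).measurable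

end EHN

open EHN in
theorem ehN : StEhD → StEhN := by
  intro hD n
  induction n with
  | zero =>
    intro θ K f g h hθ0 hθ1 _ _ _ _ _ _ hfgh r0 r1 h0 h1
    have e : ∀ φ : (Fin 0 → ℝ) → ℝ, ∫ s, Fi (φ s) ∂(Measure.pi fun _ : Fin 0 => g1) =
        Fi (φ 0) := by
      intro φ
      have : ∀ s : Fin 0 → ℝ, Fi (φ s) = Fi (φ 0) := by
        intro s; rw [Subsingleton.elim s 0]
      simp_rw [this]
      simp
    rw [e] at h0 h1 ⊢
    have a0 := Fi_strictMono.le_iff_le.1 h0
    have a1 := Fi_strictMono.le_iff_le.1 h1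
    apply Fi_strictMono.monotone
    have h2 := hfgh 0 0
    simp only [smul_zero, add_zero] at h2
    have : (1 - θ) * r0 ≤ (1 - θ) * f 0 := mul_le_mul_of_nonneg_left a0 (by linarith)
    have : θ * r1 ≤ θ * g 0 := mul_le_mul_of_nonneg_left a1 hθ0
    linarith
  | succ n ih =>
    intro θ K f g h hθ0 hθ1 cf cg ch lf lg lh hfgh r0 r1 h0 h1
    -- slices
    have slc : ∀ {φ : (Fin (n + 1) → ℝ) → ℝ}, ConcaveOn ℝ univ φ → ∀ x : Fin n → ℝ,
        ConcaveOn ℝ univ (fun s => φ (cs s x)) := by
      intro φ hφ x
      refine ⟨convex_univ, fun s _ t _ a b ha hb hab => ?_⟩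
      have h3 := hφ.2 (mem_univ (cs s x)) (mem_univ (cs t x)) ha hb hab
      rw [cs_lin] at h3
      have : a • x + b • x = x := by rw [← add_smul, hab, one_smul]
      rw [this] at h3
      exact h3
    have sll : ∀ {φ : (Fin (n + 1) → ℝ) → ℝ}, LipschitzWith K φ → ∀ x : Fin n → ℝ,
        LipschitzWith K (fun s => φ (cs s x)) := by
      intro φ hφ x
      apply LipschitzWith.of_dist_le_mul
      intro s t
      calc dist (φ (cs s x)) (φ (cs t x)) ≤ K * dist (cs s x) (cs t x) := hφ.dist_le_mul _ _
        _ ≤ K * dist s t := mul_le_mul_of_nonneg_left (dist_cs_left s t x) K.2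
    have meas : ∀ {φ : (Fin (n + 1) → ℝ) → ℝ}, LipschitzWith K φ → ∀ x : Fin n → ℝ,
        Measurable (fun s => φ (cs s x)) := fun hφ x => (sll hφ x).continuous.measurable
    have hF : ∀ {φ : (Fin (n + 1) → ℝ) → ℝ}, LipschitzWith K φ →
        ∃ F : (Fin n → ℝ) → ℝ, ∀ x, Fi (F x) = ∫ s, Fi (φ (cs s x)) ∂g1 := by
      intro φ hφ
      have : ∀ x : Fin n → ℝ, ∃ t, Fi t = ∫ s, Fi (φ (cs s x)) ∂g1 :=
        fun x => exists_inv (meas hφ x)
      choose F hF using this
      exact ⟨F, hF⟩
    have conc : ∀ {φ : (Fin (n + 1) → ℝ) → ℝ} {F : (Fin n → ℝ) → ℝ}, ConcaveOn ℝ univ φ →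
        LipschitzWith K φ → (∀ x, Fi (F x) = ∫ s, Fi (φ (cs s x)) ∂g1) →
        ConcaveOn ℝ univ F := by
      intro φ F hφ lφ hF
      refine ⟨convex_univ, fun x _ y _ a b ha hb hab => ?_⟩
      have ha' : a = 1 - b := by linarith
      have hb1 : b ≤ 1 := by linarith
      have h3 := hD b K (fun s => φ (cs s x)) (fun s => φ (cs s y))
        (fun s => φ (cs s (a • x + b • y))) hb hb1 (slc hφ x) (slc hφ y) (slc hφ _)
        (sll lφ x) (sll lφ y) (sll lφ _) (by
          intro s t
          have h4 := hφ.2 (mem_univ (cs s x)) (mem_univ (cs t y)) ha hb hab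
          rw [cs_lin] at h4
          rw [← ha']
          exact h4) (F x) (F y) (hF x).le (hF y).le
      rw [← hF, ← ha'] at h3
      exact Fi_strictMono.le_iff_le.1 h3
    have lips : ∀ {φ : (Fin (n + 1) → ℝ) → ℝ} {F : (Fin n → ℝ) → ℝ},
        LipschitzWith K φ → (∀ x, Fi (F x) = ∫ s, Fi (φ (cs s x)) ∂g1) →
        LipschitzWith K F := by
      intro φ F lφ hF
      have one : ∀ x y : Fin n → ℝ, F y ≤ F x + K * dist x y := by
        intro x y
        have h3 : Fi (F y) ≤ Fi (F x + K * dist x y) := by
          rw [hF y]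
          calc ∫ s, Fi (φ (cs s y)) ∂g1 ≤ ∫ s, Fi (φ (cs s x) + K * dist x y) ∂g1 := by
                apply integral_mono (integrable_Fi (meas lφ y))
                  (integrable_Fi ((meas lφ x).add_const _))
                intro s
                apply Fi_strictMono.monotone
                have h4 := lφ.dist_le_mul (cs s y) (cs s x)
                have h5 := dist_cs_right s y x
                rw [Real.dist_eq] at h4
                have h6 := (abs_le.1 h4).2
                have h7 : (K : ℝ) * dist (cs s y) (cs s x) ≤ K * dist x y := by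
                  rw [dist_comm x y]
                  exact mul_le_mul_of_nonneg_left h5 K.2
                linarith
            _ ≤ Fi (F x + K * dist x y) :=
              shift (meas lφ x) _ _ (mul_nonneg K.2 dist_nonneg) (hF x)
        exact Fi_strictMono.le_iff_le.1 h3
      apply LipschitzWith.of_dist_le_mul
      intro x y
      rw [Real.dist_eq, abs_le]
      have h3 := one x y
      have h4 := one y x
      rw [dist_comm y x] at h4
      constructor <;> linarith
    obtain ⟨F, hF'⟩ := hF lf
    obtain ⟨G, hG'⟩ := hF lg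
    obtain ⟨H, hH'⟩ := hF lh
    have hrel : ∀ x y : Fin n → ℝ, (1 - θ) * F x + θ * G y ≤ H ((1 - θ) • x + θ • y) := by
      intro x y
      have h3 := hD θ K (fun s => f (cs s x)) (fun s => g (cs s y))
        (fun s => h (cs s ((1 - θ) • x + θ • y))) hθ0 hθ1 (slc cf x) (slc cg y) (slc ch _)
        (sll lf x) (sll lg y) (sll lh _) (by
          intro s t
          have h4 := hfgh (cs s x) (cs t y)
          rw [cs_lin] at h4
          exact h4) (F x) (G y) (hF' x).le (hG' y).le
      rw [← hH'] at h3
      exact Fi_strictMono.le_iff_le.1 h3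
    have h4 := ih θ K F G H hθ0 hθ1 (conc cf lf hF') (conc cg lg hG') (conc ch lh hH')
      (lips lf hF') (lips lg hG') (lips lh hH') hrel r0 r1
    rw [fubini lf.continuous] at h0
    rw [fubini lg.continuous] at h1
    rw [fubini lh.continuous]
    simp_rw [← hF'] at h0
    simp_rw [← hG'] at h1
    simp_rw [← hH']
    exact h4 h0 h1

end Crest.Agent.R215
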