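import Crest.Agent.R215.LibG
import Crest.Agent.R215.Lib1

set_option autoImplicit false

open MeasureTheory ProbabilityTheory Set

noncomputable section

namespace Crest.Agent.R215

universe u

variable (E : Type u) [NormedAddCommGroup E] [InnerProductSpace ℝ E] [FiniteDimensional ℝ E]
  [MeasurableSpace E] [BorelSpace E]

theorem half : StHalf E := by
  intro s z hC
  have hs : s.Nonempty := by
    rw [Finset.nonempty_iff_ne_empty]
    rintro rfl
    have h1 := hC.big
    unfold VV at h1
    simp at h1
    have := CC_pos
    linarith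
  have hz : ∀ i ∈ s, z i ≠ 0 := by
    intro i hi h0
    by_cases hj : ∃ j ∈ s, i ≠ j
    · obtain ⟨j, hj, hij⟩ := hj
      have := hC.neg i hi j hj hij
      rw [h0, inner_zero_left] at this
      exact lt_irrefl _ this
    · push Not at hj
      have hs1 : s = {i} := by
        ext j
        rw [Finset.mem_singleton]
        exact ⟨fun h => (hj j h).symm, fun h => h ▸ hi⟩
      have h1 := hC.big
      unfold VV at h1
      rw [hs1, Finset.sum_singleton, h0, norm_zero] at h1
      have := CC_pos
      norm_num at h1
      linarith
  refine ⟨?_, ?_, ?_⟩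
  · have h1 : (⋃ i ∈ s, cell s z i) = univ := by
      rw [Set.eq_univ_iff_forall]
      intro x
      obtain ⟨i, hi, hx⟩ := exists_mem_cell hs z x
      exact mem_biUnion hi hx
    have h2 := measure_biUnion_finset₀ (μ := stdGaussian E) (s := s) (f := fun i => cell s z i)
      (fun i hi j hj hij => hC.tie i hi j hj hij)
      (fun i _ => (measurableSet_cell s z i).nullMeasurableSet)
    rw [h1, measure_univ] at h2
    have h3 : (∑ i ∈ s, stdGaussian E (cell s z i)).toReal = ∑ i ∈ s, mass s z i := by
      rw [ENNReal.toReal_sum (fun i _ => measure_ne_top _ _)]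
      rfl
    rw [← h3, ← h2]
    simp
  · intro i hi
    have h1 : 0 ≤ mass s z i := measureReal_nonneg
    rcases eq_or_lt_of_le h1 with h | h
    · exfalso
      apply hz i hi
      rw [← hC.mom i hi]
      have h2 : stdGaussian E (cell s z i) = 0 := by
        have h3 : ((stdGaussian E) (cell s z i)).toReal = 0 := h.symm
        rcases (ENNReal.toReal_eq_zero_iff _).1 h3 with h4 | h4
        · exact h4
        · exact absurd h4 (measure_ne_top _ _)
      rw [Measure.restrict_eq_zero.2 h2]
      simp
    · exact h
  · intro i hi τ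
    have hzn : ‖z i‖ ≠ 0 := norm_ne_zero_iff.2 (hz i hi)
    set w : E := (‖z i‖)⁻¹ • z i with hw
    have hwn : ‖w‖ = 1 := by
      rw [hw, norm_smul, norm_inv, norm_norm, inv_mul_cancel₀ hzn]
    have hzw : inner ℝ w (z i) = ‖z i‖ := by
      rw [hw, inner_smul_left, real_inner_self_eq_norm_sq]
      simp only [conj_trivial]
      field_simp
    have hmap := sg_map_inner_unit w hwn
    have hmeas : Measurable (fun x : E => (inner ℝ x w : ℝ)) := by fun_prop
    have hint : Integrable (fun x : E => max ((inner ℝ x w : ℝ) - τ) 0) (stdGaussian E) :=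
      ((sg_integrable_inner w).sub (integrable_const τ)).pos_part
    have h1 : ∫ x : E, max ((inner ℝ x w : ℝ) - τ) 0 ∂(stdGaussian E) = ph τ - τ * Ph τ := by
      rw [← integral_max_sub_g1, ← hmap, integral_map hmeas.aemeasurable (by fun_prop)]
    have h2 : ‖z i‖ = ∫ x in cell s z i, (inner ℝ x w : ℝ) ∂(stdGaussian E) := by
      rw [← sg_inner_setIntegral, hC.mom i hi, hzw]
    have h3 : ∫ x in cell s z i, ((inner ℝ x w : ℝ) - τ) ∂(stdGaussian E) =
        ‖z i‖ - τ * mass s z i := by
      rw [integral_sub (sg_integrable_inner w).integrableOn (integrable_const τ), ← h2,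
        setIntegral_const, smul_eq_mul]
      unfold mass
      ring
    have h4 : ∫ x in cell s z i, ((inner ℝ x w : ℝ) - τ) ∂(stdGaussian E) ≤
        ∫ x : E, max ((inner ℝ x w : ℝ) - τ) 0 ∂(stdGaussian E) := by
      calc ∫ x in cell s z i, ((inner ℝ x w : ℝ) - τ) ∂(stdGaussian E)
          ≤ ∫ x in cell s z i, max ((inner ℝ x w : ℝ) - τ) 0 ∂(stdGaussian E) := by
            apply integral_mono
              ((sg_integrable_inner w).sub (integrable_const τ)).integrableOn hint.integrableOn
            intro x
            exact le_max_left _ _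
        _ ≤ _ := setIntegral_le_integral hint (ae_of_all _ fun x => le_max_right _ _)
    rw [h3, h1] at h4
    linarith

end Crest.Agent.R215
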