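import Crest.Agent.R215.Defs

/-!
# Row 215, task K4: no critical configuration with four vectors
-/

set_option autoImplicit false

open MeasureTheory ProbabilityTheory Set

namespace Crest.Agent.R215

universe u

theorem k4 (E : Type u) [NormedAddCommGroup E] [InnerProductSpace ℝ E] [FiniteDimensional ℝ E]
    [MeasurableSpace E] [BorelSpace E] :
    StHalf E → StCap E → StPoly4 → StSrem E → StK4 E := by
  intro hHalf hCap hPoly hSrem s z hcrit hcard
  obtain ⟨hsum, hpos, -⟩ := hHalf s z hcrit
  have hcap := hCap s z hcrit hcard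
  have hpi : 0 < Real.pi := Real.pi_pos
  have hpi3 : 3.1415 < Real.pi := Real.pi_gt_d4
  have hle1 : ∀ i ∈ s, mass s z i ≤ 1 := by
    intro i hi
    rw [← hsum]
    exact Finset.single_le_sum (fun j hj => (hpos j hj).le) hi
  have hsq : ∀ i ∈ s, ‖z i‖ ^ 2 ≤ 8 / Real.pi * (mass s z i * (1 - mass s z i)) ^ 2 := by
    intro i hi
    have h1 := hcap i hi
    have h2 : ‖z i‖ ^ 2 ≤ (Real.sqrt (8 / Real.pi) * mass s z i * (1 - mass s z i)) ^ 2 :=
      pow_le_pow_left₀ (norm_nonneg _) h1 2
    refine h2.trans (le_of_eq ?_)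
    rw [mul_assoc, mul_pow, Real.sq_sqrt (by positivity)]
  by_cases hall : ∀ i ∈ s, 1138 / 10000 ≤ mass s z i
  · obtain ⟨a, b, c, d, hab, hac, had, hbc, hbd, hcd, rfl⟩ := Finset.card_eq_four.1 hcard
    have hexp : ∀ f : ℕ → ℝ, ∑ i ∈ ({a, b, c, d} : Finset ℕ), f i = f a + f b + f c + f d := by
      intro f
      rw [Finset.sum_insert (by simp [hab, hac, had]), Finset.sum_insert (by simp [hbc, hbd]),
        Finset.sum_insert (by simp [hcd]), Finset.sum_singleton]
      ring
    have hp := hPoly _ _ _ _ (hall a (by simp)) (hall b (by simp)) (hall c (by simp))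
      (hall d (by simp)) (by rw [← hsum, hexp])
    have hV : VV {a, b, c, d} z ≤ 8 / Real.pi * (9 / 64) := by
      rw [VV, hexp]
      have h1 := hsq a (by simp)
      have h2 := hsq b (by simp)
      have h3 := hsq c (by simp)
      have h4 := hsq d (by simp)
      have h5 := mul_le_mul_of_nonneg_left hp (show (0:ℝ) ≤ 8 / Real.pi by positivity)
      linarith
    have hbig := hcrit.big
    have : CC = 8 / Real.pi * (9 / 64) := by
      rw [CC]; field_simp; norm_num
    linarith
  · push Not at hall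
    obtain ⟨i, hi, hlt⟩ := hall
    have h1 := hsq i hi
    have h2 : (mass s z i * (1 - mass s z i)) ^ 2 ≤ (1138 / 10000 * (8862 / 10000)) ^ 2 := by
      have h0 := hpos i hi
      refine pow_le_pow_left₀ (by nlinarith [hle1 i hi]) (by nlinarith) 2
    have h3 : ‖z i‖ ^ 2 ≤ 26 / 1000 := by
      have h4 : 8 / Real.pi ≤ 8 / 3.1415 := by
        apply div_le_div_of_nonneg_left (by norm_num) (by norm_num) hpi3.le
      calc ‖z i‖ ^ 2 ≤ 8 / Real.pi * (mass s z i * (1 - mass s z i)) ^ 2 := h1
        _ ≤ 8 / 3.1415 * (1138 / 10000 * (8862 / 10000)) ^ 2 :=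
            mul_le_mul h4 h2 (sq_nonneg _) (by norm_num)
        _ ≤ 26 / 1000 := by norm_num
    have hsd : s \ (s.erase i) = {i} := by
      ext j
      simp only [Finset.mem_sdiff, Finset.mem_erase, Finset.mem_singleton]
      constructor
      · rintro ⟨h4, h5⟩
        by_contra h6
        exact h5 ⟨h6, h4⟩
      · rintro rfl
        exact ⟨hi, fun h4 => h4.1 rfl⟩
    refine hSrem s (s.erase i) z hcrit (Finset.erase_ssubset hi) ?_ ?_
    · rw [Finset.card_erase_of_mem hi, hcard]
    · rw [hsd, VV, Finset.sum_singleton]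
      exact h3

end Crest.Agent.R215
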