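import Crest.Agent.R215.LibG

set_option autoImplicit false

open MeasureTheory ProbabilityTheory Set

noncomputable section

namespace Crest.Agent.R215

universe u

theorem k5 (E : Type u) [NormedAddCommGroup E] [InnerProductSpace ℝ E] [FiniteDimensional ℝ E]
    [MeasurableSpace E] [BorelSpace E] :
    StHalf E → StUb E → StSrem E → StQrem E → StCnt → StK5 E := by
  intro hHalf hUb hSrem hQrem hCnt s z hC hcard
  obtain ⟨hm1, hmpos, -⟩ := hHalf s z hC
  -- the four largest masses
  obtain ⟨a, ha, hamax⟩ := Finset.exists_max_image s (mass s z)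
    (Finset.card_pos.1 (by omega))
  have hc1 : (s.erase a).card = s.card - 1 := Finset.card_erase_of_mem ha
  obtain ⟨b, hb, hbmax⟩ := Finset.exists_max_image (s.erase a) (mass s z)
    (Finset.card_pos.1 (by omega))
  have hc2 : ((s.erase a).erase b).card = s.card - 2 := by
    rw [Finset.card_erase_of_mem hb, hc1]; omega
  obtain ⟨c, hc, hcmax⟩ := Finset.exists_max_image ((s.erase a).erase b) (mass s z)
    (Finset.card_pos.1 (by omega))
  have hc3 : (((s.erase a).erase b).erase c).card = s.card - 3 := by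
    rw [Finset.card_erase_of_mem hc, hc2]; omega
  obtain ⟨d, hd, hdmax⟩ := Finset.exists_max_image (((s.erase a).erase b).erase c) (mass s z)
    (Finset.card_pos.1 (by omega))
  have hb' : b ≠ a ∧ b ∈ s := Finset.mem_erase.1 hb
  have hc' : c ≠ b ∧ c ≠ a ∧ c ∈ s := by simpa [Finset.mem_erase] using hc
  have hd' : d ≠ c ∧ d ≠ b ∧ d ≠ a ∧ d ∈ s := by simpa [Finset.mem_erase] using hd
  obtain ⟨hba, hbs⟩ := hb'
  obtain ⟨hcb, hca, hcs⟩ := hc'
  obtain ⟨hdc, hdb, hda, hds⟩ := hd'
  have hpb : mass s z b ≤ mass s z a := hamax b hbs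
  have hpc : mass s z c ≤ mass s z b := hbmax c (Finset.mem_erase.2 ⟨hca, hcs⟩)
  have hpd : mass s z d ≤ mass s z c :=
    hcmax d (Finset.mem_erase.2 ⟨hdb, Finset.mem_erase.2 ⟨hda, hds⟩⟩)
  have hrest : ∀ i ∈ s \ {a, b, c, d}, mass s z i ≤ mass s z d := by
    intro i hi
    simp only [Finset.mem_sdiff, Finset.mem_insert, Finset.mem_singleton, not_or] at hi
    obtain ⟨his, hia, hib, hic, hid⟩ := hi
    exact hdmax i (by simp [Finset.mem_erase, his, hia, hib, hic])
  have hJs : ({a, b, c, d} : Finset ℕ) ⊆ s := by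
    intro i hi
    simp only [Finset.mem_insert, Finset.mem_singleton] at hi
    rcases hi with rfl | rfl | rfl | rfl <;> assumption
  have hJc : ({a, b, c, d} : Finset ℕ).card = 4 := by
    rw [Finset.card_insert_of_notMem (by simp [hba.symm, hca.symm, hda.symm]),
      Finset.card_insert_of_notMem (by simp [hcb.symm, hdb.symm]),
      Finset.card_insert_of_notMem (by simp [hdc.symm]), Finset.card_singleton]
  have h3c : ({a, b, c} : Finset ℕ).card = 3 := by
    rw [Finset.card_insert_of_notMem (by simp [hba.symm, hca.symm]),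
      Finset.card_insert_of_notMem (by simp [hcb.symm]), Finset.card_singleton]
  have hssub : ∀ K : Finset ℕ, K ⊆ s → K.card < s.card → K ⊂ s := by
    intro K hK hlt
    exact (Finset.ssubset_iff_subset_ne).2 ⟨hK, fun h => by rw [h] at hlt; exact lt_irrefl _ hlt⟩
  -- removal bound for three
  have hrem3 : ∀ K : Finset ℕ, K ⊆ s → K.card = 3 → 26 / 1000 < VV (s \ K) z := by
    intro K hK hK3
    by_contra hlt
    push Not at hlt
    exact hSrem s K z hC (hssub K hK (by omega)) hK3 hlt
  have h26 : 26 / 1000 < VV (s \ {a, b, c}) z :=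
    hrem3 {a, b, c} (by
      intro i hi
      simp only [Finset.mem_insert, Finset.mem_singleton] at hi
      rcases hi with rfl | rfl | rfl <;> assumption) h3c
  have hCC : (358:ℝ) / 1000 < CC := by
    unfold CC
    rw [div_lt_div_iff₀ (by norm_num) (by positivity)]
    nlinarith [Real.pi_lt_d4]
  by_cases hS : 38 / 1000 ≤ ∑ i ∈ s \ {a, b, c, d}, mass s z i
  · have := hCnt s (mass s z) (fun i => ‖z i‖ ^ 2) a b c d ha hbs hcs hds hba.symm hca.symm
      hda.symm hcb.symm hdb.symm hdc.symm (fun i hi => (hmpos i hi).le) hm1 hpb hpc hpd hrest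
      (fun i hi => (hUb s z hC hcard i hi).1) (fun i hi => (hUb s z hC hcard i hi).2.1)
      (fun i hi => (hUb s z hC hcard i hi).2.2) h26.le hS
    have hbig := hC.big
    unfold VV at hbig
    linarith
  · push Not at hS
    have hVle : VV (s \ {a, b, c, d}) z ≤ 289 / 100000 := by
      have hnn : ∀ i ∈ s \ {a, b, c, d}, 0 ≤ mass s z i := fun i hi =>
        (hmpos i (Finset.mem_sdiff.1 hi).1).le
      set S := ∑ i ∈ s \ {a, b, c, d}, mass s z i with hSdef
      have hS0 : 0 ≤ S := Finset.sum_nonneg hnn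
      have h1 : VV (s \ {a, b, c, d}) z ≤ ∑ i ∈ s \ {a, b, c, d}, 2 * S * mass s z i := by
        unfold VV
        refine Finset.sum_le_sum fun i hi => ?_
        have h2 := (hUb s z hC hcard i (Finset.mem_sdiff.1 hi).1).1
        have h3 : mass s z i ≤ S := Finset.single_le_sum hnn hi
        nlinarith [hnn i hi]
      rw [← Finset.mul_sum, ← hSdef] at h1
      nlinarith
    refine hQrem s {a, b, c, d} z hC (hssub _ hJs (by omega)) hJc hVle fun j hj => ?_
    have h4 := hrem3 (({a, b, c, d} : Finset ℕ).erase j) ((Finset.erase_subset _ _).trans hJs)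
      (by rw [Finset.card_erase_of_mem hj, hJc])
    have h5 : s \ (({a, b, c, d} : Finset ℕ).erase j) = insert j (s \ {a, b, c, d}) := by
      ext i
      simp only [Finset.mem_sdiff, Finset.mem_erase, Finset.mem_insert (a := i) (b := j)]
      constructor
      · rintro ⟨h6, h7⟩
        by_cases hij : i = j
        · exact Or.inl hij
        · exact Or.inr ⟨h6, fun h8 => h7 ⟨hij, h8⟩⟩
      · rintro (rfl | ⟨h6, h7⟩)
        · exact ⟨hJs hj, fun h8 => h8.1 rfl⟩
        · exact ⟨h6, fun h8 => h7 h8.2⟩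
    rw [h5] at h4
    have h6 : VV (insert j (s \ {a, b, c, d})) z = ‖z j‖ ^ 2 + VV (s \ {a, b, c, d}) z := by
      unfold VV
      rw [Finset.sum_insert]
      intro h
      exact (Finset.mem_sdiff.1 h).2 hj
    rw [h6] at h4
    linarith

end Crest.Agent.R215
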