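import Crest.Agent.R215.LibG

set_option autoImplicit false

open MeasureTheory ProbabilityTheory Set

noncomputable section

namespace Crest.Agent.R215

universe u

variable {E : Type u} [NormedAddCommGroup E] [InnerProductSpace ℝ E]

namespace LAM3

/-- coordinates adapted to `y, ta, tb` -/
theorem coords (ta tb y : E) (δ : ℝ) (hy : y ≠ 0) (hδ : 0 < δ)
    (h : δ ^ 2 * ‖y‖ ^ 2 ≤ (‖ta‖ ^ 2 * ‖tb‖ ^ 2 - (inner ℝ ta tb) ^ 2) * ‖y‖ ^ 2
      - ‖(inner ℝ y ta : ℝ) • tb - (inner ℝ y tb : ℝ) • ta‖ ^ 2) :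
    ∃ (u e1 e2 : E) (ga gb αa αb βa βb : ℝ), ‖u‖ = 1 ∧ ‖e1‖ = 1 ∧ ‖e2‖ = 1 ∧
      inner ℝ u e1 = 0 ∧ inner ℝ u e2 = 0 ∧ inner ℝ e1 e2 = 0 ∧ y = ‖y‖ • u ∧
      ta = ga • u + αa • e1 + βa • e2 ∧ tb = gb • u + αb • e1 + βb • e2 ∧
      δ ≤ |αa * βb - αb * βa| := by
  have hy0 : 0 < ‖y‖ := norm_pos_iff.2 hy
  set u : E := ‖y‖⁻¹ • y with hu
  have hyu : y = ‖y‖ • u := by rw [hu, smul_smul, mul_inv_cancel₀ hy0.ne', one_smul]
  have hu1 : ‖u‖ = 1 := by
    rw [hu, norm_smul, norm_inv, norm_norm, inv_mul_cancel₀ hy0.ne']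
  have huu : inner ℝ u u = (1 : ℝ) := by rw [real_inner_self_eq_norm_sq, hu1]; norm_num
  set p : ℝ := inner ℝ u ta with hp
  set q : ℝ := inner ℝ u tb with hq
  set A : ℝ := ‖ta‖ ^ 2 with hA
  set B : ℝ := ‖tb‖ ^ 2 with hB
  set C : ℝ := inner ℝ ta tb with hC
  have hya : inner ℝ y ta = ‖y‖ * p := by rw [hyu, inner_smul_left]; simp [hp, hu1, norm_smul]
  have hyb : inner ℝ y tb = ‖y‖ * q := by rw [hyu, inner_smul_left]; simp [hq, hu1, norm_smul]
  have hn : ‖(inner ℝ y ta : ℝ) • tb - (inner ℝ y tb : ℝ) • ta‖ ^ 2 =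
      ‖y‖ ^ 2 * (p ^ 2 * B + q ^ 2 * A - 2 * p * q * C) := by
    have hC' : inner ℝ tb ta = C := by rw [real_inner_comm]
    rw [norm_sub_sq_real, norm_smul, norm_smul, inner_smul_left, inner_smul_right, hya, hyb, hC']
    simp only [Real.norm_eq_abs, mul_pow, sq_abs, conj_trivial, abs_norm]
    rw [← hA, ← hB]
    ring
  have hG : δ ^ 2 ≤ A * B - C ^ 2 - (p ^ 2 * B + q ^ 2 * A - 2 * p * q * C) := by
    rw [hn] at h
    have h2 : 0 < ‖y‖ ^ 2 := by positivity
    have h3 : δ ^ 2 * ‖y‖ ^ 2 ≤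
        (A * B - C ^ 2 - (p ^ 2 * B + q ^ 2 * A - 2 * p * q * C)) * ‖y‖ ^ 2 := by
      linarith
    exact le_of_mul_le_mul_right h3 h2
  have hd2 : 0 < δ ^ 2 := by positivity
  -- first vector
  set ta' : E := ta - p • u with hta'
  set tb' : E := tb - q • u with htb'
  have i1 : inner ℝ u ta' = 0 := by
    rw [hta', inner_sub_right, inner_smul_right, huu, ← hp]; ring
  have i2 : inner ℝ u tb' = 0 := by
    rw [htb', inner_sub_right, inner_smul_right, huu, ← hq]; ring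
  have na' : ‖ta'‖ ^ 2 = A - p ^ 2 := by
    rw [hta', norm_sub_sq_real, norm_smul, hu1, inner_smul_right, real_inner_comm, ← hp, ← hA]
    simp only [Real.norm_eq_abs, mul_one, sq_abs]
    ring
  have nb' : ‖tb'‖ ^ 2 = B - q ^ 2 := by
    rw [htb', norm_sub_sq_real, norm_smul, hu1, inner_smul_right, real_inner_comm, ← hq, ← hB]
    simp only [Real.norm_eq_abs, mul_one, sq_abs]
    ring
  have nab : inner ℝ ta' tb' = C - p * q := by
    have hp' : inner ℝ ta u = p := by rw [real_inner_comm]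
    rw [hta', inner_sub_left, inner_smul_left, i2, htb', inner_sub_right, inner_smul_right,
      ← hC, hp']
    ring
  have hG' : δ ^ 2 ≤ ‖ta'‖ ^ 2 * ‖tb'‖ ^ 2 - (inner ℝ ta' tb') ^ 2 := by
    rw [na', nb', nab]
    nlinarith
  have hta0 : ta' ≠ 0 := by
    intro h0
    rw [h0] at hG'
    simp at hG'
    nlinarith
  have hna : 0 < ‖ta'‖ := norm_pos_iff.2 hta0
  set e1 : E := ‖ta'‖⁻¹ • ta' with he1
  have hte : ta' = ‖ta'‖ • e1 := by rw [he1, smul_smul, mul_inv_cancel₀ hna.ne', one_smul]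
  have he1n : ‖e1‖ = 1 := by
    rw [he1, norm_smul, norm_inv, norm_norm, inv_mul_cancel₀ hna.ne']
  have he11 : inner ℝ e1 e1 = (1 : ℝ) := by rw [real_inner_self_eq_norm_sq, he1n]; norm_num
  have hue1 : inner ℝ u e1 = 0 := by rw [he1, inner_smul_right, i1, mul_zero]
  set r : ℝ := inner ℝ e1 tb' with hr
  have hr2 : inner ℝ ta' tb' = ‖ta'‖ * r := by
    conv_lhs => rw [hte]
    rw [inner_smul_left, ← hr]; simp
  set tb'' : E := tb' - r • e1 with htb''
  have j1 : inner ℝ e1 tb'' = 0 := by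
    rw [htb'', inner_sub_right, inner_smul_right, he11, ← hr]; ring
  have j2 : inner ℝ u tb'' = 0 := by
    rw [htb'', inner_sub_right, inner_smul_right, hue1, i2]; ring
  have nb'' : ‖tb''‖ ^ 2 = ‖tb'‖ ^ 2 - r ^ 2 := by
    rw [htb'', norm_sub_sq_real, norm_smul, he1n, inner_smul_right, real_inner_comm, ← hr]
    simp only [Real.norm_eq_abs, mul_one, sq_abs]
    ring
  have hprod : δ ^ 2 ≤ (‖ta'‖ * ‖tb''‖) ^ 2 := by
    rw [mul_pow, nb'']
    rw [hr2] at hG'
    nlinarith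
  have hle : δ ≤ ‖ta'‖ * ‖tb''‖ :=
    le_of_sq_le_sq hprod (by positivity)
  have hb0 : 0 < ‖tb''‖ := by
    by_contra hcon
    have : ‖tb''‖ = 0 := le_antisymm (not_lt.1 hcon) (norm_nonneg _)
    rw [this, mul_zero] at hle
    linarith
  set e2 : E := ‖tb''‖⁻¹ • tb'' with he2
  have hte2 : tb'' = ‖tb''‖ • e2 := by rw [he2, smul_smul, mul_inv_cancel₀ hb0.ne', one_smul]
  have he2n : ‖e2‖ = 1 := by
    rw [he2, norm_smul, norm_inv, norm_norm, inv_mul_cancel₀ hb0.ne']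
  refine ⟨u, e1, e2, p, q, ‖ta'‖, r, 0, ‖tb''‖, hu1, he1n, he2n, hue1, ?_, ?_, hyu, ?_, ?_, ?_⟩
  · rw [he2, inner_smul_right, j2, mul_zero]
  · rw [he2, inner_smul_right, j1, mul_zero]
  · rw [← hte, hta', zero_smul]
    abel
  · rw [← hte2, htb'', htb']
    abel
  · rw [mul_zero, sub_zero, abs_of_nonneg (by positivity)]
    exact hle

variable [FiniteDimensional ℝ E] [MeasurableSpace E] [BorelSpace E]

theorem transfer (u e1 e2 : E) (hu : ‖u‖ = 1) (h1 : ‖e1‖ = 1) (h2 : ‖e2‖ = 1)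
    (hu1 : inner ℝ u e1 = 0) (hu2 : inner ℝ u e2 = 0) (h12 : inner ℝ e1 e2 = 0)
    (G : ℝ → ℝ × ℝ → ℝ) (hG : Continuous (fun p : ℝ × (ℝ × ℝ) => G p.1 p.2))
    (hi : Integrable (fun x : E => G (inner ℝ x u) (inner ℝ x e1, inner ℝ x e2))
      (stdGaussian E)) :
    ∫ x : E, G (inner ℝ x u) (inner ℝ x e1, inner ℝ x e2) ∂(stdGaussian E) =
      ∫ s, ∫ p : ℝ × ℝ, G s p ∂(g1.prod g1) ∂g1 := by
  have hm : Measurable (fun x : E => ((inner ℝ x u : ℝ), ((inner ℝ x e1 : ℝ), (inner ℝ x e2 : ℝ)))) := by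
    fun_prop
  have hmap := sg_map_three u e1 e2 hu h1 h2 hu1 hu2 h12
  have h3 : ∫ x : E, G (inner ℝ x u) (inner ℝ x e1, inner ℝ x e2) ∂(stdGaussian E) =
      ∫ p, G p.1 p.2 ∂(g1.prod (g1.prod g1)) := by
    rw [← hmap, integral_map hm.aemeasurable hG.aestronglyMeasurable]
  rw [h3, integral_prod]
  rw [← hmap]
  rw [integrable_map_measure hG.aestronglyMeasurable hm.aemeasurable]
  exact hi

omit [FiniteDimensional ℝ E] [MeasurableSpace E] [BorelSpace E] in
theorem le_mx (s : Finset ℕ) (z : ℕ → E) (x : E) (i : ℕ) (hi : i ∈ s) :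
    inner ℝ x (z i) ≤ mx s z x := by
  unfold mx
  rw [dif_pos ⟨i, hi⟩]
  exact Finset.le_sup' (f := fun i => inner ℝ x (z i)) hi

/-- the integrability of a minimum of three linear forms, positive part -/
theorem integrable_min (v0 v1 v2 : E) :
    Integrable (fun x : E => max (min (min (inner ℝ x v0 : ℝ) (inner ℝ x v1)) (inner ℝ x v2)) 0)
      (stdGaussian E) := by
  refine ((sg_integrable_inner v0).norm).mono' (by fun_prop) (ae_of_all _ fun x => ?_)
  rw [Real.norm_eq_abs, abs_of_nonneg (le_max_right _ _), Real.norm_eq_abs]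
  apply max_le
  · exact ((min_le_left _ _).trans (min_le_left _ _)).trans (le_abs_self _)
  · exact abs_nonneg _

end LAM3

open LAM3 in
theorem lam3 (E : Type u) [NormedAddCommGroup E] [InnerProductSpace ℝ E]
    [FiniteDimensional ℝ E] [MeasurableSpace E] [BorelSpace E] : StDisc → StLam3 E := by
  intro hD t a b c y δ hab hac hbc hsum hy hδ h
  obtain ⟨u, e1, e2, ga, gb, αa, αb, βa, βb, hu, h1, h2, hu1, hu2, h12, hyu, hta, htb, hle⟩ :=
    coords (t a) (t b) y δ hy hδ h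
  have hy0 : 0 < ‖y‖ := norm_pos_iff.2 hy
  have htc : t c = (-ga - gb) • u + (-αa - αb) • e1 + (-βa - βb) • e2 := by
    have : t c = -(t a) - t b := by
      have := eq_neg_of_add_eq_zero_right hsum
      rw [this]; abel
    rw [this, hta, htb]
    module
  set G : ℝ → ℝ × ℝ → ℝ := fun s p =>
    max (min (min (s * (‖y‖ - ga) - (αa * p.1 + βa * p.2))
        (s * (‖y‖ - gb) - (αb * p.1 + βb * p.2)))
        (s * (‖y‖ - (-ga - gb)) - ((-αa - αb) * p.1 + (-βa - βb) * p.2))) 0 with hGdef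
  have hGc : Continuous (fun p : ℝ × (ℝ × ℝ) => G p.1 p.2) := by
    simp only [hGdef]; fun_prop
  have hin : ∀ x : E, G (inner ℝ x u) (inner ℝ x e1, inner ℝ x e2) =
      max (min (min (inner ℝ x (y - t a) : ℝ) (inner ℝ x (y - t b))) (inner ℝ x (y - t c))) 0 := by
    intro x
    have l : ∀ (g α β : ℝ), inner ℝ x (y - (g • u + α • e1 + β • e2)) =
        inner ℝ x u * (‖y‖ - g) - (α * inner ℝ x e1 + β * inner ℝ x e2) := by
      intro g α β
      rw [inner_sub_right, inner_add_right, inner_add_right, inner_smul_right, inner_smul_right,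
        inner_smul_right]
      conv_lhs => rw [hyu]
      rw [inner_smul_right]
      ring
    rw [hta, htb, htc, l, l, l]
  have hint : Integrable (fun x : E => G (inner ℝ x u) (inner ℝ x e1, inner ℝ x e2))
      (stdGaussian E) := by
    simp_rw [hin]
    exact integrable_min _ _ _
  have htr := transfer u e1 e2 hu h1 h2 hu1 hu2 h12 G hGc hint
  have hdisc := hD ![αa, αb, -αa - αb] ![βa, βb, -βa - βb] ![ga, gb, -ga - gb] ‖y‖ δ
    (by simp [Fin.sum_univ_three]) (by simp [Fin.sum_univ_three]) (by simp [Fin.sum_univ_three])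
    hy0 hδ (by simpa using hle)
  have hle2 : Lam {a, b, c} t y ≤
      ∫ x : E, G (inner ℝ x u) (inner ℝ x e1, inner ℝ x e2) ∂(stdGaussian E) := by
    unfold Lam
    refine integral_mono_of_nonneg (ae_of_all _ fun x => le_max_right _ _) hint
      (ae_of_all _ fun x => ?_)
    show max _ _ ≤ G _ _
    rw [hin x]
    apply max_le_max _ le_rfl
    apply le_min
    · apply le_min
      · rw [inner_sub_right]
        linarith [le_mx {a, b, c} t x a (by simp)]
      · rw [inner_sub_right]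
        linarith [le_mx {a, b, c} t x b (by simp)]
    · rw [inner_sub_right]
      linarith [le_mx {a, b, c} t x c (by simp)]
  refine hle2.trans ?_
  rw [htr]
  simpa [hGdef] using hdisc

end Crest.Agent.R215
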