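import Crest.Agent.R215.LAM3

set_option autoImplicit false

open MeasureTheory ProbabilityTheory Set

noncomputable section

namespace Crest.Agent.R215

universe u

open LAM3 in
theorem lam4 (E : Type u) [NormedAddCommGroup E] [InnerProductSpace ℝ E]
    [FiniteDimensional ℝ E] [MeasurableSpace E] [BorelSpace E] : StCub → StLam4 E := by
  intro hD t J a b y δ hJ haJ hbJ hab hsum hy hδ h
  obtain ⟨u, e1, e2, ga, gb, αa, αb, βa, βb, hu, h1, h2, hu1, hu2, h12, hyu, hta, htb, hle⟩ :=
    coords (t a) (t b) y δ hy hδ h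
  have hy0 : 0 < ‖y‖ := norm_pos_iff.2 hy
  set G : ℝ → ℝ × ℝ → ℝ := fun s p =>
    max (min (min (s * (‖y‖ - ga) - (αa * p.1 + βa * p.2))
        (s * (‖y‖ - gb) - (αb * p.1 + βb * p.2)))
        (s * (‖y‖ - (-(ga + gb) / 2)) + ((αa + αb) * p.1 + (βa + βb) * p.2) / 2)) 0 with hGdef
  have hGc : Continuous (fun p : ℝ × (ℝ × ℝ) => G p.1 p.2) := by
    simp only [hGdef]; fun_prop
  have l : ∀ (x : E) (g α β : ℝ), inner ℝ x (g • u + α • e1 + β • e2) =
      inner ℝ x u * g + (α * inner ℝ x e1 + β * inner ℝ x e2) := by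
    intro x g α β
    rw [inner_add_right, inner_add_right, inner_smul_right, inner_smul_right,
      inner_smul_right]
    ring
  have hxy : ∀ x : E, inner ℝ x y = inner ℝ x u * ‖y‖ := by
    intro x
    conv_lhs => rw [hyu]
    rw [inner_smul_right]
    ring
  have hin : ∀ x : E, G (inner ℝ x u) (inner ℝ x e1, inner ℝ x e2) =
      max (min (min (inner ℝ x (y - t a) : ℝ) (inner ℝ x (y - t b)))
        (inner ℝ x (y + (2 : ℝ)⁻¹ • (t a + t b)))) 0 := by
    intro x
    rw [inner_sub_right, inner_sub_right, inner_add_right, inner_smul_right, inner_add_right,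
      hta, htb, l, l, hxy]
    simp only [hGdef]
    congr 2
    · congr 1 <;> ring
    · ring
  have hint : Integrable (fun x : E => G (inner ℝ x u) (inner ℝ x e1, inner ℝ x e2))
      (stdGaussian E) := by
    simp_rw [hin]
    exact integrable_min _ _ _
  have htr := transfer u e1 e2 hu h1 h2 hu1 hu2 h12 G hGc hint
  have hdisc := hD ![αa, αb] ![βa, βb] ![ga, gb, -(ga + gb) / 2] ‖y‖ δ
    (by simp; ring)
    hy0 hδ (by simpa using hle)
  have hle2 : Lam J t y ≤
      ∫ x : E, G (inner ℝ x u) (inner ℝ x e1, inner ℝ x e2) ∂(stdGaussian E) := by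
    unfold Lam
    refine integral_mono_of_nonneg (ae_of_all _ fun x => le_max_right _ _) hint
      (ae_of_all _ fun x => ?_)
    show max _ _ ≤ G _ _
    rw [hin x]
    apply max_le_max _ le_rfl
    apply le_min
    · apply le_min
      · rw [inner_sub_right]
        linarith [le_mx J t x a haJ]
      · rw [inner_sub_right]
        linarith [le_mx J t x b hbJ]
    · rw [inner_add_right, inner_smul_right]
      -- the average of the others
      have hs : ∑ j ∈ J, (inner ℝ x (t j) : ℝ) = 0 := by
        rw [← inner_sum, hsum, inner_zero_right]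
      have hb' : b ∈ J.erase a := Finset.mem_erase.2 ⟨hab.symm, hbJ⟩
      rw [← Finset.add_sum_erase J _ haJ, ← Finset.add_sum_erase (J.erase a) _ hb'] at hs
      have hc : ((J.erase a).erase b).card = 2 := by
        rw [Finset.card_erase_of_mem hb', Finset.card_erase_of_mem haJ, hJ]
      have hb2 : ∑ j ∈ (J.erase a).erase b, (inner ℝ x (t j) : ℝ) ≤
          ((J.erase a).erase b).card • mx J t x :=
        Finset.sum_le_card_nsmul _ _ _ fun j hj =>
          le_mx J t x j (Finset.mem_of_mem_erase (Finset.mem_of_mem_erase hj))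
      rw [hc] at hb2
      rw [inner_add_right]
      simp only [nsmul_eq_mul, Nat.cast_ofNat] at hb2
      linarith
  refine hle2.trans ?_
  rw [htr]
  simpa [hGdef] using hdisc

end Crest.Agent.R215
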