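import Crest.Agent.R215.Defs

/-! Row 215: library on the standard Gaussian measure and on `mx`, `em`. -/

set_option autoImplicit false
set_option linter.unusedSectionVars false

open MeasureTheory ProbabilityTheory Set

noncomputable section

namespace Crest.Agent.R215

universe u v

variable {E : Type u} [NormedAddCommGroup E] [InnerProductSpace ℝ E]

section G

variable [FiniteDimensional ℝ E] [MeasurableSpace E] [BorelSpace E]

/-- law of `⟪x, u⟫` -/
theorem sg_map_inner (u : E) :
    (stdGaussian E).map (fun x => inner ℝ x u) = gaussianReal 0 (‖u‖₊ ^ 2) := by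
  have h1 : (fun x : E => inner ℝ x u) = ⇑(innerSL ℝ u) := by
    ext x; simp [real_inner_comm]
  have h2 := IsGaussian.map_eq_gaussianReal (μ := stdGaussian E) (innerSL ℝ u)
  rw [h1, h2, integral_strongDual_stdGaussian, variance_dual_stdGaussian]
  congr 1
  rw [innerSL_apply_norm]
  ext
  simp

theorem sg_map_inner_unit (u : E) (hu : ‖u‖ = 1) :
    (stdGaussian E).map (fun x => inner ℝ x u) = g1 := by
  rw [sg_map_inner]
  have : ‖u‖₊ = 1 := by ext; simpa using hu
  rw [this]; simp [g1]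

/-- coisometries map standard Gaussian to standard Gaussian -/
theorem sg_map_coisom {F : Type*} [NormedAddCommGroup F] [InnerProductSpace ℝ F]
    [FiniteDimensional ℝ F] [MeasurableSpace F] [BorelSpace F] (T : E →L[ℝ] F) (S : F → E)
    (hTS : ∀ x t, inner ℝ (T x) t = inner ℝ x (S t)) (hS : ∀ t, ‖S t‖ = ‖t‖) :
    (stdGaussian E).map T = stdGaussian F := by
  have : IsProbabilityMeasure ((stdGaussian E).map T) :=
    Measure.isProbabilityMeasure_map (by fun_prop)
  apply Measure.ext_of_charFun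
  ext t
  rw [charFun_apply, integral_map (by fun_prop) (by fun_prop)]
  simp_rw [hTS]
  rw [← charFun_apply, charFun_stdGaussian, charFun_stdGaussian, hS]

/-- law of the coordinates along an orthonormal family -/
theorem sg_map_coords {m : ℕ} (a : Fin m → E) (ha : Orthonormal ℝ a) :
    (stdGaussian E).map (fun x i => inner ℝ x (a i)) = Measure.pi (fun _ : Fin m => g1) := by
  let T : E →L[ℝ] EuclideanSpace ℝ (Fin m) :=
    ((EuclideanSpace.equiv (Fin m) ℝ).symm.toContinuousLinearMap).comp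
      (ContinuousLinearMap.pi fun i => innerSL ℝ (a i))
  have hT : ∀ x i, T x i = inner ℝ x (a i) := by
    intro x i
    simp [T, real_inner_comm]
  have h := sg_map_coisom T (fun t => ∑ i, t i • a i) (by
    intro x t
    rw [inner_sum, PiLp.inner_apply]
    refine Finset.sum_congr rfl fun i _ => ?_
    rw [hT, inner_smul_right]
    simp) (by
    intro t
    have h1 : ‖∑ i, t i • a i‖ ^ 2 = ‖t‖ ^ 2 := by
      rw [← real_inner_self_eq_norm_sq, ha.inner_sum, EuclideanSpace.real_norm_sq_eq]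
      simp [pow_two]
    have h2 : ‖∑ i, t i • a i‖ = √(‖t‖ ^ 2) := by rw [← h1, Real.sqrt_sq (norm_nonneg _)]
    rw [h2, Real.sqrt_sq (norm_nonneg _)])
  have h3 : (fun (x : E) (i : Fin m) => inner ℝ x (a i)) = (WithLp.ofLp : EuclideanSpace ℝ (Fin m) → _) ∘ T := by
    ext x i
    rw [Function.comp_apply, hT]
  rw [h3, ← Measure.map_map (by fun_prop) (by fun_prop), h, ← map_pi_eq_stdGaussian,
    Measure.map_map (by fun_prop) (by fun_prop)]
  have : (WithLp.ofLp ∘ WithLp.toLp 2 : (Fin m → ℝ) → (Fin m → ℝ)) = id := by ext; simp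
  rw [this, Measure.map_id]

theorem sg_map_two (e1 e2 : E) (h1 : ‖e1‖ = 1) (h2 : ‖e2‖ = 1) (h12 : inner ℝ e1 e2 = 0) :
    (stdGaussian E).map (fun x => ((inner ℝ x e1 : ℝ), (inner ℝ x e2 : ℝ))) = g1.prod g1 := by
  have ha : Orthonormal ℝ ![e1, e2] := by
    rw [orthonormal_iff_ite]
    intro i j
    fin_cases i <;> fin_cases j <;> simp [h1, h2, h12, real_inner_comm e1 e2]
  have h := sg_map_coords _ ha
  have h3 : (fun x : E => ((inner ℝ x e1 : ℝ), (inner ℝ x e2 : ℝ))) =
      (MeasurableEquiv.finTwoArrow (α := ℝ)) ∘ (fun (x : E) (i : Fin 2) => inner ℝ x (![e1, e2] i)) := by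
    ext x <;> simp [MeasurableEquiv.finTwoArrow]
  rw [h3, ← Measure.map_map (by fun_prop) (by fun_prop), h]
  exact (measurePreserving_finTwoArrow g1).map_eq

theorem sg_map_three (u e1 e2 : E) (hu : ‖u‖ = 1) (h1 : ‖e1‖ = 1) (h2 : ‖e2‖ = 1)
    (hu1 : inner ℝ u e1 = 0) (hu2 : inner ℝ u e2 = 0) (h12 : inner ℝ e1 e2 = 0) :
    (stdGaussian E).map (fun x => ((inner ℝ x u : ℝ), ((inner ℝ x e1 : ℝ), (inner ℝ x e2 : ℝ)))) =
      g1.prod (g1.prod g1) := by
  have h1u : inner ℝ e1 u = 0 := by rw [real_inner_comm]; exact hu1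
  have h2u : inner ℝ e2 u = 0 := by rw [real_inner_comm]; exact hu2
  have h21 : inner ℝ e2 e1 = 0 := by rw [real_inner_comm]; exact h12
  have ha : Orthonormal ℝ ![u, e1, e2] := by
    rw [orthonormal_iff_ite]
    intro i j
    fin_cases i <;> fin_cases j <;>
      simp [hu, h1, h2, h12, hu1, hu2, h1u, h2u, h21]
  have h := sg_map_coords _ ha
  have hA := (measurePreserving_piFinSuccAbove (fun _ : Fin 3 => g1) 0)
  have hB : MeasurePreserving (Prod.map id (MeasurableEquiv.finTwoArrow (α := ℝ)))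
      (g1.prod (Measure.pi fun _ : Fin 2 => g1)) (g1.prod (g1.prod g1)) :=
    (MeasurePreserving.id g1).prod (measurePreserving_finTwoArrow g1)
  have h3 : (fun x : E => ((inner ℝ x u : ℝ), ((inner ℝ x e1 : ℝ), (inner ℝ x e2 : ℝ)))) =
      (Prod.map id (MeasurableEquiv.finTwoArrow (α := ℝ))) ∘
      (MeasurableEquiv.piFinSuccAbove (fun _ : Fin 3 => ℝ) 0) ∘
      (fun (x : E) (i : Fin 3) => inner ℝ x (![u, e1, e2] i)) := by
    ext x
    · simp [MeasurableEquiv.piFinSuccAbove]
    · simp [MeasurableEquiv.piFinSuccAbove, MeasurableEquiv.finTwoArrow, Fin.tail]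
    · simp [MeasurableEquiv.piFinSuccAbove, MeasurableEquiv.finTwoArrow, Fin.tail]
  have hm1 : Measurable (fun (x : E) (i : Fin 3) => (inner ℝ x (![u, e1, e2] i) : ℝ)) := by fun_prop
  rw [h3, ← Measure.map_map hB.measurable ((MeasurableEquiv.measurable _).comp hm1),
    ← Measure.map_map (MeasurableEquiv.measurable _) hm1, h, hA.map_eq]
  exact hB.map_eq

/-- invariance under `x ↦ -x` -/
theorem sg_map_neg : (stdGaussian E).map (fun x => -x) = stdGaussian E := by
  have := stdGaussian_map (E := E) (LinearIsometryEquiv.neg ℝ)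
  exact this

theorem sg_integral_neg {F : Type*} [NormedAddCommGroup F] [NormedSpace ℝ F] (f : E → F) :
    ∫ x, f (-x) ∂(stdGaussian E) = ∫ x, f x ∂(stdGaussian E) := by
  have h : MeasurePreserving (fun x : E => -x) (stdGaussian E) (stdGaussian E) :=
    ⟨measurable_neg, sg_map_neg⟩
  exact h.integral_comp (MeasurableEquiv.neg E).measurableEmbedding f

/-- replacement of the coordinate along `u` by an independent one -/
theorem sg_replace (u : E) (hu : ‖u‖ = 1) :
    ((stdGaussian E).prod g1).map (fun p => p.1 - (inner ℝ p.1 u : ℝ) • u + p.2 • u) =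
      stdGaussian E := by
  have hm : Measurable (fun p : E × ℝ => p.1 - (inner ℝ p.1 u : ℝ) • u + p.2 • u) := by fun_prop
  have : IsProbabilityMeasure (((stdGaussian E).prod g1).map
      (fun p => p.1 - (inner ℝ p.1 u : ℝ) • u + p.2 • u)) :=
    Measure.isProbabilityMeasure_map hm.aemeasurable
  apply Measure.ext_of_charFun
  ext t
  rw [charFun_apply, integral_map hm.aemeasurable (by fun_prop)]
  have h1 : ∀ p : E × ℝ, Complex.exp ((inner ℝ (p.1 - (inner ℝ p.1 u : ℝ) • u + p.2 • u) t : ℝ) * Complex.I)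
      = Complex.exp ((inner ℝ p.1 (t - (inner ℝ u t : ℝ) • u) : ℝ) * Complex.I) *
        Complex.exp ((inner ℝ p.2 (inner ℝ u t : ℝ) : ℝ) * Complex.I) := by
    intro p
    rw [← Complex.exp_add, ← add_mul, ← Complex.ofReal_add]
    congr 3
    rw [inner_add_left, inner_sub_left, inner_smul_left, inner_smul_left, inner_sub_right,
      inner_smul_right]
    simp
    ring
  simp_rw [h1]
  rw [integral_prod_mul (f := fun x : E => Complex.exp ((inner ℝ x (t - (inner ℝ u t : ℝ) • u) : ℝ) * Complex.I))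
    (g := fun s : ℝ => Complex.exp ((inner ℝ s (inner ℝ u t : ℝ) : ℝ) * Complex.I)),
    ← charFun_apply, ← charFun_apply, charFun_stdGaussian, charFun_gaussianReal, charFun_stdGaussian,
    ← Complex.exp_add]
  congr 1
  have h2 : ‖t - (inner ℝ u t : ℝ) • u‖ ^ 2 = ‖t‖ ^ 2 - (inner ℝ u t) ^ 2 := by
    rw [norm_sub_sq_real, norm_smul, inner_smul_right, hu, real_inner_comm]
    simp
    ring
  have h3 : ((‖t - (inner ℝ u t : ℝ) • u‖ : ℂ)) ^ 2 = (‖t‖ : ℂ) ^ 2 - ((inner ℝ u t : ℝ) : ℂ) ^ 2 := by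
    exact_mod_cast h2
  rw [h3]
  push_cast
  ring

theorem sg_integral_replace {F : Type*} [NormedAddCommGroup F] [NormedSpace ℝ F] (u : E)
    (hu : ‖u‖ = 1) (f : E → F) (hf : Integrable f (stdGaussian E)) :
    ∫ x, f x ∂(stdGaussian E) =
      ∫ x, ∫ s, f (x - (inner ℝ x u : ℝ) • u + s • u) ∂g1 ∂(stdGaussian E) := by
  have hm : Measurable (fun p : E × ℝ => p.1 - (inner ℝ p.1 u : ℝ) • u + p.2 • u) := by fun_prop
  have hmp : MeasurePreserving (fun p : E × ℝ => p.1 - (inner ℝ p.1 u : ℝ) • u + p.2 • u)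
      ((stdGaussian E).prod g1) (stdGaussian E) := ⟨hm, sg_replace u hu⟩
  have h1 : Integrable (fun p : E × ℝ => f (p.1 - (inner ℝ p.1 u : ℝ) • u + p.2 • u))
      ((stdGaussian E).prod g1) := hmp.integrable_comp_of_integrable hf
  rw [← integral_prod (f := fun p : E × ℝ => f (p.1 - (inner ℝ p.1 u : ℝ) • u + p.2 • u)) h1]
  conv_lhs => rw [← hmp.map_eq]
  rw [integral_map hm.aemeasurable (by rw [hmp.map_eq]; exact hf.aestronglyMeasurable)]

/-- hyperplanes are null -/
theorem sg_null (v : E) (hv : v ≠ 0) (t : ℝ) : stdGaussian E {x | inner ℝ x v = t} = 0 := by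
  have h := sg_map_inner v
  have h1 : ‖v‖₊ ^ 2 ≠ 0 := by simpa using hv
  have h2 : NullSingletonClass (gaussianReal 0 (‖v‖₊ ^ 2)) := nullSingletonClass_gaussianReal h1
  have h3 : (stdGaussian E).map (fun x => inner ℝ x v) {t} = 0 := by
    rw [h]; exact measure_singleton t
  rw [Measure.map_apply (by fun_prop) (measurableSet_singleton t)] at h3
  exact h3

theorem sg_integrable_norm_pow (n : ℕ) : Integrable (fun x : E => ‖x‖ ^ n) (stdGaussian E) := by
  rcases Nat.eq_zero_or_pos n with rfl | hn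
  · simp
  · have := (IsGaussian.memLp_id (stdGaussian E) n (by simp)).integrable_norm_pow hn.ne'
    simpa using this

theorem sg_integrable_norm : Integrable (fun x : E => ‖x‖) (stdGaussian E) := by
  simpa using sg_integrable_norm_pow (E := E) 1

theorem sg_integrable_id : Integrable (fun x : E => x) (stdGaussian E) := by
  have := IsGaussian.integrable_id (μ := stdGaussian E)
  exact this

theorem sg_integrable_inner (v : E) : Integrable (fun x : E => (inner ℝ x v : ℝ)) (stdGaussian E) := by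
  refine (sg_integrable_norm.mul_const ‖v‖).mono' (by fun_prop) (ae_of_all _ fun x => ?_)
  exact abs_real_inner_le_norm x v

theorem sg_integral_inner (v : E) : ∫ x : E, (inner ℝ x v : ℝ) ∂(stdGaussian E) = 0 := by
  have h := sg_integral_neg (fun x : E => (inner ℝ x v : ℝ))
  simp only [inner_neg_left, integral_neg] at h
  linarith

/-- the moment of a set paired with a vector -/
theorem sg_inner_setIntegral (v : E) (A : Set E) :
    inner ℝ v (∫ x in A, x ∂(stdGaussian E)) = ∫ x in A, (inner ℝ x v : ℝ) ∂(stdGaussian E) := by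
  rw [← integral_inner (sg_integrable_id.integrableOn)]
  refine integral_congr_ae (ae_of_all _ fun x => ?_)
  exact real_inner_comm _ _

end G

/-! ### `mx` -/

section M

variable {s t : Finset ℕ} {z w : ℕ → E} {x : E}

theorem mx_eq (h : s.Nonempty) : mx s z x = s.sup' h (fun i => (inner ℝ x (z i) : ℝ)) := by
  simp [mx, h]

theorem mx_empty (z : ℕ → E) (x : E) : mx ∅ z x = 0 := by simp [mx]

theorem inner_le_mx {i : ℕ} (hi : i ∈ s) : (inner ℝ x (z i) : ℝ) ≤ mx s z x := by
  rw [mx_eq ⟨i, hi⟩]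
  exact Finset.le_sup' (fun i => (inner ℝ x (z i) : ℝ)) hi

theorem mx_le_iff (h : s.Nonempty) {a : ℝ} : mx s z x ≤ a ↔ ∀ i ∈ s, (inner ℝ x (z i) : ℝ) ≤ a := by
  rw [mx_eq h]; exact Finset.sup'_le_iff h _

theorem mx_lt_iff (h : s.Nonempty) {a : ℝ} : mx s z x < a ↔ ∀ i ∈ s, (inner ℝ x (z i) : ℝ) < a := by
  rw [mx_eq h]; exact Finset.sup'_lt_iff h

theorem le_mx_iff (h : s.Nonempty) {a : ℝ} : a ≤ mx s z x ↔ ∃ i ∈ s, a ≤ (inner ℝ x (z i) : ℝ) := by
  rw [mx_eq h]; exact Finset.le_sup'_iff h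

theorem lt_mx_iff (h : s.Nonempty) {a : ℝ} : a < mx s z x ↔ ∃ i ∈ s, a < (inner ℝ x (z i) : ℝ) := by
  rw [mx_eq h]; exact Finset.lt_sup'_iff h

theorem exists_mx (h : s.Nonempty) (z : ℕ → E) (x : E) :
    ∃ i ∈ s, mx s z x = (inner ℝ x (z i) : ℝ) := by
  rw [mx_eq h]
  exact Finset.exists_mem_eq_sup' h _

theorem mx_congr (h : ∀ i ∈ s, z i = w i) (x : E) : mx s z x = mx s w x := by
  rcases s.eq_empty_or_nonempty with rfl | hs
  · rw [mx_empty, mx_empty]
  · rw [mx_eq hs, mx_eq hs]
    exact Finset.sup'_congr hs rfl fun i hi => by rw [h i hi]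

theorem mx_singleton (i : ℕ) (z : ℕ → E) (x : E) : mx {i} z x = inner ℝ x (z i) := by
  rw [mx_eq (Finset.singleton_nonempty i)]; simp

theorem mx_union (hs : s.Nonempty) (ht : t.Nonempty) (z : ℕ → E) (x : E) :
    mx (s ∪ t) z x = max (mx s z x) (mx t z x) := by
  rw [mx_eq hs, mx_eq ht, mx_eq (hs.mono Finset.subset_union_left)]
  exact Finset.sup'_union hs ht _

theorem mx_insert (i : ℕ) (hs : s.Nonempty) (z : ℕ → E) (x : E) :
    mx (insert i s) z x = max (inner ℝ x (z i)) (mx s z x) := by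
  rw [Finset.insert_eq, mx_union (Finset.singleton_nonempty i) hs, mx_singleton]

theorem mx_pair (a b : ℕ) (z : ℕ → E) (x : E) :
    mx {a, b} z x = max (inner ℝ x (z a)) (inner ℝ x (z b)) := by
  rw [mx_insert a (Finset.singleton_nonempty b), mx_singleton]

theorem mx_mono (hs : s.Nonempty) (hst : s ⊆ t) (z : ℕ → E) (x : E) : mx s z x ≤ mx t z x :=
  (mx_le_iff hs).2 fun _ hi => inner_le_mx (hst hi)

/-- splitting off a subset -/
theorem mx_split {J : Finset ℕ} (hJ : J.Nonempty) (hJs : J ⊆ s) (hR : (s \ J).Nonempty)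
    (z : ℕ → E) (x : E) : mx s z x = mx J z x + max (mx (s \ J) z x - mx J z x) 0 := by
  have h : mx s z x = max (mx J z x) (mx (s \ J) z x) := by
    rw [← mx_union hJ hR, Finset.union_sdiff_of_subset hJs]
  rw [h]
  rcases le_total (mx J z x) (mx (s \ J) z x) with h1 | h1
  · rw [max_eq_right h1, max_eq_left (by linarith)]; ring
  · rw [max_eq_left h1, max_eq_right (by linarith)]; ring

theorem mx_add_const (hs : s.Nonempty) (z : ℕ → E) (c x : E) :
    mx s (fun i => z i + c) x = mx s z x + inner ℝ x c := by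
  apply le_antisymm
  · rw [mx_le_iff hs]
    intro i hi
    rw [inner_add_right]
    linarith [inner_le_mx (z := z) (x := x) hi]
  · obtain ⟨i, hi, h⟩ := exists_mx hs z x
    rw [h, ← inner_add_right]
    exact inner_le_mx (z := fun i => z i + c) hi

theorem mx_sub_const (hs : s.Nonempty) (z : ℕ → E) (c x : E) :
    mx s (fun i => z i - c) x = mx s z x - inner ℝ x c := by
  have := mx_add_const hs z (-c) x
  simp only [inner_neg_right] at this
  simpa [sub_eq_add_neg] using this

theorem mx_smul {c : ℝ} (hc : 0 ≤ c) (s : Finset ℕ) (z : ℕ → E) (x : E) :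
    mx s (fun i => c • z i) x = c * mx s z x := by
  rcases s.eq_empty_or_nonempty with rfl | hs
  · simp [mx_empty]
  apply le_antisymm
  · rw [mx_le_iff hs]
    intro i hi
    rw [inner_smul_right]
    exact mul_le_mul_of_nonneg_left (inner_le_mx hi) hc
  · obtain ⟨i, hi, h⟩ := exists_mx hs z x
    rw [h, ← inner_smul_right]
    exact inner_le_mx (z := fun i => c • z i) hi

theorem mx_smul_right {c : ℝ} (hc : 0 ≤ c) (s : Finset ℕ) (z : ℕ → E) (x : E) :
    mx s z (c • x) = c * mx s z x := by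
  rw [← mx_smul hc]
  rcases s.eq_empty_or_nonempty with rfl | hs
  · simp [mx_empty]
  · rw [mx_eq hs, mx_eq hs]
    exact Finset.sup'_congr hs rfl fun i _ => by
      rw [inner_smul_left, inner_smul_right]; simp

theorem mx_nonneg_of_sum (h : ∑ i ∈ s, z i = 0) (x : E) : 0 ≤ mx s z x := by
  rcases s.eq_empty_or_nonempty with rfl | hs
  · simp [mx_empty]
  by_contra hlt
  push Not at hlt
  have h1 : ∑ i ∈ s, (inner ℝ x (z i) : ℝ) < 0 := by
    apply Finset.sum_neg
    · intro i hi; exact lt_of_le_of_lt (inner_le_mx hi) hlt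
    · exact hs
  rw [← inner_sum, h, inner_zero_right] at h1
  exact lt_irrefl _ h1

theorem abs_mx_sub_le (s : Finset ℕ) (z w : ℕ → E) (x : E) :
    |mx s z x - mx s w x| ≤ ‖x‖ * ∑ i ∈ s, ‖z i - w i‖ := by
  rcases s.eq_empty_or_nonempty with rfl | hs
  · simp [mx_empty]
  have key : ∀ z w : ℕ → E, mx s z x ≤ mx s w x + ‖x‖ * ∑ i ∈ s, ‖z i - w i‖ := by
    intro z w
    rw [mx_le_iff hs]
    intro i hi
    have h1 : (inner ℝ x (z i) : ℝ) = inner ℝ x (w i) + inner ℝ x (z i - w i) := by
      rw [inner_sub_right]; ring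
    have h2 : (inner ℝ x (z i - w i) : ℝ) ≤ ‖x‖ * ‖z i - w i‖ := real_inner_le_norm _ _
    have h3 : ‖z i - w i‖ ≤ ∑ i ∈ s, ‖z i - w i‖ :=
      Finset.single_le_sum (f := fun i => ‖z i - w i‖) (fun _ _ => norm_nonneg _) hi
    have h4 := mul_le_mul_of_nonneg_left h3 (norm_nonneg x)
    rw [h1]
    linarith [inner_le_mx (z := w) (x := x) hi]
  rw [abs_le]
  constructor
  · have := key w z
    have h5 : ∑ i ∈ s, ‖w i - z i‖ = ∑ i ∈ s, ‖z i - w i‖ :=
      Finset.sum_congr rfl fun i _ => norm_sub_rev _ _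
    rw [h5] at this
    linarith
  · linarith [key z w]

theorem abs_mx_le (s : Finset ℕ) (z : ℕ → E) (x : E) : |mx s z x| ≤ ‖x‖ * ∑ i ∈ s, ‖z i‖ := by
  have h := abs_mx_sub_le s z (fun _ => 0) x
  have h0 : mx s (fun _ => (0 : E)) x = 0 := by
    rcases s.eq_empty_or_nonempty with rfl | hs
    · exact mx_empty _ _
    · obtain ⟨i, _, h⟩ := exists_mx hs (fun _ => (0 : E)) x
      rw [h, inner_zero_right]
  simpa [h0] using h

theorem continuous_mx (s : Finset ℕ) (z : ℕ → E) : Continuous (mx s z) := by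
  rcases s.eq_empty_or_nonempty with rfl | hs
  · have : mx ∅ z = fun _ => 0 := by ext x; exact mx_empty z x
    rw [this]; exact continuous_const
  · have : mx s z = fun x => s.sup' hs (fun i => (inner ℝ x (z i) : ℝ)) := by
      ext x; exact mx_eq hs
    rw [this]
    exact Continuous.finset_sup'_apply hs fun i _ => by fun_prop

theorem mem_cell {i : ℕ} : x ∈ cell s z i ↔ ∀ j ∈ s, (inner ℝ x (z j) : ℝ) ≤ inner ℝ x (z i) := Iff.rfl

theorem mem_cell_iff {i : ℕ} (hi : i ∈ s) : x ∈ cell s z i ↔ mx s z x = inner ℝ x (z i) := by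
  rw [mem_cell]
  constructor
  · intro h
    exact le_antisymm ((mx_le_iff ⟨i, hi⟩).2 h) (inner_le_mx hi)
  · intro h j hj
    rw [← h]; exact inner_le_mx hj

theorem mx_of_mem_cell {i : ℕ} (hi : i ∈ s) (hx : x ∈ cell s z i) : mx s z x = inner ℝ x (z i) :=
  (mem_cell_iff hi).1 hx

theorem exists_mem_cell (hs : s.Nonempty) (z : ℕ → E) (x : E) : ∃ i ∈ s, x ∈ cell s z i := by
  obtain ⟨i, hi, h⟩ := exists_mx hs z x
  exact ⟨i, hi, (mem_cell_iff hi).2 h⟩

theorem isClosed_cell (s : Finset ℕ) (z : ℕ → E) (i : ℕ) : IsClosed (cell s z i) := by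
  have : cell s z i = ⋂ j ∈ s, {x | (inner ℝ x (z j) : ℝ) ≤ inner ℝ x (z i)} := by
    ext x; simp [cell]
  rw [this]
  exact isClosed_biInter fun j _ => isClosed_le (by fun_prop) (by fun_prop)

theorem cell_smul {i : ℕ} {c : ℝ} (hc : 0 ≤ c) (hx : x ∈ cell s z i) : c • x ∈ cell s z i := by
  intro j hj
  rw [inner_smul_left, inner_smul_left]
  exact mul_le_mul_of_nonneg_left (hx j hj) (by simpa using hc)

end M

section M2

variable [FiniteDimensional ℝ E] [MeasurableSpace E] [BorelSpace E]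
variable {s t : Finset ℕ} {z w : ℕ → E} {x : E}

theorem measurable_mx (s : Finset ℕ) (z : ℕ → E) : Measurable (mx s z) :=
  (continuous_mx s z).measurable

theorem measurableSet_cell (s : Finset ℕ) (z : ℕ → E) (i : ℕ) : MeasurableSet (cell s z i) :=
  (isClosed_cell s z i).measurableSet

theorem integrable_mx (s : Finset ℕ) (z : ℕ → E) : Integrable (mx s z) (stdGaussian E) := by
  refine (sg_integrable_norm.mul_const (∑ i ∈ s, ‖z i‖)).mono'
    (continuous_mx s z).aestronglyMeasurable (ae_of_all _ fun x => ?_)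
  exact abs_mx_le s z x

theorem em_empty (z : ℕ → E) : em ∅ z = 0 := by simp [em, mx_empty]

theorem em_congr (h : ∀ i ∈ s, z i = w i) : em s z = em s w := by
  unfold em
  exact integral_congr_ae (ae_of_all _ fun x => mx_congr h x)

theorem em_singleton (i : ℕ) (z : ℕ → E) : em {i} z = 0 := by
  unfold em
  simp_rw [mx_singleton]
  exact sg_integral_inner _

theorem em_add_const (s : Finset ℕ) (z : ℕ → E) (c : E) : em s (fun i => z i + c) = em s z := by
  rcases s.eq_empty_or_nonempty with rfl | hs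
  · rw [em_empty, em_empty]
  unfold em
  simp_rw [mx_add_const hs]
  rw [integral_add (integrable_mx s z) (sg_integrable_inner c), sg_integral_inner, add_zero]

theorem em_sub_const (s : Finset ℕ) (z : ℕ → E) (c : E) : em s (fun i => z i - c) = em s z := by
  have := em_add_const s z (-c)
  simpa [sub_eq_add_neg] using this

theorem em_smul {c : ℝ} (hc : 0 ≤ c) (s : Finset ℕ) (z : ℕ → E) :
    em s (fun i => c • z i) = c * em s z := by
  unfold em
  simp_rw [mx_smul hc]
  rw [integral_const_mul]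

theorem em_nonneg (s : Finset ℕ) (z : ℕ → E) : 0 ≤ em s z := by
  rcases s.eq_empty_or_nonempty with rfl | ⟨i, hi⟩
  · rw [em_empty]
  rw [← sg_integral_inner (z i)]
  exact integral_mono (sg_integrable_inner _) (integrable_mx s z) fun x => inner_le_mx hi

theorem em_mono (hst : s ⊆ t) (z : ℕ → E) : em s z ≤ em t z := by
  rcases s.eq_empty_or_nonempty with rfl | hs
  · rw [em_empty]; exact em_nonneg t z
  exact integral_mono (integrable_mx s z) (integrable_mx t z) fun x => mx_mono hs hst z x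

theorem abs_em_sub_le (s : Finset ℕ) (z w : ℕ → E) :
    |em s z - em s w| ≤ (∫ x, ‖x‖ ∂(stdGaussian E)) * ∑ i ∈ s, ‖z i - w i‖ := by
  unfold em
  rw [← integral_sub (integrable_mx s z) (integrable_mx s w), ← integral_mul_const]
  refine (abs_integral_le_integral_abs).trans ?_
  exact integral_mono ((integrable_mx s z).sub (integrable_mx s w)).abs
    (sg_integrable_norm.mul_const _) fun x => abs_mx_sub_le s z w x

/-- splitting off a subset -/
theorem em_split {J : Finset ℕ} (hJ : J.Nonempty) (hJs : J ⊆ s) (hR : (s \ J).Nonempty) (z : ℕ → E) :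
    em s z = em J z + ∫ x, max (mx (s \ J) z x - mx J z x) 0 ∂(stdGaussian E) := by
  unfold em
  have hi : Integrable (fun x => max (mx (s \ J) z x - mx J z x) 0) (stdGaussian E) :=
    ((integrable_mx (s \ J) z).sub (integrable_mx J z)).pos_part
  rw [← integral_add (integrable_mx J z) hi]
  exact integral_congr_ae (ae_of_all _ fun x => mx_split hJ hJs hR z x)

theorem integrable_Lam (J : Finset ℕ) (t : ℕ → E) (y : E) :
    Integrable (fun x => max ((inner ℝ x y : ℝ) - mx J t x) 0) (stdGaussian E) :=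
  ((sg_integrable_inner y).sub (integrable_mx J t)).pos_part

theorem Lam_nonneg (J : Finset ℕ) (t : ℕ → E) (y : E) : 0 ≤ Lam J t y :=
  integral_nonneg fun _ => le_max_right _ _

/-- splitting of an integral over the cells (null ties) -/
theorem integral_eq_sum_cell {F : Type*} [NormedAddCommGroup F] [NormedSpace ℝ F] (hs : s.Nonempty)
    (tie : ∀ i ∈ s, ∀ j ∈ s, i ≠ j → stdGaussian E (cell s z i ∩ cell s z j) = 0)
    (f : E → F) (hf : Integrable f (stdGaussian E)) :
    ∫ x, f x ∂(stdGaussian E) = ∑ i ∈ s, ∫ x in cell s z i, f x ∂(stdGaussian E) := by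
  classical
  let B : ℕ → Set E := fun i => cell s z i \ ⋃ j ∈ s.erase i, cell s z j
  have hB : ∀ i ∈ s, B i =ᵐ[stdGaussian E] cell s z i := by
    intro i hi
    have h0 : stdGaussian E (cell s z i ∩ ⋃ j ∈ s.erase i, cell s z j) = 0 := by
      rw [Set.inter_iUnion₂]
      refine (measure_biUnion_null_iff (Finset.countable_toSet _)).2 fun j hj => ?_
      exact tie i hi j (Finset.mem_of_mem_erase hj) (Finset.ne_of_mem_erase hj).symm
    exact sdiff_ae_eq_self.2 (by rw [Set.inter_comm] at h0; rw [Set.inter_comm]; exact h0)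
  have hBm : ∀ i ∈ s, MeasurableSet (B i) := fun i _ =>
    MeasurableSet.diff (measurableSet_cell s z i)
      (Finset.measurableSet_biUnion _ fun j _ => measurableSet_cell s z j)
  have hBd : (s : Set ℕ).Pairwise (Function.onFun Disjoint B) := by
    intro i hi j hj hij
    rw [Function.onFun, Set.disjoint_left]
    intro x hxi hxj
    exact hxi.2 (Set.mem_biUnion (Finset.mem_erase.2 ⟨hij.symm, hj⟩) hxj.1)
  have hcov : (⋃ i ∈ s, B i) =ᵐ[stdGaussian E] (Set.univ : Set E) := by
    have h1 : ∀ᵐ x ∂(stdGaussian E), ∀ i ∈ s, (x ∈ B i ↔ x ∈ cell s z i) := by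
      refine (ae_ball_iff (Finset.countable_toSet s)).2 fun i hi => ?_
      filter_upwards [hB i hi] with x hx
      exact Iff.of_eq hx
    filter_upwards [h1] with x hx
    apply propext
    refine ⟨fun _ => Set.mem_univ x, fun _ => ?_⟩
    obtain ⟨i, hi, h⟩ := exists_mem_cell hs z x
    exact Set.mem_biUnion hi ((hx i hi).2 h)
  rw [← setIntegral_univ, ← setIntegral_congr_set hcov,
    integral_biUnion_finset s hBm hBd (fun i _ => hf.integrableOn)]
  exact Finset.sum_congr rfl fun i hi => setIntegral_congr_set (hB i hi)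

theorem sum_mass (hs : s.Nonempty)
    (tie : ∀ i ∈ s, ∀ j ∈ s, i ≠ j → stdGaussian E (cell s z i ∩ cell s z j) = 0) :
    ∑ i ∈ s, mass s z i = 1 := by
  have h := integral_eq_sum_cell hs tie (fun _ : E => (1 : ℝ)) (integrable_const _)
  simp only [integral_const, smul_eq_mul, mul_one, measureReal_restrict_apply_univ] at h
  unfold mass
  rw [← h]
  simp

end M2

end Crest.Agent.R215
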