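import Crest.Agent.R215.Lib1
import Crest.Agent.R215.LibG

/-! Row 215, task LI: bound of the loss when one vector is removed. -/

set_option autoImplicit false

open MeasureTheory ProbabilityTheory Set Filter Topology

noncomputable section

namespace Crest.Agent.R215

universe u v

namespace LI

/-- `∫_0^∞ Ph(τ + t/c) dt = c (ph τ - τ Ph τ)` -/
theorem int_Ph {c τ : ℝ} (hc : 0 < c) :
    IntegrableOn (fun t => Ph (τ + t / c)) (Ioi 0) ∧
      ∫ t in Ioi (0:ℝ), Ph (τ + t / c) = c * (ph τ - τ * Ph τ) := by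
  have hder : ∀ x ∈ Ici (0:ℝ), HasDerivAt
      (fun t => -(c * (ph (τ + t / c) - (τ + t / c) * Ph (τ + t / c)))) (Ph (τ + x / c)) x := by
    intro x _
    have h1 : HasDerivAt (fun t : ℝ => τ + t / c) (1 / c) x := by
      simpa using ((hasDerivAt_id x).div_const c).const_add τ
    have h2 := ((hasDerivAt_L (τ + x / c)).comp x h1).const_mul c |>.neg
    refine h2.congr_deriv ?_
    field_simp
  have hlim : Tendsto (fun t => -(c * (ph (τ + t / c) - (τ + t / c) * Ph (τ + t / c)))) atTop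
      (𝓝 0) := by
    have h1 : Tendsto (fun t : ℝ => τ + t / c) atTop atTop :=
      tendsto_atTop_add_const_left _ _ (tendsto_id.atTop_div_const hc)
    have h2 := (L_tendsto_atTop.comp h1).const_mul c |>.neg
    simpa [Function.comp_def] using h2
  refine ⟨integrableOn_Ioi_deriv_of_nonneg' hder (fun x _ => (Ph_pos _).le) hlim, ?_⟩
  rw [integral_Ioi_of_hasDerivAt_of_nonneg' hder (fun x _ => (Ph_pos _).le) hlim]
  simp

/-- second order Taylor bound for `exp`. -/
theorem exp_le (u : ℝ) : Real.exp u ≤ 1 + u + u ^ 2 * Real.exp |u| := by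
  have h1 : Real.exp u * (1 - u) ≤ 1 := by
    have := mul_le_mul_of_nonneg_left (Real.add_one_le_exp (-u)) (Real.exp_pos u).le
    rw [← Real.exp_add] at this
    simp at this
    linarith
  have h2 : Real.exp u - 1 - u ≤ u * (Real.exp u - 1) := by linarith
  rcases le_total 0 u with hu | hu
  · rw [abs_of_nonneg hu]
    have : u * (Real.exp u - 1) ≤ u * (u * Real.exp u) :=
      mul_le_mul_of_nonneg_left (by linarith) hu
    nlinarith
  · have h3 : 1 ≤ Real.exp |u| := Real.one_le_exp (abs_nonneg u)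
    have h4 := Real.add_one_le_exp u
    nlinarith [mul_nonneg (sq_nonneg u) (sub_nonneg.2 h3)]

theorem sq_mul_exp_le (w : ℝ) (hw : 0 ≤ w) : w ^ 2 * Real.exp w ≤ 2 * Real.exp (2 * w) := by
  have h := Real.quadratic_le_exp_of_nonneg hw
  have h2 : Real.exp (2 * w) = Real.exp w * Real.exp w := by rw [← Real.exp_add]; ring_nf
  rw [h2]
  nlinarith [Real.exp_pos w, mul_pos (Real.exp_pos w) (Real.exp_pos w)]

theorem exp_abs_le (y : ℝ) : Real.exp |y| ≤ Real.exp y + Real.exp (-y) := by
  rcases abs_cases y with ⟨h, _⟩ | ⟨h, _⟩ <;> rw [h]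
  · linarith [Real.exp_pos (-y)]
  · linarith [Real.exp_pos y]

theorem taylor (h y n : ℝ) (h0 : 0 ≤ h) (h1 : h ≤ 1) (hn : 0 ≤ n) :
    Real.exp (-(h * y) - h ^ 2 * n / 2) ≤
      1 - h * y + h ^ 2 * (2 * Real.exp n * (Real.exp (2 * y) + Real.exp (-(2 * y)))) := by
  set u := -(h * y) - h ^ 2 * n / 2 with hu
  have e1 := exp_le u
  have e2 : |u| ≤ h * (|y| + n / 2) := by
    rw [hu, show -(h * y) - h ^ 2 * n / 2 = -(h * y + h ^ 2 * n / 2) by ring, abs_neg]
    refine (abs_add_le _ _).trans ?_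
    rw [abs_mul, abs_of_nonneg h0, abs_of_nonneg (by positivity : 0 ≤ h ^ 2 * n / 2)]
    nlinarith [mul_nonneg h0 hn]
  have e3 : 0 ≤ |y| + n / 2 := by positivity
  have e4 : |u| ≤ |y| + n / 2 := e2.trans (by nlinarith)
  have e5 : u ^ 2 * Real.exp |u| ≤ h ^ 2 * ((|y| + n / 2) ^ 2 * Real.exp (|y| + n / 2)) := by
    rw [← sq_abs u, ← mul_assoc, ← mul_pow]
    exact mul_le_mul (pow_le_pow_left₀ (abs_nonneg _) e2 2) (Real.exp_le_exp.2 e4)
      (Real.exp_pos _).le (by positivity)
  have e6 := sq_mul_exp_le _ e3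
  have e7 : 2 * Real.exp (2 * (|y| + n / 2)) ≤
      2 * Real.exp n * (Real.exp (2 * y) + Real.exp (-(2 * y))) := by
    rw [show 2 * (|y| + n / 2) = n + |2 * y| by rw [abs_mul, abs_two]; ring, Real.exp_add]
    have := exp_abs_le (2 * y)
    have := Real.exp_pos n
    nlinarith
  have e8 : u ^ 2 * Real.exp |u| ≤ h ^ 2 * (2 * Real.exp n *
      (Real.exp (2 * y) + Real.exp (-(2 * y)))) :=
    e5.trans (mul_le_mul_of_nonneg_left (e6.trans e7) (by positivity))
  have e9 : 0 ≤ h ^ 2 * n / 2 := by positivity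
  linarith

section E

variable {E : Type u} [NormedAddCommGroup E] [InnerProductSpace ℝ E]

theorem mx_insert (K : Finset ℕ) (hK : K.Nonempty) (i : ℕ) (z : ℕ → E) (x : E) :
    mx (insert i K) z x = max (inner ℝ x (z i)) (mx K z x) := by
  unfold mx
  rw [dif_pos (Finset.insert_nonempty _ _), dif_pos hK, Finset.sup'_insert]

theorem mx_le_iff (K : Finset ℕ) (hK : K.Nonempty) (z : ℕ → E) (x : E) (t : ℝ) :
    mx K z x ≤ t ↔ ∀ j ∈ K, inner ℝ x (z j) ≤ t := by
  unfold mx
  rw [dif_pos hK, Finset.sup'_le_iff]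

theorem le_mx (K : Finset ℕ) (z : ℕ → E) (x : E) {j : ℕ} (hj : j ∈ K) :
    inner ℝ x (z j) ≤ mx K z x := (mx_le_iff K ⟨j, hj⟩ z x _).1 le_rfl j hj

theorem exists_mx (K : Finset ℕ) (hK : K.Nonempty) (z : ℕ → E) (x : E) :
    ∃ j ∈ K, mx K z x = inner ℝ x (z j) := by
  unfold mx
  rw [dif_pos hK]
  exact Finset.exists_mem_eq_sup' hK _

theorem continuous_mx (K : Finset ℕ) (z : ℕ → E) : Continuous (mx K z) := by
  by_cases hK : K.Nonempty
  · have : mx K z = fun x => K.sup' hK (fun i => (fun x => inner ℝ x (z i)) x) := by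
      funext x; unfold mx; rw [dif_pos hK]
    rw [this]
    exact Continuous.finset_sup'_apply hK fun i _ => by fun_prop
  · have : mx K z = fun _ => 0 := by
      funext x; unfold mx; rw [dif_neg hK]
    rw [this]; exact continuous_const

theorem abs_mx_le (K : Finset ℕ) (z : ℕ → E) (x : E) :
    |mx K z x| ≤ ‖x‖ * ∑ j ∈ K, ‖z j‖ := by
  by_cases hK : K.Nonempty
  · obtain ⟨j, hj, h⟩ := exists_mx K hK z x
    rw [h]
    refine (abs_real_inner_le_norm _ _).trans (mul_le_mul_of_nonneg_left ?_ (norm_nonneg _))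
    exact Finset.single_le_sum (f := fun j => ‖z j‖) (fun i _ => norm_nonneg _) hj
  · unfold mx; rw [dif_neg hK]; simp; positivity

end E

variable {E : Type u} [NormedAddCommGroup E] [InnerProductSpace ℝ E] [FiniteDimensional ℝ E]
  [MeasurableSpace E] [BorelSpace E]

theorem integrable_mx (K : Finset ℕ) (z : ℕ → E) : Integrable (mx K z) (stdGaussian E) := by
  refine (sg_integrable_norm.mul_const (∑ j ∈ K, ‖z j‖)).mono'
    (continuous_mx K z).aestronglyMeasurable (ae_of_all _ fun x => ?_)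
  exact abs_mx_le K z x

theorem integrable_exp_inner (η : E) (c : ℝ) :
    Integrable (fun x : E => Real.exp (c * inner ℝ x η)) (stdGaussian E) := by
  have h := integrable_exp_mul_gaussianReal (μ := 0) (v := ‖η‖₊ ^ 2) c
  rw [← sg_map_inner η] at h
  exact h.comp_measurable (by fun_prop)

/-- the first order expansion of the mass of a translated cell -/
theorem mass_le (hCM : StCM E) (A : Set E) (hA : MeasurableSet A) (η : E) :
    ∃ C : ℝ, ∀ h : ℝ, 0 ≤ h → h ≤ 1 →
      (stdGaussian E).real {x | x - h • η ∈ A} ≤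
        (stdGaussian E).real A - h * inner ℝ η (∫ x in A, x ∂(stdGaussian E)) + C * h ^ 2 := by
  have hI2 : Integrable (fun x : E => 2 * Real.exp (‖η‖ ^ 2) *
      (Real.exp (2 * inner ℝ x η) + Real.exp (-(2 * inner ℝ x η)))) (stdGaussian E) := by
    refine ((integrable_exp_inner η 2).add ?_).const_mul _
    simpa only [neg_mul] using integrable_exp_inner η (-2)
  refine ⟨∫ x in A, 2 * Real.exp (‖η‖ ^ 2) *
    (Real.exp (2 * inner ℝ x η) + Real.exp (-(2 * inner ℝ x η))) ∂(stdGaussian E), ?_⟩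
  intro h h0 h1
  rw [hCM A (h • η) hA, sg_inner_setIntegral]
  have hc : Integrable (fun _ : E => (1 : ℝ)) ((stdGaussian E).restrict A) := integrable_const _
  have hi : Integrable (fun x : E => (inner ℝ x η : ℝ)) ((stdGaussian E).restrict A) :=
    (sg_integrable_inner η).integrableOn
  have key : ∫ x in A, Real.exp (-(inner ℝ x (h • η)) - ‖h • η‖ ^ 2 / 2) ∂(stdGaussian E) ≤
      ∫ x in A, (1 - h * inner ℝ x η + h ^ 2 * (2 * Real.exp (‖η‖ ^ 2) *
        (Real.exp (2 * inner ℝ x η) + Real.exp (-(2 * inner ℝ x η))))) ∂(stdGaussian E) := by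
    refine integral_mono_of_nonneg (ae_of_all _ fun x => (Real.exp_pos _).le) ?_
      (ae_of_all _ fun x => ?_)
    · exact (hc.sub (hi.const_mul h)).add (hI2.integrableOn.const_mul _)
    · have := taylor h (inner ℝ x η) (‖η‖ ^ 2) h0 h1 (by positivity)
      simp only
      rw [inner_smul_right, norm_smul, Real.norm_eq_abs, abs_of_nonneg h0, mul_pow]
      exact this
  refine key.trans (le_of_eq ?_)
  have h3 : Integrable (fun x : E => (1:ℝ) - h * inner ℝ x η) ((stdGaussian E).restrict A) :=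
    hc.sub (hi.const_mul h)
  rw [integral_add h3 (hI2.integrableOn.const_mul _),
    integral_sub hc (hi.const_mul h), integral_const_mul, integral_const_mul]
  simp [Measure.real]
  ring

theorem ne_of_crit {s : Finset ℕ} {z : ℕ → E} (hcr : Crit s z) {i j : ℕ} (hi : i ∈ s)
    (hj : j ∈ s) (hij : i ≠ j) : z i - z j ≠ 0 := by
  intro h
  have h1 := hcr.neg i hi j hj hij
  rw [sub_eq_zero.1 h, real_inner_self_eq_norm_sq] at h1
  have := sq_nonneg ‖z j‖
  linarith

/-- the tail of the gap function is dominated by a normal tail -/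
theorem tail (hE : StEhE E) (hA : StAff E) (hCM : StCM E) (s : Finset ℕ) (z : ℕ → E) (i : ℕ)
    (τ : ℝ) (hcr : Crit s z) (h2 : 2 ≤ s.card) (hi : i ∈ s) (hτ : Ph τ = mass s z i) (t : ℝ)
    (ht : 0 < t) :
    (stdGaussian E).real {x | ∀ j ∈ s.erase i, t ≤ inner ℝ x (z i - z j)} ≤
      Ph (τ + t / ((s.card / (s.card - 1) : ℝ) * ph τ)) := by
  classical
  set G : ℝ → ℝ := fun t => (stdGaussian E).real {x | ∀ j ∈ s.erase i, t ≤ inner ℝ x (z i - z j)}
    with hG
  set ν : ℝ := ((s.card : ℝ) - 1) / s.card with hν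
  have hk : (2 : ℝ) ≤ s.card := by exact_mod_cast h2
  have hν0 : 0 < ν := by rw [hν]; apply div_pos <;> linarith
  have hcell : cell s z i = {x | ∀ j ∈ s.erase i, 0 ≤ inner ℝ x (z i - z j)} := by
    ext x
    simp only [cell, mem_setOf_eq, Finset.mem_erase, inner_sub_right, sub_nonneg]
    constructor
    · intro h j hj; exact h j hj.2
    · intro h j hj
      by_cases hji : j = i
      · rw [hji]
      · exact h j ⟨hji, hj⟩
  have hG0 : G 0 = Fi (-τ) := by
    rw [← Ph_eq_Fi_neg, hτ]; unfold mass; rw [hcell]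
  have hGanti : ∀ a b, a ≤ b → G b ≤ G a := by
    intro a b hab
    exact measureReal_mono (fun x hx j hj => hab.trans (hx j hj))
  -- the vector η
  obtain ⟨η, hη⟩ := (hA s z hcr).2 i hi
  have hηz : inner ℝ η (z i) = ν := by
    have h3 : ∑ j ∈ s, inner ℝ η (z i - z j) = (s.card : ℝ) * inner ℝ η (z i) := by
      simp_rw [inner_sub_right]
      rw [Finset.sum_sub_distrib, Finset.sum_const, ← inner_sum, hcr.sum0]
      simp
    have h4 : ∑ j ∈ s, inner ℝ η (z i - z j) = (s.card : ℝ) - 1 := by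
      rw [← Finset.add_sum_erase s _ hi, sub_self, inner_zero_right, zero_add,
        Finset.sum_congr rfl (fun j hj => hη j (Finset.mem_of_mem_erase hj)
          (Finset.ne_of_mem_erase hj)), Finset.sum_const, Finset.card_erase_of_mem hi]
      simp [Nat.cast_sub (by omega : 1 ≤ s.card)]
    rw [hν, eq_div_iff (by linarith)]
    linarith
  have hcm : MeasurableSet (cell s z i) := by
    have : cell s z i = ⋂ j ∈ s, {x | inner ℝ x (z j) ≤ inner ℝ x (z i)} := by
      ext x; simp [cell]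
    rw [this]
    exact Finset.measurableSet_biInter _ fun j _ =>
      (isClosed_le (by fun_prop) (by fun_prop)).measurableSet
  have hshift : ∀ h : ℝ, {x : E | x - h • η ∈ cell s z i} =
      {x | ∀ j ∈ s.erase i, h ≤ inner ℝ x (z i - z j)} := by
    intro h
    rw [hcell]
    ext x
    simp only [mem_setOf_eq]
    refine forall₂_congr fun j hj => ?_
    rw [inner_sub_left, inner_smul_left, hη j (Finset.mem_of_mem_erase hj)
      (Finset.ne_of_mem_erase hj)]
    simp
  obtain ⟨C, hC⟩ := mass_le hCM (cell s z i) hcm η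
  have hGle : ∀ h, 0 ≤ h → h ≤ 1 → G h ≤ Fi (-τ) - h * ν + C * h ^ 2 := by
    intro h h0 h1
    have := hC h h0 h1
    rw [hshift, hcr.mom i hi, hηz] at this
    rw [← hG0]
    simp only [hG] at this ⊢
    rw [← hcell]
    exact this
  -- Ehrhard
  have hc : 0 < (s.card / (s.card - 1) : ℝ) * ph τ := mul_pos (div_pos (by linarith)
    (by linarith)) (ph_pos _)
  show G t ≤ _
  rcases (measureReal_nonneg : 0 ≤ G t).eq_or_lt with h0 | h0
  · have h0' : G t = 0 := h0.symm
    rw [h0']; exact (Ph_pos _).le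
  have hlt1 : G t < 1 := (hGanti 0 t ht.le).trans_lt (by rw [hG0]; exact Fi_lt_one _)
  obtain ⟨r1, hr1⟩ := exists_Fi_eq h0 hlt1
  have hEh : ∀ θ : ℝ, 0 ≤ θ → θ ≤ 1 → Fi (-τ + θ * (r1 + τ)) ≤ G (θ * t) := by
    intro θ hθ0 hθ1
    have := hE (s.erase i) (fun j => z i - z j) 0 t (-τ) r1 θ
      (fun j hj => ne_of_crit hcr hi (Finset.mem_of_mem_erase hj) (Finset.ne_of_mem_erase hj).symm)
      hθ0 hθ1 (by rw [← hG0]) (by rw [hr1])
    simp only [mul_zero, zero_add] at this
    convert this using 2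
    ring
  -- differentiate at 0
  have hder : HasDerivAt (fun θ : ℝ => Fi (-τ + θ * (r1 + τ))) (ph τ * (r1 + τ)) 0 := by
    have h1 : HasDerivAt (fun θ : ℝ => -τ + θ * (r1 + τ)) (r1 + τ) 0 := by
      simpa using ((hasDerivAt_id (0:ℝ)).mul_const (r1 + τ)).const_add (-τ)
    have h2 := (hasDerivAt_Fi (-τ + 0 * (r1 + τ))).comp (0:ℝ) h1
    refine h2.congr_deriv ?_
    rw [zero_mul, add_zero, ph_neg]
  have hslope := hder.tendsto_slope_zero_right
  have hrhs : Tendsto (fun θ : ℝ => -(t * ν) + C * t ^ 2 * θ) (𝓝[>] 0) (𝓝 (-(t * ν))) := by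
    have : Continuous (fun θ : ℝ => -(t * ν) + C * t ^ 2 * θ) := by fun_prop
    have h := this.tendsto 0
    simp only [mul_zero, add_zero] at h
    exact h.mono_left nhdsWithin_le_nhds
  have hmain : ph τ * (r1 + τ) ≤ -(t * ν) := by
    refine le_of_tendsto_of_tendsto hslope hrhs ?_
    have hev : ∀ᶠ θ : ℝ in 𝓝[>] 0, θ ∈ Ioo (0:ℝ) (min 1 (1 / t)) :=
      Ioo_mem_nhdsGT (lt_min one_pos (by positivity))
    filter_upwards [hev] with θ hθ
    have hθ1 : θ ≤ 1 := hθ.2.le.trans (min_le_left _ _)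
    have hθt : θ * t ≤ 1 := by
      have := hθ.2.le.trans (min_le_right _ _)
      rwa [le_div_iff₀ ht] at this
    have h3 := (hEh θ hθ.1.le hθ1).trans (hGle (θ * t) (mul_nonneg hθ.1.le ht.le) hθt)
    simp only [zero_add, zero_mul, add_zero, smul_eq_mul]
    rw [inv_mul_le_iff₀ hθ.1]
    nlinarith
  have hr1' : Fi r1 = G t := hr1
  rw [← hr1', Ph_eq_Fi_neg]
  refine Fi_strictMono.monotone ?_
  have hp := ph_pos τ
  have h5 : t / ((s.card / (s.card - 1) : ℝ) * ph τ) = t * ν / ph τ := by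
    rw [hν]
    have : (s.card : ℝ) - 1 ≠ 0 := by linarith
    have : (s.card : ℝ) ≠ 0 := by linarith
    field_simp
  rw [h5]
  have h6 : r1 + τ ≤ -(t * ν) / ph τ := by
    rw [le_div_iff₀ hp]; linarith
  rw [neg_div] at h6
  linarith

end LI

open LI in
theorem li (E : Type u) [NormedAddCommGroup E] [InnerProductSpace ℝ E] [FiniteDimensional ℝ E]
    [MeasurableSpace E] [BorelSpace E] :
    StEhE E → StAff E → StCM E → StHalf E → StLi E := by
  classical
  intro hE hA hCM _ s z i τ hcr h2 hi hτ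
  have hk : (2 : ℝ) ≤ s.card := by exact_mod_cast h2
  have hK : (s.erase i).Nonempty := by
    rw [← Finset.card_pos, Finset.card_erase_of_mem hi]; omega
  have hc : 0 < (s.card / (s.card - 1) : ℝ) * ph τ := mul_pos (div_pos (by linarith)
    (by linarith)) (ph_pos _)
  set c := (s.card / (s.card - 1) : ℝ) * ph τ with hcdef
  have hI : Integrable (fun x => max (inner ℝ x (z i) - mx (s.erase i) z x) 0)
      (stdGaussian E) :=
    ((sg_integrable_inner (z i)).sub (integrable_mx _ z)).sup (integrable_zero _ _ _)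
  have hdiff : em s z - em (s.erase i) z =
      ∫ x, max (inner ℝ x (z i) - mx (s.erase i) z x) 0 ∂(stdGaussian E) := by
    unfold em
    rw [← integral_sub (integrable_mx s z) (integrable_mx _ z)]
    refine integral_congr_ae (ae_of_all _ fun x => ?_)
    have h1 := LI.mx_insert (s.erase i) hK i z x
    rw [Finset.insert_erase hi] at h1
    simp only
    rw [h1, ← max_sub_sub_right, sub_self]
  rw [hdiff, hI.integral_eq_integral_meas_le (ae_of_all _ fun x => le_max_right _ _)]
  obtain ⟨hint, hval⟩ := int_Ph (τ := τ) hc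
  have : (s.card / (s.card - 1) : ℝ) * (ph τ * (ph τ - τ * Ph τ)) = c * (ph τ - τ * Ph τ) := by
    rw [hcdef]; ring
  rw [this, ← hval]
  refine integral_mono_of_nonneg (ae_of_all _ fun _ => measureReal_nonneg) hint ?_
  filter_upwards [ae_restrict_mem measurableSet_Ioi] with t ht
  have ht' : 0 < t := ht
  have h3 := tail hE hA hCM s z i τ hcr h2 hi hτ t ht'
  refine le_trans (le_of_eq ?_) h3
  congr 1
  ext x
  simp only [mem_setOf_eq, le_max_iff, ht'.not_ge, or_false]
  rw [le_sub_comm, LI.mx_le_iff _ hK]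
  refine forall₂_congr fun j _ => ?_
  rw [inner_sub_right]
  constructor <;> intro h <;> linarith

end Crest.Agent.R215
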