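import Crest.Agent.R215.LI

/-! Row 215, task LOSS: loss formula with the first order identity. -/

set_option autoImplicit false

open MeasureTheory ProbabilityTheory Set Filter Topology

noncomputable section

namespace Crest.Agent.R215

universe u v

namespace LOSS

section E

variable {E : Type u} [NormedAddCommGroup E] [InnerProductSpace ℝ E]

theorem mx_add (K : Finset ℕ) (hK : K.Nonempty) (z : ℕ → E) (c x : E) :
    mx K (fun i => z i + c) x = mx K z x + inner ℝ x c := by
  apply le_antisymm
  · rw [LI.mx_le_iff K hK]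
    intro j hj
    rw [inner_add_right]
    linarith [LI.le_mx K z x hj]
  · obtain ⟨j, hj, h⟩ := LI.exists_mx K hK z x
    rw [h, ← inner_add_right]
    exact LI.le_mx K (fun i => z i + c) x hj

theorem mx_nonneg (K : Finset ℕ) (z : ℕ → E) (x : E) (h0 : ∑ j ∈ K, z j = 0) :
    0 ≤ mx K z x := by
  by_cases hK : K.Nonempty
  · have h1 : ∑ j ∈ K, inner ℝ x (z j) ≤ ∑ j ∈ K, mx K z x :=
      Finset.sum_le_sum fun j hj => LI.le_mx K z x hj
    rw [← inner_sum, h0, inner_zero_right, Finset.sum_const, nsmul_eq_mul] at h1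
    have : (0:ℝ) < K.card := by exact_mod_cast hK.card_pos
    exact nonneg_of_mul_nonneg_right h1 this
  · unfold mx; rw [dif_neg hK]

end E

variable {E : Type u} [NormedAddCommGroup E] [InnerProductSpace ℝ E] [FiniteDimensional ℝ E]
  [MeasurableSpace E] [BorelSpace E]

theorem em_add (K : Finset ℕ) (hK : K.Nonempty) (z : ℕ → E) (c : E) :
    em K (fun i => z i + c) = em K z := by
  unfold em
  simp_rw [mx_add K hK]
  rw [integral_add (LI.integrable_mx K z) (sg_integrable_inner c), sg_integral_inner, add_zero]

theorem integrable_pos (J : Finset ℕ) (t : ℕ → E) (y : E) :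
    Integrable (fun x => max (inner ℝ x y - mx J t x) 0) (stdGaussian E) :=
  ((sg_integrable_inner y).sub (LI.integrable_mx J t)).sup (integrable_zero _ _ _)

theorem measurableSet_cell (s : Finset ℕ) (z : ℕ → E) (i : ℕ) : MeasurableSet (cell s z i) := by
  have : cell s z i = ⋂ j ∈ s, {x | inner ℝ x (z j) ≤ inner ℝ x (z i)} := by
    ext x; simp [cell]
  rw [this]
  exact Finset.measurableSet_biInter _ fun j _ =>
    (isClosed_le (by fun_prop) (by fun_prop)).measurableSet

end LOSS

open LOSS in
theorem loss (E : Type u) [NormedAddCommGroup E] [InnerProductSpace ℝ E] [FiniteDimensional ℝ E]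
    [MeasurableSpace E] [BorelSpace E] : StLoss E := by
  classical
  intro s J z θ hcr hJs hJ hθ0 hθ1
  have hs : s.Nonempty := hJ.mono hJs
  have hm : (0:ℝ) < J.card := by exact_mod_cast hJ.card_pos
  set m : ℝ := (J.card : ℝ) with hmdef
  set c : E := m⁻¹ • zR s J z with hc
  set t : ℕ → E := tt s J z with ht
  have htt : t = fun i => z i + c := rfl
  set θ' : ℝ := θ * ((m + 1) / m) with hθ'
  have hsumt : ∑ j ∈ J, t j = 0 := by
    rw [htt, Finset.sum_add_distrib, Finset.sum_const, ← Nat.cast_smul_eq_nsmul ℝ, hc, smul_smul,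
      mul_inv_cancel₀ hm.ne', one_smul]
    unfold zR
    rw [add_comm, Finset.sum_sdiff hJs, hcr.sum0]
  have hh0 : ∀ x, 0 ≤ mx J t x := fun x => mx_nonneg J t x hsumt
  -- the pointwise inequality
  have hpt : ∀ x, mx s t x - mx J t x ≤
      (1 - θ) * ∑ i ∈ s \ J, (cell s z i).indicator (fun x => inner ℝ x (t i)) x +
      (m / (m + 1) * ∑ i ∈ s \ J, max (inner ℝ x (θ' • z i) - mx J t x) 0 +
        1 / (m + 1) * max (inner ℝ x (θ' • zR s J z) - mx J t x) 0) := by
    intro x
    have hnn2 : 0 ≤ m / (m + 1) * ∑ i ∈ s \ J, max (inner ℝ x (θ' • z i) - mx J t x) 0 +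
        1 / (m + 1) * max (inner ℝ x (θ' • zR s J z) - mx J t x) 0 := by
      have : 0 ≤ ∑ i ∈ s \ J, max (inner ℝ x (θ' • z i) - mx J t x) 0 :=
        Finset.sum_nonneg fun i _ => le_max_right _ _
      have : 0 ≤ max (inner ℝ x (θ' • zR s J z) - mx J t x) 0 := le_max_right _ _
      positivity
    have hcell : ∀ i, x ∈ cell s z i → mx s t x ≤ inner ℝ x (t i) := by
      intro i hi
      rw [LI.mx_le_iff s hs]
      intro j hj
      have := hi j hj
      simp only [htt, inner_add_right]
      linarith
    have hterm : ∀ i ∈ s \ J, 0 ≤ (cell s z i).indicator (fun x => inner ℝ x (t i)) x := by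
      intro i hi
      by_cases hx : x ∈ cell s z i
      · rw [indicator_of_mem hx]
        obtain ⟨j, hj⟩ := hJ
        have h1 := hcell i hx
        have h3 : mx J t x ≤ mx s t x := by
          rw [LI.mx_le_iff J ⟨j, hj⟩]
          intro k hk
          exact LI.le_mx s t x (hJs hk)
        exact (hh0 x).trans (h3.trans h1)
      · rw [indicator_of_notMem hx]
    obtain ⟨i, his, hi⟩ := LI.exists_mx s hs t x
    by_cases hiJ : i ∈ J
    · have h1 : mx s t x - mx J t x ≤ 0 := by
        rw [hi]; linarith [LI.le_mx J t x hiJ]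
      have h2 := mul_nonneg (sub_nonneg.2 hθ1) (Finset.sum_nonneg hterm)
      linarith
    · have hiR : i ∈ s \ J := Finset.mem_sdiff.2 ⟨his, hiJ⟩
      have hxc : x ∈ cell s z i := by
        intro j hj
        have := LI.le_mx s t x hj
        rw [hi] at this
        simp only [htt, inner_add_right] at this
        linarith
      have h1 : mx s t x ≤ ∑ i ∈ s \ J, (cell s z i).indicator (fun x => inner ℝ x (t i)) x := by
        rw [hi]
        have := Finset.single_le_sum hterm hiR
        rwa [indicator_of_mem hxc] at this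
      have h2 : θ * mx s t x - mx J t x ≤
          m / (m + 1) * max (inner ℝ x (θ' • z i) - mx J t x) 0 +
            1 / (m + 1) * max (inner ℝ x (θ' • zR s J z) - mx J t x) 0 := by
        have e1 : θ * mx s t x - mx J t x =
            m / (m + 1) * (inner ℝ x (θ' • z i) - mx J t x) +
              1 / (m + 1) * (inner ℝ x (θ' • zR s J z) - mx J t x) := by
          rw [hi]
          simp only [htt, inner_add_right, hc, inner_smul_right, hθ']
          field_simp
          ring
        rw [e1]
        have := le_max_left (inner ℝ x (θ' • z i) - mx J t x) 0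
        have := le_max_left (inner ℝ x (θ' • zR s J z) - mx J t x) 0
        gcongr
      have h3 : max (inner ℝ x (θ' • z i) - mx J t x) 0 ≤
          ∑ i ∈ s \ J, max (inner ℝ x (θ' • z i) - mx J t x) 0 :=
        Finset.single_le_sum (f := fun i => max (inner ℝ x (θ' • z i) - mx J t x) 0)
          (fun i _ => le_max_right _ _) hiR
      have h4 : m / (m + 1) * max (inner ℝ x (θ' • z i) - mx J t x) 0 ≤
          m / (m + 1) * ∑ i ∈ s \ J, max (inner ℝ x (θ' • z i) - mx J t x) 0 :=
        mul_le_mul_of_nonneg_left h3 (by positivity)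
      have h5 := mul_le_mul_of_nonneg_left h1 (sub_nonneg.2 hθ1)
      linarith
  -- integrate
  have hIc : ∀ i, Integrable ((cell s z i).indicator (fun x => (inner ℝ x (t i) : ℝ)))
      (stdGaussian E) := fun i =>
    (sg_integrable_inner (t i)).indicator (measurableSet_cell s z i)
  have hI1 : Integrable (fun x => (1 - θ) * ∑ i ∈ s \ J,
      (cell s z i).indicator (fun x => (inner ℝ x (t i) : ℝ)) x) (stdGaussian E) :=
    (integrable_finset_sum _ fun i _ => hIc i).const_mul _
  have hI2 : Integrable (fun x => m / (m + 1) * ∑ i ∈ s \ J,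
      max (inner ℝ x (θ' • z i) - mx J t x) 0) (stdGaussian E) :=
    (integrable_finset_sum _ fun i _ => integrable_pos J t _).const_mul _
  have hI3 : Integrable (fun x => 1 / (m + 1) *
      max (inner ℝ x (θ' • zR s J z) - mx J t x) 0) (stdGaussian E) :=
    (integrable_pos J t _).const_mul _
  have hmain := integral_mono ((LI.integrable_mx s t).sub (LI.integrable_mx J t))
    (hI1.add (hI2.add hI3)) hpt
  have e0 : em s z - em J z = ∫ x, (mx s t x - mx J t x) ∂(stdGaussian E) := by
    rw [integral_sub (LI.integrable_mx s t) (LI.integrable_mx J t)]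
    show _ = em s t - em J t
    rw [htt, em_add s hs, em_add J hJ]
  rw [e0]
  refine hmain.trans (le_of_eq ?_)
  have e1 : ∫ x, ((1 - θ) * ∑ i ∈ s \ J,
      (cell s z i).indicator (fun x => (inner ℝ x (t i) : ℝ)) x) ∂(stdGaussian E) =
      (1 - θ) * ER s J z := by
    rw [integral_const_mul, integral_finset_sum _ fun i _ => hIc i]
    congr 1
    have : ∀ i ∈ s \ J, ∫ x, (cell s z i).indicator (fun x => (inner ℝ x (t i) : ℝ)) x
        ∂(stdGaussian E) = inner ℝ (t i) (z i) := by
      intro i hi
      rw [integral_indicator (measurableSet_cell s z i), ← sg_inner_setIntegral,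
        hcr.mom i (Finset.mem_sdiff.1 hi).1]
    rw [Finset.sum_congr rfl this]
    unfold ER VV
    simp only [htt, inner_add_left, Finset.sum_add_distrib, real_inner_self_eq_norm_sq]
    congr 1
    rw [← inner_sum]
    change inner ℝ c (zR s J z) = _
    rw [hc, inner_smul_left, real_inner_self_eq_norm_sq]
    simp [div_eq_inv_mul, hmdef]
  have e2 : ∫ x, (m / (m + 1) * ∑ i ∈ s \ J,
      max (inner ℝ x (θ' • z i) - mx J t x) 0) ∂(stdGaussian E) =
      m / (m + 1) * ∑ i ∈ s \ J, Lam J t (θ' • z i) := by
    rw [integral_const_mul, integral_finset_sum _ fun i _ => integrable_pos J t _]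
    rfl
  have e3 : ∫ x, (1 / (m + 1) *
      max (inner ℝ x (θ' • zR s J z) - mx J t x) 0) ∂(stdGaussian E) =
      1 / (m + 1) * Lam J t (θ' • zR s J z) := by
    rw [integral_const_mul]; rfl
  rw [add_assoc, ← e1, ← e2, ← e3]
  rw [← integral_add hI2 hI3]
  exact integral_add hI1 (hI2.add hI3)

end Crest.Agent.R215
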