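import Crest.Agent.R215.LibG

set_option autoImplicit false

open MeasureTheory ProbabilityTheory Set

noncomputable section

namespace Crest.Agent.R215

universe u

theorem max_ (E : Type u) [NormedAddCommGroup E] [InnerProductSpace ℝ E] [FiniteDimensional ℝ E]
    [MeasurableSpace E] [BorelSpace E] : StMax E := by
  intro hE s hs
  classical
  -- extension of vectors indexed by s
  let ext : (s → E) → ℕ → E := fun v i => if h : i ∈ s then v ⟨i, h⟩ else 0
  have hext : ∀ (v : s → E) (i : ℕ) (h : i ∈ s), ext v i = v ⟨i, h⟩ := by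
    intro v i h; simp [ext, h]
  have hVV : ∀ v : s → E, VV s (ext v) = ∑ i : s, ‖v i‖ ^ 2 := by
    intro v
    unfold VV
    rw [← Finset.sum_coe_sort s (fun i => ‖ext v i‖ ^ 2)]
    exact Finset.sum_congr rfl fun i _ => by rw [hext v i i.2]
  -- compact sphere
  let K : Set (s → E) := {v | ∑ i : s, ‖v i‖ ^ 2 = 1}
  have hKc : IsClosed K := isClosed_eq (by fun_prop) continuous_const
  have hKb : Bornology.IsBounded K := by
    refine (Metric.isBounded_closedBall (x := (0 : s → E)) (r := 1)).subset ?_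
    intro v hv
    rw [mem_closedBall_zero_iff, pi_norm_le_iff_of_nonneg zero_le_one]
    intro i
    have h1 : ‖v i‖ ^ 2 ≤ ∑ i : s, ‖v i‖ ^ 2 :=
      Finset.single_le_sum (f := fun i : s => ‖v i‖ ^ 2) (fun _ _ => by positivity) (Finset.mem_univ i)
    have hv' : ∑ i : s, ‖v i‖ ^ 2 = 1 := hv
    rw [hv'] at h1
    nlinarith [norm_nonneg (v i)]
  have hK : IsCompact K := Metric.isCompact_of_isClosed_isBounded hKc hKb
  obtain ⟨i0, hi0⟩ := hs
  obtain ⟨e, he⟩ := exists_norm_eq E (c := 1) zero_le_one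
  have hKn : K.Nonempty := by
    refine ⟨fun i => if i = ⟨i0, hi0⟩ then e else 0, ?_⟩
    change ∑ i : s, ‖(if i = ⟨i0, hi0⟩ then e else 0 : E)‖ ^ 2 = 1
    rw [Finset.sum_eq_single ⟨i0, hi0⟩]
    · simp [he]
    · intro j _ hj; simp [hj]
    · intro h; exact absurd (Finset.mem_univ _) h
  have hcont : Continuous (fun v : s → E => em s (ext v)) := by
    rw [continuous_iff_continuousAt]
    intro v
    rw [ContinuousAt, tendsto_iff_dist_tendsto_zero]
    have hb : ∀ w : s → E, dist (em s (ext w)) (em s (ext v)) ≤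
        (∫ x, ‖x‖ ∂(stdGaussian E)) * ∑ i : s, ‖w i - v i‖ := by
      intro w
      rw [Real.dist_eq]
      refine (abs_em_sub_le s (ext w) (ext v)).trans (le_of_eq ?_)
      congr 1
      rw [← Finset.sum_coe_sort s (fun i => ‖ext w i - ext v i‖)]
      exact Finset.sum_congr rfl fun i _ => by rw [hext w i i.2, hext v i i.2]
    refine squeeze_zero (fun _ => dist_nonneg) hb ?_
    have hc : Continuous (fun w : s → E => (∫ x, ‖x‖ ∂(stdGaussian E)) * ∑ i : s, ‖w i - v i‖) := by
      fun_prop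
    have := hc.tendsto v
    simpa using this
  obtain ⟨v, hv, hmax⟩ := hK.exists_isMaxOn hKn hcont.continuousOn
  refine ⟨ext v, ?_, ?_⟩
  · rw [hVV]; exact hv
  intro w
  have hVw : 0 ≤ VV s w := Finset.sum_nonneg fun _ _ => by positivity
  rcases hVw.eq_or_lt with h0 | hpos
  · -- all zero
    have hz : ∀ i ∈ s, w i = 0 := by
      intro i hi
      have := (Finset.sum_eq_zero_iff_of_nonneg (fun _ _ => by positivity)).1 h0.symm i hi
      simpa using this
    have h1 : em s w = em s (fun _ => (0 : ℝ) • (0 : E)) := em_congr fun i hi => by rw [hz i hi]; simp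
    rw [h1, em_smul le_rfl, zero_mul, ← h0]
    simp
  · set r := Real.sqrt (VV s w) with hr
    have hr0 : 0 < r := Real.sqrt_pos.2 hpos
    have hr2 : r ^ 2 = VV s w := Real.sq_sqrt hVw
    let v' : s → E := fun i => r⁻¹ • w i
    have hv' : v' ∈ K := by
      change ∑ i : s, ‖r⁻¹ • w i‖ ^ 2 = 1
      have h1 : ∀ i : s, ‖r⁻¹ • w i‖ ^ 2 = (r ^ 2)⁻¹ * ‖w i‖ ^ 2 := by
        intro i
        rw [norm_smul, mul_pow, norm_inv, inv_pow, Real.norm_eq_abs, sq_abs]
      simp_rw [h1]
      rw [← Finset.mul_sum, Finset.sum_coe_sort s (fun i => ‖w i‖ ^ 2), hr2]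
      exact inv_mul_cancel₀ hpos.ne'
    have h2 : em s (ext v') ≤ em s (ext v) := hmax hv'
    have h3 : em s w = r * em s (ext v') := by
      rw [← em_smul hr0.le]
      refine em_congr fun i hi => ?_
      rw [hext v' i hi]
      change w i = r • r⁻¹ • w i
      rw [smul_smul, mul_inv_cancel₀ hr0.ne', one_smul]
    rw [h3, mul_comm]
    exact mul_le_mul_of_nonneg_right h2 hr0.le

end Crest.Agent.R215
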