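import Crest.Agent.R215.Lib1

/-!
# Row 215, task MILLS: Mills ratio facts
-/

set_option autoImplicit false

open MeasureTheory ProbabilityTheory Set Filter Topology

noncomputable section

namespace Crest.Agent.R215

namespace MILLS

theorem hd1 (t : ℝ) : HasDerivAt (fun t => Ph t - t * ph t / (1 + t ^ 2))
    (-(ph t * 2 / (1 + t ^ 2) ^ 2)) t := by
  have h0 : (1 + t ^ 2) ≠ 0 := by positivity
  have h1 : HasDerivAt (fun t : ℝ => 1 + t ^ 2) (2 * t) t := by
    have := (hasDerivAt_pow 2 t).const_add 1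
    have e : ((2 : ℕ) : ℝ) * t ^ (2 - 1) = 2 * t := by norm_num
    rw [e] at this
    exact this
  have h2 : HasDerivAt (fun t => t * ph t) (1 * ph t + t * (-(t * ph t))) t :=
    (hasDerivAt_id t).fun_mul (hasDerivAt_ph t)
  have h3 := (hasDerivAt_Ph t).fun_sub (h2.fun_div h1 h0)
  refine h3.congr_deriv ?_
  field_simp
  ring

theorem e_nonneg (t : ℝ) : 0 ≤ Ph t - t * ph t / (1 + t ^ 2) := by
  have hanti : Antitone (fun t => Ph t - t * ph t / (1 + t ^ 2)) := by
    refine antitone_of_deriv_nonpos (fun t => (hd1 t).differentiableAt) fun t => ?_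
    rw [(hd1 t).deriv]
    have := ph_pos t
    have h2 : 0 ≤ ph t * 2 / (1 + t ^ 2) ^ 2 := by positivity
    linarith
  have htend : Tendsto (fun t => Ph t - t * ph t / (1 + t ^ 2)) atTop (𝓝 0) := by
    have h1 : Tendsto (fun t => t * ph t / (1 + t ^ 2)) atTop (𝓝 0) := by
      refine tendsto_of_tendsto_of_tendsto_of_le_of_le' tendsto_const_nhds
        mul_ph_tendsto_atTop ?_ ?_
      · filter_upwards [eventually_gt_atTop 0] with t ht
        have := ph_pos t
        positivity
      · filter_upwards [eventually_gt_atTop 0] with t ht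
        have := ph_pos t
        exact div_le_self (by positivity) (by nlinarith)
    simpa using Ph_tendsto_atTop.sub h1
  exact hanti.le_of_tendsto htend t

theorem hd2 (t : ℝ) : HasDerivAt (fun t => Ph t ^ 2 - ph t * (ph t - t * Ph t))
    (-(ph t * (1 + t ^ 2) * (Ph t - t * ph t / (1 + t ^ 2)))) t := by
  have h0 : (1 + t ^ 2) ≠ 0 := by positivity
  have h1 := ((hasDerivAt_Ph t).fun_pow 2).fun_sub ((hasDerivAt_ph t).fun_mul (hasDerivAt_L t))
  refine h1.congr_deriv ?_
  field_simp
  ring

theorem d_nonneg (t : ℝ) : 0 ≤ Ph t ^ 2 - ph t * (ph t - t * Ph t) := by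
  have hanti : Antitone (fun t => Ph t ^ 2 - ph t * (ph t - t * Ph t)) := by
    refine antitone_of_deriv_nonpos (fun t => (hd2 t).differentiableAt) fun t => ?_
    rw [(hd2 t).deriv]
    have := ph_pos t
    have := e_nonneg t
    have h2 : 0 ≤ ph t * (1 + t ^ 2) * (Ph t - t * ph t / (1 + t ^ 2)) := by positivity
    linarith
  have htend : Tendsto (fun t => Ph t ^ 2 - ph t * (ph t - t * Ph t)) atTop (𝓝 0) := by
    have := (Ph_tendsto_atTop.pow 2).sub (ph_tendsto_atTop.mul L_tendsto_atTop)
    simpa using this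
  exact hanti.le_of_tendsto htend t

end MILLS

open MILLS in
theorem mills : StMills := by
  intro τ
  refine ⟨ph_sub_nonneg τ, ?_⟩
  linarith [d_nonneg τ]

end Crest.Agent.R215
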