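import Crest.Agent.R215.Defs

/-!
# Row 215, task NEG: elementary consequences of negativity
-/

set_option autoImplicit false

open MeasureTheory ProbabilityTheory Set

noncomputable section

namespace Crest.Agent.R215

universe u

open Finset in
theorem neg_ (E : Type u) [NormedAddCommGroup E] [InnerProductSpace ℝ E] [FiniteDimensional ℝ E]
    [MeasurableSpace E] [BorelSpace E] : StNeg E := by
  intro s J z hC hJs hJ
  have hm : 0 < J.card := hJ.card_pos
  have hm0 : (0 : ℝ) < (J.card : ℝ) := by exact_mod_cast hm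
  set m : ℝ := (J.card : ℝ) with hmdef
  set w := zR s J z with hw
  have hsplit : ∑ i ∈ J, z i + w = 0 := by
    rw [hw, zR, add_comm, Finset.sum_sdiff hJs]
    exact hC.sum0
  have hsum : ∑ i ∈ J, z i = -w := eq_neg_of_add_eq_zero_left hsplit
  -- inner products with `w`
  have hiw : ∀ i ∈ s \ J, inner ℝ (z i) w ≤ ‖z i‖ ^ 2 := by
    intro i hi
    rw [hw, zR, inner_sum, ← Finset.add_sum_erase _ _ hi, real_inner_self_eq_norm_sq]
    have : ∑ k ∈ (s \ J).erase i, inner ℝ (z i) (z k) ≤ 0 := by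
      refine Finset.sum_nonpos fun k hk => ?_
      rw [Finset.mem_erase] at hk
      exact (hC.neg i (Finset.mem_sdiff.1 hi).1 k (Finset.mem_sdiff.1 hk.2).1 hk.1.symm).le
    linarith
  have hjw : ∀ j ∈ J, inner ℝ (z j) w ≤ 0 := by
    intro j hj
    rw [hw, zR, inner_sum]
    refine Finset.sum_nonpos fun k hk => ?_
    rw [Finset.mem_sdiff] at hk
    refine (hC.neg j (hJs hj) k hk.1 ?_).le
    rintro rfl
    exact hk.2 hj
  have hsw : ∑ j ∈ J, inner ℝ (z j) w = -‖w‖ ^ 2 := by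
    rw [← sum_inner, hsum, inner_neg_left, real_inner_self_eq_norm_sq]
  have hjw' : ∀ j ∈ J, -‖w‖ ^ 2 ≤ inner ℝ (z j) w := by
    intro j hj
    rw [← Finset.add_sum_erase _ _ hj] at hsw
    have : ∑ k ∈ J.erase j, inner ℝ (z k) w ≤ 0 :=
      Finset.sum_nonpos fun k hk => hjw k (Finset.mem_erase.1 hk).2
    linarith
  have ht : ∀ j, tt s J z j = z j + m⁻¹ • w := fun j => rfl
  have hw4 : ‖w‖ ^ 2 ≤ VV (s \ J) z := by
    have h1 : ‖w‖ ^ 2 = ∑ i ∈ s \ J, inner ℝ (z i) w := by
      rw [← sum_inner, ← real_inner_self_eq_norm_sq]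
      rfl
    rw [h1]
    exact Finset.sum_le_sum hiw
  have hnorm : ∀ j, ‖tt s J z j‖ ^ 2 = ‖z j‖ ^ 2 + 2 * m⁻¹ * inner ℝ (z j) w + ‖w‖ ^ 2 / m ^ 2 := by
    intro j
    rw [ht, norm_add_sq_real, inner_smul_right, norm_smul, norm_inv, Real.norm_eq_abs,
      abs_of_pos hm0]
    field_simp
  have hminv : 0 < m⁻¹ := inv_pos.2 hm0
  refine ⟨?_, ?_, ?_, hw4, ?_, ?_, ?_, ?_⟩
  · simp only [ht]
    rw [Finset.sum_add_distrib, Finset.sum_const, hsum, ← Nat.cast_smul_eq_nsmul ℝ, smul_smul,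
      ← hmdef, mul_inv_cancel₀ hm0.ne', one_smul]
    simp
  · intro i hi j hj
    rw [ht, inner_add_right, inner_smul_right]
    have h1 : inner ℝ (z i) (z j) < 0 := by
      rw [Finset.mem_sdiff] at hi
      refine hC.neg i hi.1 j (hJs hj) ?_
      rintro rfl
      exact hi.2 hj
    have h2 := mul_le_mul_of_nonneg_left (hiw i hi) hminv.le
    rw [div_eq_inv_mul]
    linarith
  · intro j hj
    rw [ht, inner_add_right, inner_smul_right, real_inner_self_eq_norm_sq, real_inner_comm]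
    have h1 := hjw j hj
    rw [div_eq_inv_mul]
    linarith
  · unfold ER VV
    rw [← hw, ← hmdef]
    simp only [hnorm]
    rw [Finset.sum_add_distrib, Finset.sum_add_distrib, ← Finset.mul_sum, hsw, Finset.sum_const,
      nsmul_eq_mul, ← hmdef, ← Finset.sum_sdiff hJs]
    field_simp
    ring
  · intro j hj
    rw [hnorm]
    have h1 := mul_le_mul_of_nonneg_left (hjw' j hj) hminv.le
    have h2 : 0 ≤ ‖w‖ ^ 2 / m ^ 2 := by positivity
    have h3 : 2 * ‖w‖ ^ 2 / m = 2 * (m⁻¹ * ‖w‖ ^ 2) := by field_simp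
    rw [h3]
    linarith
  · intro j hj
    rw [hnorm]
    have h1 := mul_nonneg hminv.le (neg_nonneg.2 (hjw j hj))
    linarith
  · intro i hi j hj hij
    rw [ht, ht, inner_add_left, inner_add_right, inner_add_right, inner_smul_right,
      inner_smul_left, inner_smul_left, inner_smul_right, real_inner_self_eq_norm_sq]
    have h1 := hC.neg i (hJs hi) j (hJs hj) hij
    have h2 := mul_nonneg hminv.le (neg_nonneg.2 (hjw j hj))
    have h3 := mul_nonneg hminv.le (neg_nonneg.2 (hjw i hi))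
    rw [real_inner_comm (z j) w]
    have h4 : ‖w‖ ^ 2 / m ^ 2 = m⁻¹ * (m⁻¹ * ‖w‖ ^ 2) := by field_simp
    rw [h4]
    simp only [map_inv₀, conj_trivial]
    linarith

end Crest.Agent.R215
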