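import Crest.Agent.R215.LibG

set_option autoImplicit false

open MeasureTheory ProbabilityTheory Set

noncomputable section

namespace Crest.Agent.R215

universe u

namespace NR

variable {E : Type u} [NormedAddCommGroup E] [InnerProductSpace ℝ E]

lemma sum_J {s J : Finset ℕ} {z : ℕ → E} (h0 : ∑ i ∈ s, z i = 0) (hJ : J ⊆ s) :
    ∑ j ∈ J, z j = - zR s J z := by
  unfold zR
  have := Finset.sum_sdiff (f := z) hJ
  rw [h0] at this
  exact eq_neg_of_add_eq_zero_right this

lemma VV_tt {s J : Finset ℕ} {z : ℕ → E} (h0 : ∑ i ∈ s, z i = 0) (hJ : J ⊆ s)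
    (hne : J.Nonempty) : VV J (tt s J z) = VV s z - ER s J z := by
  have hm : (0:ℝ) < (J.card : ℝ) := by exact_mod_cast hne.card_pos
  have hVs : VV s z = VV J z + VV (s \ J) z := by
    unfold VV
    rw [← Finset.sum_sdiff (f := fun i => ‖z i‖ ^ 2) hJ]
    ring
  have h1 : VV J (tt s J z) = VV J z + 2 * ((J.card : ℝ)⁻¹) * inner ℝ (∑ j ∈ J, z j) (zR s J z)
      + (J.card : ℝ) * (((J.card : ℝ)⁻¹) ^ 2 * ‖zR s J z‖ ^ 2) := by
    unfold VV tt
    have : ∀ j ∈ J, ‖z j + ((J.card : ℝ)⁻¹) • zR s J z‖ ^ 2 =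
        ‖z j‖ ^ 2 + 2 * ((J.card : ℝ)⁻¹) * inner ℝ (z j) (zR s J z)
          + ((J.card : ℝ)⁻¹) ^ 2 * ‖zR s J z‖ ^ 2 := by
      intro j _
      rw [norm_add_sq_real, real_inner_smul_right, norm_smul, mul_pow, Real.norm_eq_abs, sq_abs]
      ring
    rw [Finset.sum_congr rfl this, Finset.sum_add_distrib, Finset.sum_add_distrib,
      ← Finset.mul_sum, sum_inner, Finset.sum_const, nsmul_eq_mul]
  rw [h1, sum_J h0 hJ, inner_neg_left, real_inner_self_eq_norm_sq, hVs]
  unfold ER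
  field_simp
  ring

end NR

theorem nr (E : Type u) [NormedAddCommGroup E] [InnerProductSpace ℝ E] [FiniteDimensional ℝ E]
    [MeasurableSpace E] [BorelSpace E] : StNR E := by
  intro s J z hc hJ hne
  have hV := NR.VV_tt hc.sum0 hJ.1 hne
  have he : em J (tt s J z) = em J z := by
    have := em_add_const J z (((J.card : ℝ)⁻¹) • zR s J z)
    exact this
  have h1 := hc.sub J (Finset.card_lt_card hJ) (tt s J z)
  rw [he, hV] at h1
  refine ⟨h1, ?_⟩
  rw [← hV]
  unfold VV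
  positivity

end Crest.Agent.R215
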