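import Crest.Agent.R215.NumLib

set_option autoImplicit false

open MeasureTheory ProbabilityTheory Set Filter Topology

noncomputable section

namespace Crest.Agent.R215

namespace NUM1

lemma node {σ τ p1 p2 i1 i2 x X c : ℝ} (hσ : 0 ≤ σ) (h : τ ≤ σ) (hp1 : p1 ≤ Ph σ) (hp2 : Ph σ ≤ p2)
    (hi1 : i1 ≤ ph σ) (hi2 : ph σ ≤ i2) (hi0 : 0 < i1)
    (hx : i2 * (i2 - σ * p1) ≤ x) (hX1 : σ * i2 + (1 - σ ^ 2) * p1 ≤ X)
    (hX2 : σ * i2 + (1 - σ ^ 2) * p2 ≤ X)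
    (hc : σ * p2 ≤ c * i1) :
    xx τ ≤ x + X * (Ph τ - p1) + c * (Ph τ - p1) ^ 2 := by
  have h0 := xx_le_quad h
  have hxx : xx σ ≤ x := by
    unfold xx
    have h1 := ph_sub_nonneg σ
    have h2 : ph σ - σ * Ph σ ≤ i2 - σ * p1 := by
      have := mul_le_mul_of_nonneg_left hp1 hσ; linarith
    calc ph σ * (ph σ - σ * Ph σ) ≤ i2 * (i2 - σ * p1) :=
          mul_le_mul hi2 h2 h1 (by linarith [ph_pos σ])
      _ ≤ x := hx
  have hXX : XX σ ≤ X := by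
    have e : XX σ = σ * ph σ + (1 - σ ^ 2) * Ph σ := by unfold XX; ring
    rw [e]
    have h3 := mul_le_mul_of_nonneg_left hi2 hσ
    rcases le_total 0 (1 - σ ^ 2) with h4 | h4
    · have := mul_le_mul_of_nonneg_left hp2 h4; linarith
    · have := mul_le_mul_of_nonpos_left hp1 h4; linarith
  have hcc : σ * Ph σ / ph σ ≤ c := by
    rw [div_le_iff₀ (ph_pos σ)]
    have h5 : 0 ≤ c := by
      have : 0 ≤ c * i1 := le_trans (mul_nonneg hσ ((Ph_pos σ).le.trans hp2)) hc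
      exact nonneg_of_mul_nonneg_left this hi0
    have := mul_le_mul_of_nonneg_left hp2 hσ
    have := mul_le_mul_of_nonneg_left hi1 h5
    linarith
  have hd0 : 0 ≤ Ph τ - Ph σ := by linarith [Ph_strictAnti.antitone h]
  have hd1 : Ph τ - Ph σ ≤ Ph τ - p1 := by linarith
  have hX0 : 0 ≤ XX σ := XX_nonneg hσ
  have hc0 : 0 ≤ σ * Ph σ / ph σ := by have := ph_pos σ; have := Ph_pos σ; positivity
  have m1 : XX σ * (Ph τ - Ph σ) ≤ X * (Ph τ - p1) :=
    mul_le_mul hXX hd1 hd0 (hX0.trans hXX)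
  have m2 : σ * Ph σ / ph σ * (Ph τ - Ph σ) ^ 2 ≤ c * (Ph τ - p1) ^ 2 :=
    mul_le_mul hcc (pow_le_pow_left₀ hd0 hd1 2) (by positivity) (hc0.trans hcc)
  linarith

/-- from an upper bound of `x` to the claim -/
lemma fin_step {x y P : ℝ} (hxy : x ≤ y) (hy : y ≤ 35 / 100)
    (hP : 2 * y - y ^ 2 / (3581 / 10000) ≤ P) : 2 * x - x ^ 2 / CC ≤ P := by
  refine le_trans ?_ hP
  have h1 := CC_lt'
  have h2 := CC_gt'
  have h3 := CC_pos
  have e : x ^ 2 / (3581 / 10000) ≤ x ^ 2 / CC :=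
    div_le_div_of_nonneg_left (sq_nonneg x) h3 (by linarith)
  have : 2 * x - x ^ 2 / (3581 / 10000) ≤ 2 * y - y ^ 2 / (3581 / 10000) := by
    have h4 : 0 ≤ (y - x) * (2 - (x + y) / (3581 / 10000)) := by
      apply mul_nonneg (by linarith)
      rw [sub_nonneg, div_le_iff₀ (by norm_num)]
      linarith
    have h5 : (y - x) * (2 - (x + y) / (3581 / 10000))
        = (2 * y - y ^ 2 / (3581 / 10000)) - (2 * x - x ^ 2 / (3581 / 10000)) := by ring
    linarith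
  linarith

lemma encP0 : (249803 / 2500000 : ℝ) ≤ Ph (641 / 500 : ℝ) ∧ Ph (641 / 500 : ℝ) ≤ (199843 / 2000000 : ℝ) := by
  have h := Ph_encl (t := (641 / 500 : ℝ)) (by norm_num) (by norm_num) (a := (25071211 / 25000000 : ℝ)) (b := (100284861 / 100000000 : ℝ))
    (by unfold SS; norm_num) (by norm_num) (by unfold SS; norm_num)
  constructor
  · refine le_trans ?_ h.1; norm_num
  · refine le_trans h.2 ?_; norm_num

lemma enci0 : (876987 / 5000000 : ℝ) ≤ ph (641 / 500 : ℝ) ∧ ph (641 / 500 : ℝ) ≤ (219247 / 1250000 : ℝ) := by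
  have h := ph_encl (t := (641 / 500 : ℝ)) (by norm_num) (by norm_num) (a := (2198281 / 5000000 : ℝ)) (b := (43965633 / 100000000 : ℝ))
    (by unfold EE; norm_num) (by norm_num) (by unfold EE; norm_num)
  constructor
  · refine le_trans ?_ h.1; norm_num
  · refine le_trans h.2 ?_; norm_num

lemma seg0 {τ : ℝ} (h : τ ≤ (641 / 500 : ℝ)) (h2 : Ph τ ≤ (175089 / 1250000 : ℝ)) :
    2 * xx τ - (xx τ) ^ 2 / CC ≤ (Ph τ) ^ 2 * (1818 / 1000 - 1597 / 1000 * Ph τ) := by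
  have hx := node (x := (8297 / 1000000 : ℝ)) (X := (160559 / 1000000 : ℝ)) (c := (36517 / 50000 : ℝ)) (by norm_num) h encP0.1 encP0.2 enci0.1 enci0.2
    (by norm_num) (by norm_num) (by norm_num) (by norm_num) (by norm_num)
  have hd : 0 ≤ Ph τ - (249803 / 2500000 : ℝ) := by linarith [Ph_strictAnti.antitone h, encP0.1]
  obtain ⟨δ, hδ⟩ : ∃ δ, δ = Ph τ - (249803 / 2500000 : ℝ) := ⟨_, rfl⟩
  have hp : Ph τ = (249803 / 2500000 : ℝ) + δ := by linarith
  rw [← hδ] at hx hd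
  have hd2 : δ ≤ (803 / 20000 : ℝ) := by linarith
  have hd3 : δ ^ 2 ≤ 41 / 1000 * δ := by nlinarith
  refine fin_step hx ?_ ?_
  · nlinarith
  · rw [hp]
    nlinarith [mul_nonneg hd hd, mul_nonneg (mul_nonneg hd hd) hd, mul_nonneg hd (sub_nonneg.2 hd2), mul_nonneg (mul_nonneg hd hd) (sub_nonneg.2 hd2), mul_nonneg (mul_nonneg hd hd) (mul_nonneg hd hd)]

lemma encP1 : (140071 / 1000000 : ℝ) ≤ Ph (27 / 25 : ℝ) ∧ Ph (27 / 25 : ℝ) ≤ (175089 / 1250000 : ℝ) := by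
  have h := Ph_encl (t := (27 / 25 : ℝ)) (by norm_num) (by norm_num) (a := (9022079 / 10000000 : ℝ)) (b := (90220807 / 100000000 : ℝ))
    (by unfold SS; norm_num) (by norm_num) (by unfold SS; norm_num)
  constructor
  · refine le_trans ?_ h.1; norm_num
  · refine le_trans h.2 ?_; norm_num

lemma enci1 : (1113267 / 5000000 : ℝ) ≤ ph (27 / 25 : ℝ) ∧ ph (27 / 25 : ℝ) ≤ (278317 / 1250000 : ℝ) := by
  have h := ph_encl (t := (27 / 25 : ℝ)) (by norm_num) (by norm_num) (a := (55810949 / 100000000 : ℝ)) (b := (27905481 / 50000000 : ℝ))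
    (by unfold EE; norm_num) (by norm_num) (by unfold EE; norm_num)
  constructor
  · refine le_trans ?_ h.1; norm_num
  · refine le_trans h.2 ?_; norm_num

lemma seg1 {τ : ℝ} (h : τ ≤ (27 / 25 : ℝ)) (h2 : Ph τ ≤ (2814 / 15625 : ℝ)) :
    2 * xx τ - (xx τ) ^ 2 / CC ≤ (Ph τ) ^ 2 * (1818 / 1000 - 1597 / 1000 * Ph τ) := by
  have hx := node (x := (15893 / 1000000 : ℝ)) (X := (217159 / 1000000 : ℝ)) (c := (67943 / 100000 : ℝ)) (by norm_num) h encP1.1 encP1.2 enci1.1 enci1.2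
    (by norm_num) (by norm_num) (by norm_num) (by norm_num) (by norm_num)
  have hd : 0 ≤ Ph τ - (140071 / 1000000 : ℝ) := by linarith [Ph_strictAnti.antitone h, encP1.1]
  obtain ⟨δ, hδ⟩ : ∃ δ, δ = Ph τ - (140071 / 1000000 : ℝ) := ⟨_, rfl⟩
  have hp : Ph τ = (140071 / 1000000 : ℝ) + δ := by linarith
  rw [← hδ] at hx hd
  have hd2 : δ ≤ (1601 / 40000 : ℝ) := by linarith
  have hd3 : δ ^ 2 ≤ 41 / 1000 * δ := by nlinarith
  refine fin_step hx ?_ ?_
  · nlinarith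
  · rw [hp]
    nlinarith [mul_nonneg hd hd, mul_nonneg (mul_nonneg hd hd) hd, mul_nonneg hd (sub_nonneg.2 hd2), mul_nonneg (mul_nonneg hd hd) (sub_nonneg.2 hd2), mul_nonneg (mul_nonneg hd hd) (mul_nonneg hd hd)]

lemma encP2 : (1800957 / 10000000 : ℝ) ≤ Ph (183 / 200 : ℝ) ∧ Ph (183 / 200 : ℝ) ≤ (2814 / 15625 : ℝ) := by
  have h := Ph_encl (t := (183 / 200 : ℝ)) (by norm_num) (by norm_num) (a := (80188079 / 100000000 : ℝ)) (b := (1252939 / 1562500 : ℝ))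
    (by unfold SS; norm_num) (by norm_num) (by unfold SS; norm_num)
  constructor
  · refine le_trans ?_ h.1; norm_num
  · refine le_trans h.2 ?_; norm_num

lemma enci2 : (656219 / 2500000 : ℝ) ≤ ph (183 / 200 : ℝ) ∧ ph (183 / 200 : ℝ) ≤ (1312439 / 5000000 : ℝ) := by
  have h := ph_encl (t := (183 / 200 : ℝ)) (by norm_num) (by norm_num) (a := (1028061 / 1562500 : ℝ)) (b := (65795917 / 100000000 : ℝ))
    (by unfold EE; norm_num) (by norm_num) (by unfold EE; norm_num)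
  constructor
  · refine le_trans ?_ h.1; norm_num
  · refine le_trans h.2 ?_; norm_num

lemma seg2 {τ : ℝ} (h : τ ≤ (183 / 200 : ℝ)) (h2 : Ph τ ≤ (1100287 / 5000000 : ℝ)) :
    2 * xx τ - (xx τ) ^ 2 / CC ≤ (Ph τ) ^ 2 * (1818 / 1000 - 1597 / 1000 * Ph τ) := by
  have hx := node (x := (12823 / 500000 : ℝ)) (X := (67373 / 250000 : ℝ)) (c := (3139 / 5000 : ℝ)) (by norm_num) h encP2.1 encP2.2 enci2.1 enci2.2
    (by norm_num) (by norm_num) (by norm_num) (by norm_num) (by norm_num)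
  have hd : 0 ≤ Ph τ - (1800957 / 10000000 : ℝ) := by linarith [Ph_strictAnti.antitone h, encP2.1]
  obtain ⟨δ, hδ⟩ : ∃ δ, δ = Ph τ - (1800957 / 10000000 : ℝ) := ⟨_, rfl⟩
  have hp : Ph τ = (1800957 / 10000000 : ℝ) + δ := by linarith
  rw [← hδ] at hx hd
  have hd2 : δ ≤ (399617 / 10000000 : ℝ) := by linarith
  have hd3 : δ ^ 2 ≤ 41 / 1000 * δ := by nlinarith
  refine fin_step hx ?_ ?_
  · nlinarith
  · rw [hp]
    nlinarith [mul_nonneg hd hd, mul_nonneg (mul_nonneg hd hd) hd, mul_nonneg hd (sub_nonneg.2 hd2), mul_nonneg (mul_nonneg hd hd) (sub_nonneg.2 hd2), mul_nonneg (mul_nonneg hd hd) (mul_nonneg hd hd)]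

lemma encP3 : (2200571 / 10000000 : ℝ) ≤ Ph (193 / 250 : ℝ) ∧ Ph (193 / 250 : ℝ) ≤ (1100287 / 5000000 : ℝ) := by
  have h := Ph_encl (t := (193 / 250 : ℝ)) (by norm_num) (by norm_num) (a := (35085621 / 50000000 : ℝ)) (b := (70171259 / 100000000 : ℝ))
    (by unfold SS; norm_num) (by norm_num) (by unfold SS; norm_num)
  constructor
  · refine le_trans ?_ h.1; norm_num
  · refine le_trans h.2 ?_; norm_num

lemma enci3 : (92543 / 312500 : ℝ) ≤ ph (193 / 250 : ℝ) ∧ ph (193 / 250 : ℝ) ≤ (1480689 / 5000000 : ℝ) := by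
  have h := ph_encl (t := (193 / 250 : ℝ)) (by norm_num) (by norm_num) (a := (74230721 / 100000000 : ℝ)) (b := (37115367 / 50000000 : ℝ))
    (by unfold EE; norm_num) (by norm_num) (by unfold EE; norm_num)
  constructor
  · refine le_trans ?_ h.1; norm_num
  · refine le_trans h.2 ?_; norm_num

lemma seg3 {τ : ℝ} (h : τ ≤ (193 / 250 : ℝ)) (h2 : Ph τ ≤ (1300561 / 5000000 : ℝ)) :
    2 * xx τ - (xx τ) ^ 2 / CC ≤ (Ph τ) ^ 2 * (1818 / 1000 - 1597 / 1000 * Ph τ) := by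
  have hx := node (x := (37389 / 1000000 : ℝ)) (X := (158763 / 500000 : ℝ)) (c := (57367 / 100000 : ℝ)) (by norm_num) h encP3.1 encP3.2 enci3.1 enci3.2
    (by norm_num) (by norm_num) (by norm_num) (by norm_num) (by norm_num)
  have hd : 0 ≤ Ph τ - (2200571 / 10000000 : ℝ) := by linarith [Ph_strictAnti.antitone h, encP3.1]
  obtain ⟨δ, hδ⟩ : ∃ δ, δ = Ph τ - (2200571 / 10000000 : ℝ) := ⟨_, rfl⟩
  have hp : Ph τ = (2200571 / 10000000 : ℝ) + δ := by linarith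
  rw [← hδ] at hx hd
  have hd2 : δ ≤ (400551 / 10000000 : ℝ) := by linarith
  have hd3 : δ ^ 2 ≤ 41 / 1000 * δ := by nlinarith
  refine fin_step hx ?_ ?_
  · nlinarith
  · rw [hp]
    nlinarith [mul_nonneg hd hd, mul_nonneg (mul_nonneg hd hd) hd, mul_nonneg hd (sub_nonneg.2 hd2), mul_nonneg (mul_nonneg hd hd) (sub_nonneg.2 hd2), mul_nonneg (mul_nonneg hd hd) (mul_nonneg hd hd)]

lemma encP4 : (16257 / 62500 : ℝ) ≤ Ph (643 / 1000 : ℝ) ∧ Ph (643 / 1000 : ℝ) ≤ (1300561 / 5000000 : ℝ) := by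
  have h := Ph_encl (t := (643 / 1000 : ℝ)) (by norm_num) (by norm_num) (a := (60130983 / 100000000 : ℝ)) (b := (60131 / 100000 : ℝ))
    (by unfold SS; norm_num) (by norm_num) (by unfold SS; norm_num)
  constructor
  · refine le_trans ?_ h.1; norm_num
  · refine le_trans h.2 ?_; norm_num

lemma enci4 : (3244371 / 10000000 : ℝ) ≤ ph (643 / 1000 : ℝ) ∧ ph (643 / 1000 : ℝ) ≤ (1622187 / 5000000 : ℝ) := by
  have h := ph_encl (t := (643 / 1000 : ℝ)) (by norm_num) (by norm_num) (a := (2033109 / 2500000 : ℝ)) (b := (81324373 / 100000000 : ℝ))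
    (by unfold EE; norm_num) (by norm_num) (by unfold EE; norm_num)
  constructor
  · refine le_trans ?_ h.1; norm_num
  · refine le_trans h.2 ?_; norm_num

lemma seg4 {τ : ℝ} (h : τ ≤ (643 / 1000 : ℝ)) (h2 : Ph τ ≤ (1500697 / 5000000 : ℝ)) :
    2 * xx τ - (xx τ) ^ 2 / CC ≤ (Ph τ) ^ 2 * (1818 / 1000 - 1597 / 1000 * Ph τ) := by
  have hx := node (x := (50997 / 1000000 : ℝ)) (X := (361183 / 1000000 : ℝ)) (c := (1611 / 3125 : ℝ)) (by norm_num) h encP4.1 encP4.2 enci4.1 enci4.2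
    (by norm_num) (by norm_num) (by norm_num) (by norm_num) (by norm_num)
  have hd : 0 ≤ Ph τ - (16257 / 62500 : ℝ) := by linarith [Ph_strictAnti.antitone h, encP4.1]
  obtain ⟨δ, hδ⟩ : ∃ δ, δ = Ph τ - (16257 / 62500 : ℝ) := ⟨_, rfl⟩
  have hp : Ph τ = (16257 / 62500 : ℝ) + δ := by linarith
  rw [← hδ] at hx hd
  have hd2 : δ ≤ (200137 / 5000000 : ℝ) := by linarith
  have hd3 : δ ^ 2 ≤ 41 / 1000 * δ := by nlinarith
  refine fin_step hx ?_ ?_
  · nlinarith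
  · rw [hp]
    nlinarith [mul_nonneg hd hd, mul_nonneg (mul_nonneg hd hd) hd, mul_nonneg hd (sub_nonneg.2 hd2), mul_nonneg (mul_nonneg hd hd) (sub_nonneg.2 hd2), mul_nonneg (mul_nonneg hd hd) (mul_nonneg hd hd)]

lemma encP5 : (187587 / 625000 : ℝ) ≤ Ph (131 / 250 : ℝ) ∧ Ph (131 / 250 : ℝ) ≤ (1500697 / 5000000 : ℝ) := by
  have h := Ph_encl (t := (131 / 250 : ℝ)) (by norm_num) (by norm_num) (a := (50097647 / 100000000 : ℝ)) (b := (195694 / 390625 : ℝ))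
    (by unfold SS; norm_num) (by norm_num) (by unfold SS; norm_num)
  constructor
  · refine le_trans ?_ h.1; norm_num
  · refine le_trans h.2 ?_; norm_num

lemma enci5 : (695531 / 2000000 : ℝ) ≤ ph (131 / 250 : ℝ) ∧ ph (131 / 250 : ℝ) ≤ (3477657 / 10000000 : ℝ) := by
  have h := ph_encl (t := (131 / 250 : ℝ)) (by norm_num) (by norm_num) (a := (87171907 / 100000000 : ℝ)) (b := (1089649 / 1250000 : ℝ))
    (by unfold EE; norm_num) (by norm_num) (by unfold EE; norm_num)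
  constructor
  · refine le_trans ?_ h.1; norm_num
  · refine le_trans h.2 ?_; norm_num

lemma seg5 {τ : ℝ} (h : τ ≤ (131 / 250 : ℝ)) (h2 : Ph τ ≤ (8 / 25 : ℝ)) :
    2 * xx τ - (xx τ) ^ 2 / CC ≤ (Ph τ) ^ 2 * (1818 / 1000 - 1597 / 1000 * Ph τ) := by
  have hx := node (x := (66247 / 1000000 : ℝ)) (X := (199979 / 500000 : ℝ)) (c := (5653 / 12500 : ℝ)) (by norm_num) h encP5.1 encP5.2 enci5.1 enci5.2
    (by norm_num) (by norm_num) (by norm_num) (by norm_num) (by norm_num)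
  have hd : 0 ≤ Ph τ - (187587 / 625000 : ℝ) := by linarith [Ph_strictAnti.antitone h, encP5.1]
  obtain ⟨δ, hδ⟩ : ∃ δ, δ = Ph τ - (187587 / 625000 : ℝ) := ⟨_, rfl⟩
  have hp : Ph τ = (187587 / 625000 : ℝ) + δ := by linarith
  rw [← hδ] at hx hd
  have hd2 : δ ≤ (12413 / 625000 : ℝ) := by linarith
  have hd3 : δ ^ 2 ≤ 41 / 1000 * δ := by nlinarith
  refine fin_step hx ?_ ?_
  · nlinarith
  · rw [hp]
    nlinarith [mul_nonneg hd hd, mul_nonneg (mul_nonneg hd hd) hd, mul_nonneg hd (sub_nonneg.2 hd2), mul_nonneg (mul_nonneg hd hd) (sub_nonneg.2 hd2), mul_nonneg (mul_nonneg hd hd) (mul_nonneg hd hd)]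

end NUM1

theorem num1 : StNum1 := by
  intro τ h1 h2
  have h0 : τ ≤ 1282 / 1000 := by
    by_contra hcon
    push Not at hcon
    have := Ph_strictAnti hcon
    linarith [NUM1.encP0.2]
  show 2 * xx τ - (xx τ) ^ 2 / CC ≤ _
  by_cases c5 : τ ≤ (131 / 250 : ℝ)
  · exact NUM1.seg5 c5 (by linarith)
  push Not at c5
  by_cases c4 : τ ≤ (643 / 1000 : ℝ)
  · exact NUM1.seg4 c4 (by linarith [Ph_strictAnti c5, NUM1.encP5.2])
  push Not at c4
  by_cases c3 : τ ≤ (193 / 250 : ℝ)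
  · exact NUM1.seg3 c3 (by linarith [Ph_strictAnti c4, NUM1.encP4.2])
  push Not at c3
  by_cases c2 : τ ≤ (183 / 200 : ℝ)
  · exact NUM1.seg2 c2 (by linarith [Ph_strictAnti c3, NUM1.encP3.2])
  push Not at c2
  by_cases c1 : τ ≤ (27 / 25 : ℝ)
  · exact NUM1.seg1 c1 (by linarith [Ph_strictAnti c2, NUM1.encP2.2])
  push Not at c1
  exact NUM1.seg0 (by linarith) (by linarith [Ph_strictAnti c1, NUM1.encP1.2])

end Crest.Agent.R215
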