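import Crest.Agent.R215.NumLib

set_option autoImplicit false

open MeasureTheory ProbabilityTheory Set Filter Topology

noncomputable section

namespace Crest.Agent.R215

theorem num2 : StNum2 := by
  constructor
  · have h := Ph_encl (t := 5244 / 10000) (by norm_num) (by norm_num) (a := 5013 / 10000) (b := 50136 / 100000)
      (by unfold SS; norm_num) (by norm_num) (by unfold SS; norm_num)
    have h2 := ph_encl (t := 5244 / 10000) (by norm_num) (by norm_num) (a := 8715 / 10000) (b := 87154 / 100000)
      (by unfold EE; norm_num) (by norm_num) (by unfold EE; norm_num)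
    linarith [h.1, h2.2]
  · intro τ hτ
    have h := Ph_encl (t := 46 / 100) (by norm_num) (by norm_num) (a := 44427 / 100000) (b := 44429 / 100000)
      (by unfold SS; norm_num) (by norm_num) (by unfold SS; norm_num)
    have h2 := ph_encl (t := 46 / 100) (by norm_num) (by norm_num) (a := 8995 / 10000) (b := 8997 / 10000)
      (by unfold EE; norm_num) (by norm_num) (by unfold EE; norm_num)
    have hlt : 46 / 100 < τ := by
      by_contra hcon
      push Not at hcon
      have := Ph_strictAnti.antitone hcon
      linarith [h.1]
    have hanti : AntitoneOn xx (Ici (46 / 100)) := by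
      refine antitoneOn_of_deriv_nonpos (convex_Ici _)
        (fun s _ => (hasDerivAt_xx s).continuousAt.continuousWithinAt)
        (fun s _ => (hasDerivAt_xx s).differentiableAt.differentiableWithinAt) fun s hs => ?_
      rw [(hasDerivAt_xx s).deriv]
      rw [interior_Ici] at hs
      have hs' : (46 / 100 : ℝ) < s := hs
      have := XX_nonneg (t := s) (by linarith)
      have := ph_pos s
      nlinarith
    have h3 : xx τ ≤ xx (46 / 100) := hanti (mem_Ici.2 le_rfl) (mem_Ici.2 hlt.le) hlt.le
    have h4 : xx (46 / 100) ≤ 8 / 100 := by
      unfold xx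
      have e1 := ph_sub_nonneg (46 / 100)
      have e2 : ph (46 / 100) - 46 / 100 * Ph (46 / 100) ≤ 22 / 100 := by linarith [h.1, h2.2]
      have e3 : ph (46 / 100) ≤ 36 / 100 := by linarith [h2.2]
      nlinarith [ph_pos (46 / 100)]
    exact h3.trans h4

end Crest.Agent.R215
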