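import Crest.Agent.R215.Lib1

/-! Rigorous enclosures of the normal density and tail on `[0, 1.3]`. -/

set_option autoImplicit false

open MeasureTheory ProbabilityTheory Set Filter Topology

noncomputable section

namespace Crest.Agent.R215

/-- Taylor polynomial of `exp(-t²/2)` -/
def EE (t : ℝ) : ℝ :=
  1 - t ^ 2 / 2 + t ^ 4 / 8 - t ^ 6 / 48 + t ^ 8 / 384 - t ^ 10 / 3840 + t ^ 12 / 46080
    - t ^ 14 / 645120 + t ^ 16 / 10321920 - t ^ 18 / 185794560

/-- its primitive -/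
def SS (t : ℝ) : ℝ :=
  t - t ^ 3 / 6 + t ^ 5 / 40 - t ^ 7 / 336 + t ^ 9 / 3456 - t ^ 11 / 42240 + t ^ 13 / 599040
    - t ^ 15 / 9676800 + t ^ 17 / 175472640 - t ^ 19 / 3530096640

lemma hasDerivAt_SS (t : ℝ) : HasDerivAt SS (EE t) t := by
  have h : ∀ (n : ℕ) (c : ℝ), HasDerivAt (fun t : ℝ => t ^ n / c) (n * t ^ (n - 1) / c) t :=
    fun n c => (hasDerivAt_pow n t).div_const c
  have := (((((((((hasDerivAt_id t).fun_sub (h 3 6)).fun_add (h 5 40)).fun_sub (h 7 336)).fun_add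
    (h 9 3456)).fun_sub (h 11 42240)).fun_add (h 13 599040)).fun_sub (h 15 9676800)).fun_add
    (h 17 175472640)).fun_sub (h 19 3530096640)
  refine this.congr_deriv ?_
  unfold EE
  norm_num
  ring

lemma exp_sub_EE {t : ℝ} (ht : |t| ≤ 13 / 10) :
    |Real.exp (-(t ^ 2) / 2) - EE t| ≤ 6 / 10 ^ 8 := by
  have h2 : t ^ 2 ≤ 169 / 100 := by
    have := sq_le_sq' (by linarith [abs_nonneg t] : -(13/10 : ℝ) ≤ |t|) ht
    rw [sq_abs] at this; linarith
  have h1 : |(-(t ^ 2) / 2 : ℝ)| ≤ 845 / 1000 := by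
    rw [abs_le]; constructor <;> nlinarith [sq_nonneg t]
  have hb := Real.exp_bound (x := -(t ^ 2) / 2) (h1.trans (by norm_num)) (n := 10) (by norm_num)
  have hs : ∑ m ∈ Finset.range 10, (-(t ^ 2) / 2 : ℝ) ^ m / (m.factorial : ℝ) = EE t := by
    unfold EE
    simp only [Finset.sum_range_succ, Finset.sum_range_zero, Nat.factorial]
    norm_num
    ring
  rw [hs] at hb
  refine hb.trans ?_
  have h3 : |(-(t ^ 2) / 2 : ℝ)| ^ 10 ≤ (845 / 1000) ^ 10 :=
    pow_le_pow_left₀ (abs_nonneg _) h1 10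
  have h4 : ((Nat.succ 10 : ℕ) / ((Nat.factorial 10 : ℕ) * (10 : ℕ)) : ℝ) ≤ 11 / 36288000 := by
    norm_num [Nat.factorial]
  calc |(-(t ^ 2) / 2 : ℝ)| ^ 10 * ((Nat.succ 10 : ℕ) / ((Nat.factorial 10 : ℕ) * (10 : ℕ)) : ℝ)
      ≤ (845 / 1000) ^ 10 * (11 / 36288000) := by
        apply mul_le_mul h3 h4 (by positivity) (by positivity)
    _ ≤ 6 / 10 ^ 8 := by norm_num

lemma EE_continuous : Continuous EE := by unfold EE; fun_prop

lemma integral_exp_sub_SS {t : ℝ} (h0 : 0 ≤ t) (h1 : t ≤ 13 / 10) :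
    |(∫ x in (0:ℝ)..t, Real.exp (-(x ^ 2) / 2)) - SS t| ≤ 8 / 10 ^ 8 := by
  have hS : ∫ x in (0:ℝ)..t, EE x = SS t := by
    have := intervalIntegral.integral_eq_sub_of_hasDerivAt (a := 0) (b := t) (f := SS) (f' := EE)
      (fun x _ => hasDerivAt_SS x) (EE_continuous.intervalIntegrable 0 t)
    rw [this]; simp [SS]
  rw [← hS, ← intervalIntegral.integral_sub
    ((by fun_prop : Continuous fun x : ℝ => Real.exp (-(x ^ 2) / 2)).intervalIntegrable 0 t)
    (EE_continuous.intervalIntegrable 0 t)]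
  have := intervalIntegral.norm_integral_le_of_norm_le_const (a := 0) (b := t)
    (f := fun x => Real.exp (-(x ^ 2) / 2) - EE x) (C := 6 / 10 ^ 8) (fun x hx => by
      rw [Real.norm_eq_abs]
      apply exp_sub_EE
      rw [uIoc_of_le h0] at hx
      rw [abs_of_pos hx.1]; linarith [hx.2])
  rw [Real.norm_eq_abs, sub_zero, abs_of_nonneg h0] at this
  refine this.trans ?_
  nlinarith

lemma Ph_eq_half_sub (t : ℝ) : Ph t = 1 / 2 - c0 * ∫ x in (0:ℝ)..t, Real.exp (-(x ^ 2) / 2) := by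
  have h := Fi_sub 0 t
  rw [Fi_zero] at h
  rw [Ph_eq_one_sub, ← intervalIntegral.integral_const_mul]
  have : (∫ x in (0:ℝ)..t, c0 * Real.exp (-(x ^ 2) / 2)) = ∫ x in (0:ℝ)..t, ph x := rfl
  rw [this]; linarith

/-- enclosure of the tail -/
lemma Ph_encl {t : ℝ} (h0 : 0 ≤ t) (h1 : t ≤ 13 / 10) {a b : ℝ}
    (ha : a ≤ SS t - 8 / 10 ^ 8) (ha0 : 0 ≤ a) (hb : SS t + 8 / 10 ^ 8 ≤ b) :
    1 / 2 - 3989423 / 10000000 * b ≤ Ph t ∧ Ph t ≤ 1 / 2 - 3989422 / 10000000 * a := by
  have h := abs_le.1 (integral_exp_sub_SS h0 h1)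
  rw [Ph_eq_half_sub]
  set A := ∫ x in (0:ℝ)..t, Real.exp (-(x ^ 2) / 2)
  have hA1 : a ≤ A := by linarith [h.1]
  have hA2 : A ≤ b := by linarith [h.2]
  have e1 := c0_gt'
  have e2 := c0_lt'
  constructor <;> nlinarith

/-- enclosure of the density -/
lemma ph_encl {t : ℝ} (h0 : 0 ≤ t) (h1 : t ≤ 13 / 10) {a b : ℝ}
    (ha : a ≤ EE t - 6 / 10 ^ 8) (ha0 : 0 ≤ a) (hb : EE t + 6 / 10 ^ 8 ≤ b) :
    3989422 / 10000000 * a ≤ ph t ∧ ph t ≤ 3989423 / 10000000 * b := by
  have h := abs_le.1 (exp_sub_EE (t := t) (by rw [abs_of_nonneg h0]; exact h1))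
  unfold ph
  set A := Real.exp (-(t ^ 2) / 2)
  have hA1 : a ≤ A := by linarith [h.1]
  have hA2 : A ≤ b := by linarith [h.2]
  have e1 := c0_gt'
  have e2 := c0_lt'
  constructor <;> nlinarith

/-! ### second order upper bound of `x = φ(φ - τΦ̄)` as a function of `p = Φ̄` -/

/-- `x(τ) = φ(τ)(φ(τ) - τΦ̄(τ))` -/
def xx (t : ℝ) : ℝ := ph t * (ph t - t * Ph t)
/-- `dx/dp` -/
def XX (t : ℝ) : ℝ := Ph t + t * (ph t - t * Ph t)

lemma hasDerivAt_xx (t : ℝ) : HasDerivAt xx (-(ph t * XX t)) t := by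
  have := (hasDerivAt_ph t).fun_mul (hasDerivAt_L t)
  refine this.congr_deriv ?_
  unfold XX; ring

lemma hasDerivAt_XX (t : ℝ) : HasDerivAt XX (-(2 * t * Ph t)) t := by
  have := (hasDerivAt_Ph t).fun_add ((hasDerivAt_id t).fun_mul (hasDerivAt_L t))
  refine this.congr_deriv ?_
  simp; ring

lemma XX_nonneg {t : ℝ} (ht : 0 ≤ t) : 0 ≤ XX t := by
  unfold XX; have := Ph_pos t; have := ph_sub_nonneg t; positivity

/-- lower Mills bound -/
lemma mills_lower (t : ℝ) : t * ph t ≤ (1 + t ^ 2) * Ph t := by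
  have hd : ∀ s : ℝ, HasDerivAt (fun s => Ph s - s * ph s / (1 + s ^ 2))
      (-(2 * ph s / (1 + s ^ 2) ^ 2)) s := by
    intro s
    have hs : (1 + s ^ 2 : ℝ) ≠ 0 := by positivity
    have h1 : HasDerivAt (fun s : ℝ => 1 + s ^ 2) (2 * s) s := by
      have := (hasDerivAt_pow 2 s).const_add (1:ℝ)
      refine this.congr_deriv ?_
      norm_num
    have h2 := (hasDerivAt_Ph s).fun_sub
      (((hasDerivAt_id s).fun_mul (hasDerivAt_ph s)).fun_div h1 hs)
    refine h2.congr_deriv ?_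
    simp only [id]
    field_simp
    ring
  have hanti : Antitone (fun s => Ph s - s * ph s / (1 + s ^ 2)) := by
    refine antitone_of_deriv_nonpos (fun s => (hd s).differentiableAt) fun s => ?_
    rw [(hd s).deriv]
    have := ph_pos s
    have : 0 ≤ 2 * ph s / (1 + s ^ 2) ^ 2 := by positivity
    linarith
  have hlim : Tendsto (fun s => Ph s - s * ph s / (1 + s ^ 2)) atTop (𝓝 0) := by
    have h2 : Tendsto (fun s => s * ph s / (1 + s ^ 2)) atTop (𝓝 0) := by
      refine tendsto_of_tendsto_of_tendsto_of_le_of_le' tendsto_const_nhds mul_ph_tendsto_atTop ?_ ?_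
      · filter_upwards [eventually_gt_atTop 0] with s hs
        have := ph_pos s
        positivity
      · filter_upwards [eventually_gt_atTop 0] with s hs
        rw [div_le_iff₀ (by positivity)]
        have := mul_pos hs (ph_pos s)
        nlinarith [sq_nonneg s]
    simpa using Ph_tendsto_atTop.sub h2
  have h0 : 0 ≤ Ph t - t * ph t / (1 + t ^ 2) := hanti.le_of_tendsto hlim t
  have hs : (0:ℝ) < 1 + t ^ 2 := by positivity
  have h3 : t * ph t / (1 + t ^ 2) ≤ Ph t := by linarith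
  rw [div_le_iff₀ hs] at h3
  linarith

lemma hasDerivAt_ratio (t : ℝ) :
    HasDerivAt (fun s => s * Ph s / ph s) (((1 + t ^ 2) * Ph t - t * ph t) / ph t) t := by
  have h := ((hasDerivAt_id t).fun_mul (hasDerivAt_Ph t)).fun_div (hasDerivAt_ph t) (ph_pos t).ne'
  refine h.congr_deriv ?_
  have := (ph_pos t).ne'
  simp only [id]
  field_simp
  ring

lemma ratio_mono : Monotone (fun s => s * Ph s / ph s) := by
  refine monotone_of_deriv_nonneg (fun s => (hasDerivAt_ratio s).differentiableAt) fun s => ?_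
  rw [(hasDerivAt_ratio s).deriv]
  exact div_nonneg (by linarith [mills_lower s]) (ph_pos s).le

/-- second order Taylor upper bound -/
lemma xx_le_quad {t σ : ℝ} (h : t ≤ σ) :
    xx t ≤ xx σ + XX σ * (Ph t - Ph σ) + σ * Ph σ / ph σ * (Ph t - Ph σ) ^ 2 := by
  set c := σ * Ph σ / ph σ with hc
  have hk2 : ∀ s ∈ Iic σ, 0 ≤ XX σ + 2 * c * (Ph s - Ph σ) - XX s := by
    have hd : ∀ s : ℝ, HasDerivAt (fun s => XX σ + 2 * c * (Ph s - Ph σ) - XX s)
        (-(2 * ph s * (c - s * Ph s / ph s))) s := by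
      intro s
      have h1 := ((((hasDerivAt_Ph s).sub_const (Ph σ)).const_mul (2 * c)).const_add (XX σ)).fun_sub
        (hasDerivAt_XX s)
      refine h1.congr_deriv ?_
      have := (ph_pos s).ne'
      field_simp
      ring
    have hanti : AntitoneOn (fun s => XX σ + 2 * c * (Ph s - Ph σ) - XX s) (Iic σ) := by
      refine antitoneOn_of_deriv_nonpos (convex_Iic σ)
        (fun s _ => (hd s).continuousAt.continuousWithinAt)
        (fun s _ => (hd s).differentiableAt.differentiableWithinAt) fun s hs => ?_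
      rw [(hd s).deriv]
      rw [interior_Iic] at hs
      have h1 : s * Ph s / ph s ≤ c := ratio_mono (le_of_lt hs)
      have := ph_pos s
      nlinarith
    intro s hs
    have := hanti hs (mem_Iic.2 le_rfl) hs
    simpa using this
  have hd : ∀ s : ℝ, HasDerivAt (fun s => xx σ + XX σ * (Ph s - Ph σ) + c * (Ph s - Ph σ) ^ 2 - xx s)
      (-(ph s * (XX σ + 2 * c * (Ph s - Ph σ) - XX s))) s := by
    intro s
    have h0 := (hasDerivAt_Ph s).sub_const (Ph σ)
    have h1 := (((h0.const_mul (XX σ)).const_add (xx σ)).fun_add ((h0.fun_pow 2).const_mul c)).fun_sub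
      (hasDerivAt_xx s)
    refine h1.congr_deriv ?_
    norm_num
    ring
  have hanti : AntitoneOn (fun s => xx σ + XX σ * (Ph s - Ph σ) + c * (Ph s - Ph σ) ^ 2 - xx s)
      (Iic σ) := by
    refine antitoneOn_of_deriv_nonpos (convex_Iic σ)
      (fun s _ => (hd s).continuousAt.continuousWithinAt)
      (fun s _ => (hd s).differentiableAt.differentiableWithinAt) fun s hs => ?_
    rw [(hd s).deriv]
    rw [interior_Iic] at hs
    have := hk2 s (mem_Iic.2 (le_of_lt hs))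
    have := ph_pos s
    nlinarith
  have := hanti (mem_Iic.2 h) (mem_Iic.2 le_rfl) h
  simp only [sub_self] at this
  nlinarith

end Crest.Agent.R215
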