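import Crest.Agent.R215.LibG

set_option autoImplicit false

open MeasureTheory ProbabilityTheory Set

noncomputable section

namespace Crest.Agent.R215

universe u

namespace PART

variable {E : Type u} [NormedAddCommGroup E] [InnerProductSpace ℝ E] [FiniteDimensional ℝ E]
  [MeasurableSpace E] [BorelSpace E]

/-- integral of `mx` over a partition -/
lemma em_eq_sum (s : Finset ℕ) (w : ℕ → E) (B : ℕ → Set E) (hm : ∀ i ∈ s, MeasurableSet (B i))
    (hd : ∀ i ∈ s, ∀ j ∈ s, i ≠ j → Disjoint (B i) (B j)) (hc : ∀ x, ∃ i ∈ s, x ∈ B i) :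
    em s w = ∑ i ∈ s, ∫ x in B i, mx s w x ∂(stdGaussian E) := by
  have hU : (⋃ i ∈ s, B i) = univ := by
    ext x
    simp only [mem_iUnion, exists_prop, mem_univ, iff_true]
    exact hc x
  unfold em
  rw [← setIntegral_univ, ← hU]
  refine integral_biUnion_finset s hm ?_ ?_
  · intro i hi j hj hij
    exact hd i hi j hj hij
  · intro i _
    exact (integrable_mx s w).integrableOn

lemma inner_eq (w : E) (A : Set E) :
    inner ℝ w (∫ x in A, x ∂(stdGaussian E)) = ∫ x in A, (inner ℝ x w : ℝ) ∂(stdGaussian E) := by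
  have := sg_inner_setIntegral w A
  rw [real_inner_comm]
  first
  | exact this
  | exact this.symm
  | (rw [real_inner_comm]; exact this)
  | (rw [real_inner_comm]; exact this.symm)

end PART

theorem part_ (E : Type u) [NormedAddCommGroup E] [InnerProductSpace ℝ E] [FiniteDimensional ℝ E]
    [MeasurableSpace E] [BorelSpace E] : StPart E := by
  classical
  intro s hs
  refine ⟨?_, ?_⟩
  · intro w B hm hd hc
    rw [PART.em_eq_sum s w B hm hd hc]
    refine Finset.sum_le_sum fun i hi => ?_
    rw [PART.inner_eq]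
    exact setIntegral_mono (sg_integrable_inner _).integrableOn (integrable_mx s w).integrableOn
      fun x => inner_le_mx hi
  · intro w
    let B : ℕ → Set E := fun i => {x | x ∈ cell s w i ∧ ∀ j ∈ s, j < i → x ∉ cell s w j}
    have hm : ∀ i ∈ s, MeasurableSet (B i) := by
      intro i _
      have : B i = cell s w i ∩ ⋂ j ∈ s, ⋂ (_ : j < i), (cell s w j)ᶜ := by
        ext x
        simp [B]
      rw [this]
      refine (measurableSet_cell s w i).inter ?_
      refine Finset.measurableSet_biInter s fun j _ => ?_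
      exact MeasurableSet.iInter fun _ => (measurableSet_cell s w j).compl
    have hd : ∀ i ∈ s, ∀ j ∈ s, i ≠ j → Disjoint (B i) (B j) := by
      intro i hi j hj hij
      rw [Set.disjoint_left]
      intro x hxi hxj
      rcases lt_or_gt_of_ne hij with h | h
      · exact hxj.2 i hi h hxi.1
      · exact hxi.2 j hj h hxj.1
    have hc : ∀ x, ∃ i ∈ s, x ∈ B i := by
      intro x
      have hex : ∃ i, i ∈ s ∧ x ∈ cell s w i := by
        obtain ⟨i, hi, hx⟩ := exists_mem_cell hs w x
        exact ⟨i, hi, hx⟩
      refine ⟨Nat.find hex, (Nat.find_spec hex).1, (Nat.find_spec hex).2, ?_⟩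
      intro j hj hlt hxj
      exact Nat.find_min hex hlt ⟨hj, hxj⟩
    refine ⟨B, hm, hd, hc, fun i _ x hx => hx.1, ?_⟩
    rw [PART.em_eq_sum s w B hm hd hc]
    refine Finset.sum_congr rfl fun i hi => ?_
    rw [PART.inner_eq]
    refine setIntegral_congr_fun (hm i hi) ?_
    intro x hx
    exact (mx_of_mem_cell hi hx.1).symm

end Crest.Agent.R215
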