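import Crest.Agent.R215.Defs

/-!
# Row 215, task POLY4: the quartic inequality
-/

set_option autoImplicit false

namespace Crest.Agent.R215

namespace POLY4

/-- tangent line at `1/4` -/
theorem tangent (p : ℝ) (h0 : 1376 / 10000 + 1 / 10000 ≤ p) (h1 : p ≤ 1) :
    (p * (1 - p)) ^ 2 ≤ 9 / 256 + 3 / 16 * (p - 1 / 4) := by
  have h2 : p ^ 2 - 3 / 2 * p + 3 / 16 ≤ 0 := by nlinarith
  have h3 : 0 ≤ (p - 1 / 4) ^ 2 * -(p ^ 2 - 3 / 2 * p + 3 / 16) :=
    mul_nonneg (sq_nonneg _) (by linarith)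
  nlinarith [h3]

/-- tangent line at `m` -/
theorem tangent2 (p m : ℝ) (h0 : 1138 / 10000 ≤ p) (h1 : p ≤ 7 / 10) (hm0 : 28 / 100 ≤ m)
    (hm1 : m ≤ 3 / 10) :
    (p * (1 - p)) ^ 2 ≤ (m * (1 - m)) ^ 2 + 2 * m * (1 - m) * (1 - 2 * m) * (p - m) := by
  have h2 : p ^ 2 + (2 * m - 2) * p + (3 * m ^ 2 - 4 * m + 1) ≤ 0 := by
    nlinarith [mul_nonneg (sub_nonneg.2 h0) (sub_nonneg.2 h1), mul_nonneg (sub_nonneg.2 hm0) (sub_nonneg.2 hm1),
      mul_nonneg (sub_nonneg.2 h0) (sub_nonneg.2 hm1), mul_nonneg (sub_nonneg.2 h0) (sub_nonneg.2 hm0),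
      mul_nonneg (sub_nonneg.2 h1) (sub_nonneg.2 hm0), mul_nonneg (sub_nonneg.2 h1) (sub_nonneg.2 hm1)]
  have h3 : 0 ≤ (p - m) ^ 2 * -(p ^ 2 + (2 * m - 2) * p + (3 * m ^ 2 - 4 * m + 1)) :=
    mul_nonneg (sq_nonneg _) (by linarith)
  nlinarith [h3]

theorem key (a b c d : ℝ) (ha : 1138 / 10000 ≤ a) (hb : 1138 / 10000 ≤ b) (hc : 1138 / 10000 ≤ c)
    (hd : 1138 / 10000 ≤ d) (hs : a + b + c + d = 1) (hd2 : d ≤ 1377 / 10000) :
    (a * (1 - a)) ^ 2 + (b * (1 - b)) ^ 2 + (c * (1 - c)) ^ 2 + (d * (1 - d)) ^ 2 ≤ 9 / 64 := by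
  obtain ⟨m, hm⟩ : ∃ m, m = (1 - d) / 3 := ⟨_, rfl⟩
  have hm0 : 28 / 100 ≤ m := by linarith
  have hm1 : m ≤ 3 / 10 := by linarith
  have h1 := tangent2 a m ha (by linarith) hm0 hm1
  have h2 := tangent2 b m hb (by linarith) hm0 hm1
  have h3 := tangent2 c m hc (by linarith) hm0 hm1
  have hsum : 2 * m * (1 - m) * (1 - 2 * m) * (a - m) + 2 * m * (1 - m) * (1 - 2 * m) * (b - m) +
      2 * m * (1 - m) * (1 - 2 * m) * (c - m) = 0 := by
    have : a + b + c = 3 * m := by linarith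
    linear_combination 2 * m * (1 - m) * (1 - 2 * m) * this
  have h4 : 3 * (m * (1 - m)) ^ 2 + (d * (1 - d)) ^ 2 ≤ 9 / 64 := by
    have hd3 : d = 1 - 3 * m := by linarith
    subst hd3
    have hm2 : m ≤ 2955 / 10000 := by linarith
    have hm3 : 2874 / 10000 ≤ m := by linarith
    have e : 3 * (m * (1 - m)) ^ 2 + ((1 - 3 * m) * (1 - (1 - 3 * m))) ^ 2 =
      84 * m ^ 4 - 60 * m ^ 3 + 12 * m ^ 2 := by ring
    rw [e]
    have h5 : 0 ≤ (m - 2874 / 10000) * (2955 / 10000 - m) := mul_nonneg (by linarith) (by linarith)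
    nlinarith [mul_nonneg h5 (sq_nonneg m), mul_nonneg h5 (show (0:ℝ) ≤ m by linarith), h5]
  linarith

end POLY4

open POLY4 in
theorem poly4 : StPoly4 := by
  intro a b c d ha hb hc hd hs
  by_cases h1 : a ≤ 1377 / 10000
  · have := key d b c a hd hb hc ha (by linarith) h1
    linarith
  by_cases h2 : b ≤ 1377 / 10000
  · have := key a d c b ha hd hc hb (by linarith) h2
    linarith
  by_cases h3 : c ≤ 1377 / 10000
  · have := key a b d c ha hb hd hc (by linarith) h3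
    linarith
  by_cases h4 : d ≤ 1377 / 10000
  · exact key a b c d ha hb hc hd hs h4
  push Not at h1 h2 h3 h4
  have t1 := tangent a (by linarith) (by linarith)
  have t2 := tangent b (by linarith) (by linarith)
  have t3 := tangent c (by linarith) (by linarith)
  have t4 := tangent d (by linarith) (by linarith)
  linarith

end Crest.Agent.R215
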