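import Crest.Agent.R215.Defs

set_option autoImplicit false

noncomputable section

namespace Crest.Agent.R215

universe u

namespace QGEO

theorem CC_lb : 358 / 1000 < CC := by
  unfold CC
  have h := Real.pi_lt_d6
  have h0 := Real.pi_pos
  rw [lt_div_iff₀ (by positivity)]
  nlinarith

/-- sum of squares -/
theorem sq_sum (a b c d n : ℝ) (ha : -n ≤ a) (hb : -n ≤ b) (hc : -n ≤ c) (hd : -n ≤ d) :
    a ^ 2 + b ^ 2 + c ^ 2 + d ^ 2 ≤ (a + b + c + d + 4 * n) ^ 2 - 2 * n * (a + b + c + d) - 4 * n ^ 2 := by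
  have h1 := mul_nonneg (by linarith : 0 ≤ a + n) (by linarith : 0 ≤ b + n)
  have h2 := mul_nonneg (by linarith : 0 ≤ a + n) (by linarith : 0 ≤ c + n)
  have h3 := mul_nonneg (by linarith : 0 ≤ a + n) (by linarith : 0 ≤ d + n)
  have h4 := mul_nonneg (by linarith : 0 ≤ b + n) (by linarith : 0 ≤ c + n)
  have h5 := mul_nonneg (by linarith : 0 ≤ b + n) (by linarith : 0 ≤ d + n)
  have h6 := mul_nonneg (by linarith : 0 ≤ c + n) (by linarith : 0 ≤ d + n)
  nlinarith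

theorem prod_lb (A B m W : ℝ) (hA : m ≤ A) (hB : m ≤ B) (hS : A + B = 2 * W) :
    m * (2 * W - m) ≤ A * B := by
  have h1 := mul_nonneg (sub_nonneg.2 hA) (sub_nonneg.2 hB)
  have h2 : (A - m) * (B - m) = A * B - m * (A + B) + m ^ 2 := by ring
  rw [h2, hS] at h1
  linarith [h1, (by ring : m * (2 * W - m) = m * (2 * W) - m ^ 2)]

theorem fin1 (w W n η P : ℝ) (hn0 : 0 ≤ n) (hn1 : n ≤ 181 / 1000000)
    (hW : 17719 / 100000 ≤ W) (hw1 : 21665 / 1000000 ≤ w) (hw2 : w ≤ 26 / 1000)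
    (hη0 : -4 * n ≤ η) (hc : η ≤ 2 * w) (hP : 2 * w * (2 * W - 2 * w) ≤ P)
    (hS : P - (η + 4 * n) ^ 2 + 2 * n * η + 4 * n ^ 2 < 108 / 10000) : False := by
  have h3 : (η + 4 * n) ^ 2 ≤ (2 * w + 4 * n) ^ 2 := by
    apply pow_le_pow_left₀ <;> linarith
  have h4 : -(8 * n ^ 2) ≤ 2 * n * η := by
    have := mul_le_mul_of_nonneg_left hη0 (by linarith : 0 ≤ 2 * n)
    linarith [(by ring : 2 * n * (-4 * n) = -(8 * n ^ 2))]
  have h6 : 2 * w * (2 * (17719 / 100000) - 2 * w) ≤ 2 * w * (2 * W - 2 * w) := by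
    apply mul_le_mul_of_nonneg_left <;> linarith
  have h7 : (2 * w + 4 * n) ^ 2 ≤ (2 * w + 724 / 1000000) ^ 2 := by
    apply pow_le_pow_left₀ <;> linarith
  have h8 : n ^ 2 ≤ (181 / 1000000) ^ 2 := by
    apply pow_le_pow_left₀ <;> linarith
  have h9 : 2 * w * (2 * (17719 / 100000) - 2 * w) - (2 * w + 724 / 1000000) ^ 2
      - 4 * (181 / 1000000) ^ 2 < 108 / 10000 := by linarith
  have h10 := mul_nonneg (by linarith : 0 ≤ w - 21665 / 1000000)
      (by linarith : 0 ≤ 26 / 1000 - w)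
  nlinarith [h9, h10]

theorem fin2 (w W n η P : ℝ) (hn0 : 0 ≤ n) (hn1 : n ≤ 181 / 1000000)
    (hW : 17719 / 100000 ≤ W) (hw1 : 21665 / 1000000 ≤ w)
    (hηW : η ≤ 2 / 3 * W) (hc : 2 * w < η) (hP : (η - 2 * n) * (2 * W - (η - 2 * n)) ≤ P)
    (hS : P - (η + 4 * n) ^ 2 + 2 * n * η + 4 * n ^ 2 < 108 / 10000) : False := by
  have h3 : 2 * η * (W - η) - 2 * (η * n) - 4 * (W * n) - 16 * n ^ 2 < 108 / 10000 := by
    have e : (η - 2 * n) * (2 * W - (η - 2 * n)) - (η + 4 * n) ^ 2 + 2 * n * η + 4 * n ^ 2 =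
      2 * η * (W - η) - 2 * (η * n) - 4 * (W * n) - 16 * n ^ 2 := by ring
    linarith
  have hη1 : 4333 / 100000 ≤ η := by linarith
  have h4 : η * n ≤ η * (181 / 1000000) := mul_le_mul_of_nonneg_left hn1 (by linarith)
  have h5 : W * n ≤ W * (181 / 1000000) := mul_le_mul_of_nonneg_left hn1 (by linarith)
  have h8 : n ^ 2 ≤ (181 / 1000000) ^ 2 := by
    apply pow_le_pow_left₀ <;> linarith
  have h9 : 2 * η * (W - η) - 2 * (η * (181 / 1000000)) - 4 * (W * (181 / 1000000))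
      - 16 * (181 / 1000000) ^ 2 < 108 / 10000 := by linarith
  by_cases h10 : η ≤ 1181 / 10000
  · have h11 : (2 * η - 4 * (181 / 1000000)) * (17719 / 100000) ≤
        (2 * η - 4 * (181 / 1000000)) * W := by
      apply mul_le_mul_of_nonneg_left <;> linarith
    have h12 := mul_nonneg (by linarith : 0 ≤ η - 4333 / 100000)
      (by linarith : 0 ≤ 1181 / 10000 - η)
    nlinarith [h9, h11, h12]
  · push Not at h10
    have h11 : (2 * η - 4 * (181 / 1000000)) * (3 / 2 * η) ≤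
        (2 * η - 4 * (181 / 1000000)) * W := by
      apply mul_le_mul_of_nonneg_left <;> linarith
    have h12 : (1181 / 10000) * (1181 / 10000) ≤ η * η := by
      apply mul_self_le_mul_self <;> linarith
    nlinarith [h9, h11, h12]

theorem core (r1 r2 r3 r4 w12 w13 w14 w23 w24 w34 q : ℝ)
    (e1 : r1 = w12 + w13 + w14) (e2 : r2 = w12 + w23 + w24) (e3 : r3 = w13 + w23 + w34)
    (e4 : r4 = w14 + w24 + w34) (hq0 : 0 ≤ q) (hq : q ≤ 289 / 100000)
    (h12 : -(q / 16) ≤ w12) (h13 : -(q / 16) ≤ w13) (h14 : -(q / 16) ≤ w14)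
    (h23 : -(q / 16) ≤ w23) (h24 : -(q / 16) ≤ w24) (h34 : -(q / 16) ≤ w34)
    (g1 : 26 / 1000 - 3 / 2 * q ≤ r1) (g2 : 26 / 1000 - 3 / 2 * q ≤ r2)
    (g3 : 26 / 1000 - 3 / 2 * q ≤ r3) (g4 : 26 / 1000 - 3 / 2 * q ≤ r4)
    (hV : 358 / 1000 - 5 / 4 * q ≤ r1 + r2 + r3 + r4)
    (z1 : w13 + w24 ≤ w12 + w34) (z2 : w14 + w23 ≤ w12 + w34) :
    27 / 10000 ≤ r1 * r3 - w13 ^ 2 ∨ 27 / 10000 ≤ r1 * r4 - w14 ^ 2 ∨
      27 / 10000 ≤ r2 * r3 - w23 ^ 2 ∨ 27 / 10000 ≤ r2 * r4 - w24 ^ 2 := by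
  by_contra hcon
  push Not at hcon
  obtain ⟨c1, c2, c3, c4⟩ := hcon
  have hss := sq_sum w13 w14 w23 w24 (q / 16) h13 h14 h23 h24
  have hprod : (r1 + r2) * (r3 + r4) - (w13 ^ 2 + w14 ^ 2 + w23 ^ 2 + w24 ^ 2) < 108 / 10000 := by
    have : (r1 + r2) * (r3 + r4) = r1 * r3 + r1 * r4 + r2 * r3 + r2 * r4 := by ring
    linarith
  have hS : (r1 + r2) * (r3 + r4) - ((w13 + w14 + w23 + w24) + 4 * (q / 16)) ^ 2 +
      2 * (q / 16) * (w13 + w14 + w23 + w24) + 4 * (q / 16) ^ 2 < 108 / 10000 := by linarith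
  have hWlb : 17719 / 100000 ≤ (r1 + r2 + r3 + r4) / 2 := by linarith
  have hηW : w13 + w14 + w23 + w24 ≤ 2 / 3 * ((r1 + r2 + r3 + r4) / 2) := by linarith
  by_cases hc : w13 + w14 + w23 + w24 ≤ 2 * (26 / 1000 - 3 / 2 * q)
  · exact fin1 (26 / 1000 - 3 / 2 * q) ((r1 + r2 + r3 + r4) / 2) (q / 16)
      (w13 + w14 + w23 + w24) _ (by linarith) (by linarith) hWlb (by linarith) (by linarith)
      (by linarith) hc (prod_lb _ _ _ _ (by linarith) (by linarith) (by ring)) hS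
  · push Not at hc
    exact fin2 (26 / 1000 - 3 / 2 * q) ((r1 + r2 + r3 + r4) / 2) (q / 16)
      (w13 + w14 + w23 + w24) _ (by linarith) (by linarith) hWlb (by linarith) hηW hc
      (prod_lb _ _ _ _ (by linarith) (by linarith) (by ring)) hS

theorem main (r1 r2 r3 r4 w12 w13 w14 w23 w24 w34 q : ℝ)
    (e1 : r1 = w12 + w13 + w14) (e2 : r2 = w12 + w23 + w24) (e3 : r3 = w13 + w23 + w34)
    (e4 : r4 = w14 + w24 + w34) (hq0 : 0 ≤ q) (hq : q ≤ 289 / 100000)
    (h12 : -(q / 16) ≤ w12) (h13 : -(q / 16) ≤ w13) (h14 : -(q / 16) ≤ w14)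
    (h23 : -(q / 16) ≤ w23) (h24 : -(q / 16) ≤ w24) (h34 : -(q / 16) ≤ w34)
    (g1 : 26 / 1000 - 3 / 2 * q ≤ r1) (g2 : 26 / 1000 - 3 / 2 * q ≤ r2)
    (g3 : 26 / 1000 - 3 / 2 * q ≤ r3) (g4 : 26 / 1000 - 3 / 2 * q ≤ r4)
    (hV : 358 / 1000 - 5 / 4 * q ≤ r1 + r2 + r3 + r4) :
    27 / 10000 ≤ r1 * r2 - w12 ^ 2 ∨ 27 / 10000 ≤ r1 * r3 - w13 ^ 2 ∨
      27 / 10000 ≤ r1 * r4 - w14 ^ 2 ∨ 27 / 10000 ≤ r2 * r3 - w23 ^ 2 ∨
      27 / 10000 ≤ r2 * r4 - w24 ^ 2 ∨ 27 / 10000 ≤ r3 * r4 - w34 ^ 2 := by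
  by_cases hA : w13 + w24 ≤ w12 + w34 ∧ w14 + w23 ≤ w12 + w34
  · rcases core r1 r2 r3 r4 w12 w13 w14 w23 w24 w34 q e1 e2 e3 e4 hq0 hq h12 h13 h14 h23 h24 h34
      g1 g2 g3 g4 hV hA.1 hA.2 with h | h | h | h <;> tauto
  by_cases hB : w12 + w34 ≤ w13 + w24 ∧ w14 + w23 ≤ w13 + w24
  · -- swap 2 and 3
    rcases core r1 r3 r2 r4 w13 w12 w14 w23 w34 w24 q (by linarith) (by linarith) (by linarith)
      (by linarith) hq0 hq h13 h12 h14 h23 h34 h24 g1 g3 g2 g4 (by linarith) hB.1 hB.2 with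
      h | h | h | h
    · tauto
    · tauto
    · right; right; right; left; rw [mul_comm r2 r3]; exact h
    · tauto
  · -- swap 2 and 4
    have hC : w12 + w34 ≤ w14 + w23 ∧ w13 + w24 ≤ w14 + w23 := by
      constructor
      · by_contra h1
        push Not at h1
        apply hA
        constructor
        · by_contra h2
          push Not at h2
          exact hB ⟨by linarith, by linarith⟩
        · linarith
      · by_contra h1
        push Not at h1
        by_cases h2 : w13 + w24 ≤ w12 + w34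
        · exact hA ⟨h2, by linarith⟩
        · push Not at h2
          exact hB ⟨by linarith, by linarith⟩
    rcases core r1 r4 r3 r2 w14 w13 w12 w34 w24 w23 q (by linarith) (by linarith) (by linarith)
      (by linarith) hq0 hq h14 h13 h12 h34 h24 h23 g1 g4 g3 g2 (by linarith) hC.2 hC.1 with
      h | h | h | h
    · tauto
    · tauto
    · right; right; right; right; right; rw [mul_comm r3 r4]; exact h
    · right; right; right; right; left; rw [mul_comm r2 r4]; exact h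

end QGEO

open QGEO in
theorem qgeo (E : Type u) [NormedAddCommGroup E] [InnerProductSpace ℝ E] [FiniteDimensional ℝ E]
    [MeasurableSpace E] [BorelSpace E] : StQgeo E := by
  intro t J q hJ hsum hq0 hq hin hr hV
  obtain ⟨a, s, has, rfl, hs⟩ := Finset.card_eq_succ.1 hJ
  obtain ⟨b, c, d, hbc, hbd, hcd, rfl⟩ := Finset.card_eq_three.1 hs
  simp only [Finset.mem_insert, Finset.mem_singleton, not_or] at has
  obtain ⟨hab, hac, had⟩ := has
  have hsum4 : t a + t b + t c + t d = 0 := by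
    rw [Finset.sum_insert (by simp [hab, hac, had]), Finset.sum_insert (by simp [hbc, hbd]),
      Finset.sum_insert (by simp [hcd]), Finset.sum_singleton] at hsum
    rw [← hsum]; abel
  have hV4 : VV {a, b, c, d} t = ‖t a‖ ^ 2 + ‖t b‖ ^ 2 + ‖t c‖ ^ 2 + ‖t d‖ ^ 2 := by
    unfold VV
    rw [Finset.sum_insert (by simp [hab, hac, had]), Finset.sum_insert (by simp [hbc, hbd]),
      Finset.sum_insert (by simp [hcd]), Finset.sum_singleton]
    ring
  rw [hV4] at hV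
  have hma : a ∈ ({a, b, c, d} : Finset ℕ) := by simp
  have hmb : b ∈ ({a, b, c, d} : Finset ℕ) := by simp
  have hmc : c ∈ ({a, b, c, d} : Finset ℕ) := by simp
  have hmd : d ∈ ({a, b, c, d} : Finset ℕ) := by simp
  have inn : ∀ x : E, inner ℝ x (t a) + inner ℝ x (t b) + inner ℝ x (t c) + inner ℝ x (t d) = 0 := by
    intro x
    rw [← inner_add_right, ← inner_add_right, ← inner_add_right, hsum4, inner_zero_right]
  have na := inn (t a)
  have nb := inn (t b)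
  have nc := inn (t c)
  have nd := inn (t d)
  rw [real_inner_self_eq_norm_sq] at na nb nc nd
  have sba := real_inner_comm (t a) (t b)
  have sca := real_inner_comm (t a) (t c)
  have sda := real_inner_comm (t a) (t d)
  have scb := real_inner_comm (t b) (t c)
  have sdb := real_inner_comm (t b) (t d)
  have sdc := real_inner_comm (t c) (t d)
  have hCC := CC_lb
  rcases main (‖t a‖ ^ 2) (‖t b‖ ^ 2) (‖t c‖ ^ 2) (‖t d‖ ^ 2) (-inner ℝ (t a) (t b))
    (-inner ℝ (t a) (t c)) (-inner ℝ (t a) (t d)) (-inner ℝ (t b) (t c)) (-inner ℝ (t b) (t d))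
    (-inner ℝ (t c) (t d)) q (by linarith) (by linarith) (by linarith) (by linarith) hq0 hq
    (by linarith [hin a hma b hmb hab]) (by linarith [hin a hma c hmc hac])
    (by linarith [hin a hma d hmd had]) (by linarith [hin b hmb c hmc hbc])
    (by linarith [hin b hmb d hmd hbd]) (by linarith [hin c hmc d hmd hcd])
    (hr a hma) (hr b hmb) (hr c hmc) (hr d hmd) (by linarith) with h | h | h | h | h | h
  · exact ⟨a, hma, b, hmb, hab, by rw [neg_sq] at h; exact h⟩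
  · exact ⟨a, hma, c, hmc, hac, by rw [neg_sq] at h; exact h⟩
  · exact ⟨a, hma, d, hmd, had, by rw [neg_sq] at h; exact h⟩
  · exact ⟨b, hmb, c, hmc, hbc, by rw [neg_sq] at h; exact h⟩
  · exact ⟨b, hmb, d, hmd, hbd, by rw [neg_sq] at h; exact h⟩
  · exact ⟨c, hmc, d, hmd, hcd, by rw [neg_sq] at h; exact h⟩

end Crest.Agent.R215
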