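import Crest.Agent.R215.Defs
import Crest.Agent.R215.Lib1
import Crest.Agent.R215.LibG

set_option autoImplicit false

open MeasureTheory ProbabilityTheory Set

noncomputable section

namespace Crest.Agent.R215

universe u

namespace QREM

/-- real inequality for the quadratic form -/
theorem quad (p r β A B g n T : ℝ) (hβ : 0 ≤ β) (hp : p ≤ β) (hr : r ≤ β) (hpr : -(2 * β) ≤ p + r)
    (hA : A ≤ T) (hB : B ≤ T) (hT : 0 ≤ T) (hg : g ≤ n) (hn : 0 ≤ n) (hgT : -T ≤ g) :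
    p ^ 2 * B - 2 * (p * r * g) + r ^ 2 * A ≤ β ^ 2 * (10 * T + 6 * n) := by
  have h1 : p ^ 2 * B ≤ p ^ 2 * T := mul_le_mul_of_nonneg_left hB (sq_nonneg _)
  have h2 : r ^ 2 * A ≤ r ^ 2 * T := mul_le_mul_of_nonneg_left hA (sq_nonneg _)
  have hβT : 0 ≤ β ^ 2 * T := by positivity
  have hβn : 0 ≤ β ^ 2 * n := by positivity
  rcases le_total 0 (p * r) with h | h
  · have h3 : -(2 * (p * r * g)) ≤ 2 * (p * r) * T := by
      have := mul_le_mul_of_nonneg_left (by linarith : -g ≤ T) h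
      linarith
    have h4 : (p + r) ^ 2 ≤ (2 * β) ^ 2 := by
      apply sq_le_sq'
      · linarith
      · linarith
    have h5 := mul_le_mul_of_nonneg_right h4 hT
    have e5 : (p + r) ^ 2 * T = p ^ 2 * T + 2 * (p * r) * T + r ^ 2 * T := by ring
    have e6 : (2 * β) ^ 2 * T = 4 * (β ^ 2 * T) := by ring
    have e7 : β ^ 2 * (10 * T + 6 * n) = 10 * (β ^ 2 * T) + 6 * (β ^ 2 * n) := by ring
    linarith
  · have e7 : β ^ 2 * (10 * T + 6 * n) = 10 * (β ^ 2 * T) + 6 * (β ^ 2 * n) := by ring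
    have h3 : -(2 * (p * r * g)) ≤ 2 * (-(p * r)) * n := by
      have := mul_le_mul_of_nonneg_left hg (by linarith : 0 ≤ -(p * r))
      linarith
    have key : ∀ x y : ℝ, x ≤ β → 0 ≤ x → y ≤ 0 → -(2 * β) ≤ x + y →
        x ^ 2 + y ^ 2 ≤ 10 * β ^ 2 ∧ -(x * y) ≤ 3 * β ^ 2 := by
      intro x y hx hx0 hy hxy
      have hy' : -(3 * β) ≤ y := by linarith
      have h5 : x ^ 2 ≤ β ^ 2 := pow_le_pow_left₀ hx0 hx 2
      have h6 : y ^ 2 ≤ (3 * β) ^ 2 := by
        apply sq_le_sq'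
        · linarith
        · linarith
      have h7 : x * (-y) ≤ β * (3 * β) := mul_le_mul hx (by linarith) (by linarith) hβ
      constructor
      · nlinarith
      · nlinarith
    have h8 : p ^ 2 + r ^ 2 ≤ 10 * β ^ 2 ∧ -(p * r) ≤ 3 * β ^ 2 := by
      rcases le_total 0 p with h9 | h9
      · rcases le_total r 0 with h10 | h10
        · exact key p r hp h9 h10 hpr
        · -- both nonneg, product ≤ 0
          have h11 : p * r = 0 := le_antisymm h (mul_nonneg h9 h10)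
          have h5 : p ^ 2 ≤ β ^ 2 := pow_le_pow_left₀ h9 hp 2
          have h6 : r ^ 2 ≤ β ^ 2 := pow_le_pow_left₀ h10 hr 2
          have h7 := sq_nonneg β
          constructor <;> nlinarith
      · rcases le_total r 0 with h10 | h10
        · have h11 : p * r = 0 := le_antisymm h (mul_nonneg_of_nonpos_of_nonpos h9 h10)
          have h7 := sq_nonneg β
          have h12 : (p + r) ^ 2 ≤ (2 * β) ^ 2 := by
            apply sq_le_sq'
            · linarith
            · linarith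
          constructor <;> nlinarith
        · obtain ⟨h11, h12⟩ := key r p hr h10 h9 (by linarith)
          constructor
          · linarith
          · linarith
    have h9 : (p ^ 2 + r ^ 2) * T ≤ (10 * β ^ 2) * T := mul_le_mul_of_nonneg_right h8.1 hT
    have h10 : 2 * (-(p * r)) * n ≤ 2 * (3 * β ^ 2) * n := by
      have := mul_le_mul_of_nonneg_right h8.2 hn
      linarith
    have e9 : (p ^ 2 + r ^ 2) * T = p ^ 2 * T + r ^ 2 * T := by ring
    have e10 : (10 * β ^ 2) * T = 10 * (β ^ 2 * T) := by ring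
    have e11 : 2 * (3 * β ^ 2) * n = 6 * (β ^ 2 * n) := by ring
    linarith

/-- final numerics -/
theorem num (q c d : ℝ) (hq0 : 0 ≤ q) (hq : q ≤ 289 / 100000) (hc0 : 0 ≤ c)
    (hc : c ≤ 3387 / 10000) (hd : 0 < d) (hdd : d ^ 2 = 27 / 10000 - 1596 / 16000 * q) :
    675 / 1024 * (c * Real.sqrt q / d) ≤ 1 / 4 := by
  have h1 : (675 / 1024 * (c * Real.sqrt q / d)) ^ 2 ≤ (1 / 4) ^ 2 := by
    have e : (675 / 1024 * (c * Real.sqrt q / d)) ^ 2 =
        (675 / 1024) ^ 2 * c ^ 2 * q / d ^ 2 := by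
      rw [mul_pow, div_pow (c * Real.sqrt q), mul_pow c, Real.sq_sqrt hq0]; ring
    rw [e, div_le_iff₀ (by positivity), hdd]
    have h2 : c ^ 2 ≤ (3387 / 10000) ^ 2 := pow_le_pow_left₀ hc0 hc 2
    have h3 := mul_le_mul_of_nonneg_right h2 hq0
    nlinarith
  exact abs_le_of_sq_le_sq' h1 (by norm_num) |>.2

theorem c4_le : 8 * c0 / (3 * Real.pi) ≤ 3387 / 10000 := by
  rw [div_le_iff₀ (by positivity)]
  have h1 := c0_lt
  have h2 := Real.pi_gt_d4
  nlinarith

end QREM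

open QREM in
theorem qrem (E : Type u) [NormedAddCommGroup E] [InnerProductSpace ℝ E] [FiniteDimensional ℝ E]
    [MeasurableSpace E] [BorelSpace E] (nr : StNR E) (loss : StLoss E) (neg_ : StNeg E)
    (half : StHalf E) (lam4 : StLam4 E) (qg : StQgeo E) : StQrem E := by
  intro s J z hcr hJs hJ4 hqle hzj
  set q := VV (s \ J) z with hq
  have hJsub : J ⊆ s := hJs.1
  have hJne : J.Nonempty := by
    rw [← Finset.card_pos, hJ4]; norm_num
  obtain ⟨i₀, hi₀⟩ : (s \ J).Nonempty := Finset.sdiff_nonempty.2 hJs.2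
  obtain ⟨n1, n2, n3, n4, n5, n6, n7, n8⟩ := neg_ s J z hcr hJsub hJne
  set t := tt s J z with ht
  set zr := zR s J z with hzr
  rw [hJ4] at n2 n3 n6 n7 n8
  push_cast at n2 n3 n6 n7 n8
  have hER : ER s J z = q + ‖zr‖ ^ 2 / 4 := by
    unfold ER
    rw [hJ4]
    push_cast
    rfl
  have hnn : ∀ i ∈ s \ J, ‖z i‖ ^ 2 ≤ q := by
    intro i hi
    rw [hq]
    unfold VV
    exact Finset.single_le_sum (f := fun i => ‖z i‖ ^ 2) (fun j _ => sq_nonneg _) hi
  have hzpos : ∀ i ∈ s, z i ≠ 0 := by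
    intro i hi h0
    obtain ⟨j, hj, hji⟩ : ∃ j ∈ s, j ≠ i := by
      obtain ⟨a, ha, b, hb, hab⟩ := Finset.one_lt_card.1 (by rw [hJ4]; norm_num : 1 < J.card)
      by_cases h : a = i
      · exact ⟨b, hJsub hb, fun h' => hab (h.trans h'.symm)⟩
      · exact ⟨a, hJsub ha, h⟩
    have := hcr.neg i hi j hj hji.symm
    rw [h0, inner_zero_left] at this
    exact lt_irrefl _ this
  have hqpos : 0 < q := by
    have h1 := hnn i₀ hi₀
    have h2 := hzpos i₀ (Finset.mem_sdiff.1 hi₀).1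
    have h3 : 0 < ‖z i₀‖ ^ 2 := by positivity
    linarith
  have hzr0 : 0 ≤ ‖zr‖ ^ 2 := sq_nonneg _
  have hVlb : CC - 5 / 4 * q ≤ VV J t := by
    rw [n5, hER]
    have := hcr.big
    linarith
  -- the pair
  obtain ⟨a, ha, b, hb, hab, hG⟩ := qg t J q hJ4 n1 hqpos.le hqle
    (fun i hi j hj hij => (n8 i hi j hj hij).trans (by
      have : ‖zr‖ ^ 2 / 4 ^ 2 ≤ q / 16 := by linarith
      exact this))
    (fun j hj => by
      have h1 := n6 j hj
      have h2 := hzj j hj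
      have h3 : 2 * ‖zr‖ ^ 2 / 4 ≤ q / 2 := by linarith
      linarith) hVlb
  -- upper bounds of norms
  have hT : ∀ j ∈ J, ‖t j‖ ^ 2 ≤ 1594 / 10000 := by
    intro j hj
    have h1 := n7 j hj
    have h2 := (half s z hcr).2.2 j (hJsub hj) 0
    rw [zero_mul, sub_zero, ph_zero] at h2
    have h3 : ‖z j‖ ^ 2 ≤ c0 ^ 2 := pow_le_pow_left₀ (norm_nonneg _) h2 2
    have h4 : c0 ^ 2 ≤ (39895 / 100000) ^ 2 := pow_le_pow_left₀ c0_pos.le c0_lt.le 2
    have h5 : ‖zr‖ ^ 2 / 4 ^ 2 ≤ q / 16 := by linarith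
    nlinarith
  obtain ⟨δ, hδ0, hδ2⟩ : ∃ δ : ℝ, 0 < δ ∧ δ ^ 2 = 27 / 10000 - 1596 / 16000 * q := by
    have h1 : 0 < 27 / 10000 - 1596 / 16000 * q := by linarith
    exact ⟨Real.sqrt (27 / 10000 - 1596 / 16000 * q), Real.sqrt_pos.2 h1, Real.sq_sqrt h1.le⟩
  set c4 := 8 * c0 / (3 * Real.pi) with hc4
  have hc4pos : 0 < c4 := by
    have := c0_pos
    positivity
  have hsq : 0 < Real.sqrt q := Real.sqrt_pos.2 hqpos
  -- bound of Lam
  have hLam : ∀ y : E, ‖y‖ ^ 2 ≤ q → (∀ j ∈ J, inner ℝ y (t j) ≤ ‖y‖ ^ 2 / 4) →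
      Lam J t ((3 / 4 * ((4 + 1) / 4 : ℝ)) • y) ≤
        c4 * (15 / 16) ^ 3 * Real.sqrt q / δ * ‖y‖ ^ 2 := by
    intro y hyq hyt
    by_cases hy : y = 0
    · subst hy
      have h0 : Lam J t ((3 / 4 * ((4 + 1) / 4 : ℝ)) • (0 : E)) = 0 := by
        unfold Lam
        have : ∀ x : E, max (inner ℝ x ((3 / 4 * ((4 + 1) / 4 : ℝ)) • (0 : E)) - mx J t x) 0 = 0 := by
          intro x
          rw [smul_zero, inner_zero_right, zero_sub]
          exact max_eq_right (neg_nonpos.2 (mx_nonneg_of_sum n1 x))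
        rw [integral_congr_ae (ae_of_all _ this), integral_zero]
      rw [h0]
      simp
    · have hny : 0 < ‖y‖ := norm_pos_iff.2 hy
      have hk : (0 : ℝ) < 3 / 4 * ((4 + 1) / 4 : ℝ) := by norm_num
      set y' := (3 / 4 * ((4 + 1) / 4 : ℝ)) • y with hy'
      have hy'0 : y' ≠ 0 := smul_ne_zero hk.ne' hy
      have hny' : ‖y'‖ = 15 / 16 * ‖y‖ := by
        rw [hy', norm_smul, Real.norm_of_nonneg hk.le]; norm_num
      -- quadratic form
      set β := ‖y‖ ^ 2 / 4 with hβ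
      have hβ0 : 0 ≤ β := by positivity
      set p := inner ℝ y (t a) with hp
      set r := inner ℝ y (t b) with hr
      have hpr : -(2 * β) ≤ p + r := by
        have h1 : ∑ j ∈ J, inner ℝ y (t j) = 0 := by
          rw [← inner_sum, n1, inner_zero_right]
        have hab' : b ∈ J.erase a := Finset.mem_erase.2 ⟨hab.symm, hb⟩
        rw [← Finset.add_sum_erase _ _ ha, ← Finset.add_sum_erase _ _ hab'] at h1
        have h2 : ∑ j ∈ (J.erase a).erase b, inner ℝ y (t j) ≤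
            ((J.erase a).erase b).card • β := by
          apply Finset.sum_le_card_nsmul
          intro j hj
          exact hyt j (Finset.mem_of_mem_erase (Finset.mem_of_mem_erase hj))
        have h3 : ((J.erase a).erase b).card = 2 := by
          rw [Finset.card_erase_of_mem hab', Finset.card_erase_of_mem ha, hJ4]
        rw [h3] at h2
        have h4 : (2 : ℕ) • β = 2 * β := by simp
        rw [h4] at h2
        linarith
      have hgT : -(1594 / 10000) ≤ inner ℝ (t a) (t b) := by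
        have h1 := abs_real_inner_le_norm (t a) (t b)
        have h2 := hT a ha
        have h3 := hT b hb
        have h4 := two_mul_le_add_sq ‖t a‖ ‖t b‖
        have h5 := (abs_le.1 h1).1
        nlinarith
      have hquad := quad p r β (‖t a‖ ^ 2) (‖t b‖ ^ 2) (inner ℝ (t a) (t b)) (q / 16)
        (1594 / 10000) hβ0 (hyt a ha) (hyt b hb) hpr (hT a ha) (hT b hb) (by norm_num)
        ((n8 a ha b hb hab).trans (by
          have : ‖zr‖ ^ 2 / 4 ^ 2 ≤ q / 16 := by linarith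
          exact this)) (by positivity) hgT
      have hform : ‖p • t b - r • t a‖ ^ 2 =
          p ^ 2 * ‖t b‖ ^ 2 - 2 * (p * r * inner ℝ (t a) (t b)) + r ^ 2 * ‖t a‖ ^ 2 := by
        rw [norm_sub_sq_real, norm_smul, norm_smul, mul_pow, mul_pow, Real.norm_eq_abs,
          Real.norm_eq_abs, sq_abs, sq_abs, inner_smul_left, inner_smul_right,
          real_inner_comm (t a) (t b)]
        simp only [conj_trivial]
        ring
      have hcond : δ ^ 2 * ‖y‖ ^ 2 ≤ (‖t a‖ ^ 2 * ‖t b‖ ^ 2 - (inner ℝ (t a) (t b)) ^ 2) * ‖y‖ ^ 2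
          - ‖p • t b - r • t a‖ ^ 2 := by
        rw [hform]
        have h1 : (27 / 10000) * ‖y‖ ^ 2 ≤
            (‖t a‖ ^ 2 * ‖t b‖ ^ 2 - (inner ℝ (t a) (t b)) ^ 2) * ‖y‖ ^ 2 :=
          mul_le_mul_of_nonneg_right hG (sq_nonneg _)
        have h2 : β ^ 2 * (10 * (1594 / 10000) + 6 * (q / 16)) ≤ 1596 / 16000 * q * ‖y‖ ^ 2 := by
          have e1 : β ^ 2 = ‖y‖ ^ 2 * ‖y‖ ^ 2 / 16 := by rw [hβ]; ring
          rw [e1]
          have h3 : ‖y‖ ^ 2 * ‖y‖ ^ 2 ≤ q * ‖y‖ ^ 2 := mul_le_mul_of_nonneg_right hyq (sq_nonneg _)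
          have h4 : 10 * (1594 / 10000) + 6 * (q / 16) ≤ 1596 / 1000 := by linarith
          have h5 : ‖y‖ ^ 2 * ‖y‖ ^ 2 / 16 * (10 * (1594 / 10000) + 6 * (q / 16)) ≤
              ‖y‖ ^ 2 * ‖y‖ ^ 2 / 16 * (1596 / 1000) :=
            mul_le_mul_of_nonneg_left h4 (by positivity)
          linarith
        rw [hδ2]
        linarith
      -- scale
      have hcond' : δ ^ 2 * ‖y'‖ ^ 2 ≤
          (‖t a‖ ^ 2 * ‖t b‖ ^ 2 - (inner ℝ (t a) (t b)) ^ 2) * ‖y'‖ ^ 2
          - ‖(inner ℝ y' (t a) : ℝ) • t b - (inner ℝ y' (t b) : ℝ) • t a‖ ^ 2 := by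
        have e1 : (inner ℝ y' (t a) : ℝ) = 15 / 16 * p := by
          rw [hy', inner_smul_left, hp]
          simp only [conj_trivial]
          norm_num
        have e2 : (inner ℝ y' (t b) : ℝ) = 15 / 16 * r := by
          rw [hy', inner_smul_left, hr]
          simp only [conj_trivial]
          norm_num
        have e3 : (15 / 16 * p) • t b - (15 / 16 * r) • t a = (15 / 16 : ℝ) • (p • t b - r • t a) := by
          rw [smul_sub, smul_smul, smul_smul]
        have e4 : ‖(15 / 16 : ℝ) • (p • t b - r • t a)‖ = 15 / 16 * ‖p • t b - r • t a‖ := by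
          rw [norm_smul, Real.norm_of_nonneg (by norm_num)]
        rw [e1, e2, e3, e4, hny']
        have := mul_le_mul_of_nonneg_left hcond (by norm_num : (0 : ℝ) ≤ (15 / 16) ^ 2)
        have e5 : (15 / 16 * ‖y‖) ^ 2 = (15 / 16) ^ 2 * ‖y‖ ^ 2 := by ring
        have e6 : (15 / 16 * ‖p • t b - r • t a‖) ^ 2 =
          (15 / 16) ^ 2 * ‖p • t b - r • t a‖ ^ 2 := by ring
        rw [e5, e6]
        linarith
      have h1 := lam4 t J a b y' δ hJ4 ha hb hab n1 hy'0 hδ0 hcond'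
      refine h1.trans ?_
      rw [hny']
      have h2 : ‖y‖ ≤ Real.sqrt q := Real.le_sqrt_of_sq_le hyq
      have h3 : ‖y‖ ^ 3 ≤ Real.sqrt q * ‖y‖ ^ 2 := by
        have e : ‖y‖ ^ 3 = ‖y‖ * ‖y‖ ^ 2 := by ring
        rw [e]
        exact mul_le_mul_of_nonneg_right h2 (sq_nonneg _)
      have e : 8 * c0 / (3 * Real.pi) * (15 / 16 * ‖y‖) ^ 3 / δ =
          c4 * (15 / 16) ^ 3 / δ * ‖y‖ ^ 3 := by rw [hc4]; ring
      rw [e]
      have e2 : c4 * (15 / 16) ^ 3 * Real.sqrt q / δ * ‖y‖ ^ 2 =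
          c4 * (15 / 16) ^ 3 / δ * (Real.sqrt q * ‖y‖ ^ 2) := by ring
      rw [e2]
      exact mul_le_mul_of_nonneg_left h3 (by positivity)
  -- loss
  have hloss := loss s J z (3 / 4) hcr hJsub hJne (by norm_num) (by norm_num)
  rw [hJ4, ← ht, ← hzr] at hloss
  push_cast at hloss
  have hsumR : ∑ i ∈ s \ J, Lam J t ((3 / 4 * ((4 + 1) / 4 : ℝ)) • z i) ≤
      c4 * (15 / 16) ^ 3 * Real.sqrt q / δ * q := by
    have h1 : ∑ i ∈ s \ J, Lam J t ((3 / 4 * ((4 + 1) / 4 : ℝ)) • z i) ≤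
        ∑ i ∈ s \ J, c4 * (15 / 16) ^ 3 * Real.sqrt q / δ * ‖z i‖ ^ 2 :=
      Finset.sum_le_sum fun i hi => hLam (z i) (hnn i hi) (fun j hj => n2 i hi j hj)
    rw [← Finset.mul_sum] at h1
    exact h1
  have hzrb := hLam zr n4 n3
  have hK : 675 / 1024 * (c4 * Real.sqrt q / δ) ≤ 1 / 4 :=
    num q c4 δ hqpos.le hqle hc4pos.le c4_le hδ0 hδ2
  have hERpos : 0 < ER s J z := by rw [hER]; linarith
  have hL : em s z - em J z ≤ ER s J z / 2 := by
    have h1 : (4 / (4 + 1) : ℝ) * (c4 * (15 / 16) ^ 3 * Real.sqrt q / δ * q) +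
        (1 / (4 + 1) : ℝ) * (c4 * (15 / 16) ^ 3 * Real.sqrt q / δ * ‖zr‖ ^ 2) =
        675 / 1024 * (c4 * Real.sqrt q / δ) * ER s J z := by
      rw [hER]; ring
    have h2 : 675 / 1024 * (c4 * Real.sqrt q / δ) * ER s J z ≤ 1 / 4 * ER s J z :=
      mul_le_mul_of_nonneg_right hK hERpos.le
    linarith
  obtain ⟨k1, k2⟩ := nr s J z hcr hJs hJne
  have hval := hcr.val
  have hbig := hcr.big
  have h1 : VV s z - ER s J z / 2 ≤ em J z := by linarith
  have h2 : 0 ≤ VV s z - ER s J z / 2 := by linarith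
  have h3 : (VV s z - ER s J z / 2) ^ 2 ≤ (em J z) ^ 2 := pow_le_pow_left₀ h2 h1 2
  have h4 : CC * (VV s z - ER s J z) ≤ VV s z * (VV s z - ER s J z) :=
    mul_le_mul_of_nonneg_right hbig.le k2
  have h5 : 0 < (ER s J z) ^ 2 := by positivity
  nlinarith

end Crest.Agent.R215
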