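import Crest.Agent.R215.Defs

/-!
# Row 215, task RED: reduction of the partition statement to Gaussian maxima
-/

set_option autoImplicit false

open MeasureTheory ProbabilityTheory Set

namespace Crest.Agent.R215

universe u v

theorem red (E : Type u) [NormedAddCommGroup E] [InnerProductSpace ℝ E] [FiniteDimensional ℝ E]
    [MeasurableSpace E] [BorelSpace E] : StPart E → StRed.{u, v} E := by
  intro hPart hmain ι _ A hA hdisj hU
  set n := Fintype.card ι with hn
  let e : ι ≃ Fin n := Fintype.equivFin ι
  let B : ℕ → Set E := fun k => if h : k < n then A (e.symm ⟨k, h⟩) else ∅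
  let z : ℕ → E := fun k => ∫ x in B k, x ∂(stdGaussian E)
  have hB : ∀ i : ι, B (e i) = A i := by
    intro i
    have h := (e i).2
    simp only [B, dif_pos h]
    simp
  have hsum : ∑ i, ‖∫ x in A i, x ∂stdGaussian E‖ ^ 2 = VV (Finset.range n) z := by
    rw [VV, Finset.sum_range, ← Equiv.sum_comp e]
    refine Finset.sum_congr rfl fun i _ => ?_
    simp only [z, hB]
  rw [hsum]
  have hCC : (0:ℝ) < 9 / (8 * Real.pi) := by positivity
  by_cases hn0 : n = 0
  · rw [hn0]
    simp only [VV, Finset.range_zero, Finset.sum_empty]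
    exact hCC.le
  have hne : (Finset.range n).Nonempty := Finset.nonempty_range_iff.2 hn0
  have h1 := (hPart (Finset.range n) hne).1 z B ?_ ?_ ?_
  · have h2 : VV (Finset.range n) z ≤ em (Finset.range n) z := by
      refine le_trans (le_of_eq ?_) h1
      rw [VV]
      refine Finset.sum_congr rfl fun i _ => ?_
      exact (real_inner_self_eq_norm_sq _).symm
    have h3 := hmain (Finset.range n) z
    have h0 : 0 ≤ VV (Finset.range n) z := Finset.sum_nonneg fun i _ => sq_nonneg _
    have h4 : (VV (Finset.range n) z) ^ 2 ≤ CC * VV (Finset.range n) z :=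
      le_trans (pow_le_pow_left₀ h0 h2 2) h3
    have h5 : CC = 9 / (8 * Real.pi) := rfl
    rw [← h5]
    rcases h0.eq_or_lt with h6 | h6
    · rw [← h6, h5]; exact hCC.le
    · nlinarith
  · intro i hi
    have h := Finset.mem_range.1 hi
    simp only [B, dif_pos h]
    exact hA _
  · intro i hi j hj hij
    have h := Finset.mem_range.1 hi
    have h' := Finset.mem_range.1 hj
    simp only [B, dif_pos h, dif_pos h']
    refine hdisj ?_
    intro h2
    have h3 := e.symm.injective h2
    exact hij (by simpa using h3)
  · intro x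
    have hx : x ∈ ⋃ i, A i := by rw [hU]; trivial
    obtain ⟨i, hi⟩ := Set.mem_iUnion.1 hx
    exact ⟨e i, Finset.mem_range.2 (e i).2, by rw [hB]; exact hi⟩

end Crest.Agent.R215
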