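import Crest.Agent.R215.Defs

set_option autoImplicit false

noncomputable section

namespace Crest.Agent.R215

namespace SGEO

lemma c0_sq : c0 ^ 2 = 4 / 9 * CC := by
  unfold c0 CC
  have hpi := Real.pi_pos
  rw [div_pow, Real.sq_sqrt (by positivity)]
  field_simp
  norm_num

lemma CC_gt : 35809 / 100000 < CC := by
  unfold CC
  have h1 := Real.pi_lt_d4
  have h2 := Real.pi_pos
  rw [lt_div_iff₀ (by positivity)]
  nlinarith

lemma c0_le : c0 ≤ 39896 / 100000 := by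
  unfold c0
  have h1 := Real.pi_gt_d4
  have h2 := Real.pi_pos
  have h3 : (250657 / 100000 : ℝ) ≤ Real.sqrt (2 * Real.pi) := by
    apply Real.le_sqrt_of_sq_le
    norm_num
    linarith
  rw [div_le_iff₀ (by linarith)]
  linarith

lemma c0_pos : 0 < c0 := by
  unfold c0
  have h2 := Real.pi_pos
  positivity

lemma sos (x y w : ℝ) : 11 * (x ^ 2 + y ^ 2 + w ^ 2) ^ 2 - 3 * (x + y + w) ^ 2 * (x ^ 2 + y ^ 2 + w ^ 2)
    - 6 * (x ^ 4 + y ^ 4 + w ^ 4) =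
    (x - y) ^ 2 * (x + y - 3 * w) ^ 2 + (y - w) ^ 2 * (y + w - 3 * x) ^ 2
      + (x - w) ^ 2 * (x + w - 3 * y) ^ 2 := by ring

/-- the polynomial inequality -/
lemma poly (v D : ℝ) (hv : 0 ≤ v) (hV : v ^ 2 ≤ 6 / 10) (hD : 32342 / 100000 ≤ D) :
    7385 / 1000000 * (1 - 11476 / 10000 * v ^ 2) ^ 2 ≤
      D ^ 2 * (1 - v ^ 2) / 12 - 26 / 9000 * (D * (1 + v)) ∧
    0 < D ^ 2 * (1 - v ^ 2) / 12 - 26 / 9000 * (D * (1 + v)) := by
  have h1 : (32342 / 100000 : ℝ) * (1 - v ^ 2) / 12 - 26 / 9000 * (1 + v) ≤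
      D * (1 - v ^ 2) / 12 - 26 / 9000 * (1 + v) := by
    have : (32342 / 100000 : ℝ) * (1 - v ^ 2) ≤ D * (1 - v ^ 2) :=
      mul_le_mul_of_nonneg_right hD (by linarith)
    linarith
  have hv1 : v ≤ 775 / 1000 := by nlinarith
  have h2 : 0 < (32342 / 100000 : ℝ) * (1 - v ^ 2) / 12 - 26 / 9000 * (1 + v) := by
    nlinarith
  have h3 : D ^ 2 * (1 - v ^ 2) / 12 - 26 / 9000 * (D * (1 + v)) =
      D * (D * (1 - v ^ 2) / 12 - 26 / 9000 * (1 + v)) := by ring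
  have h4 : (32342 / 100000 : ℝ) * ((32342 / 100000 : ℝ) * (1 - v ^ 2) / 12 - 26 / 9000 * (1 + v)) ≤
      D * (D * (1 - v ^ 2) / 12 - 26 / 9000 * (1 + v)) := by
    apply mul_le_mul hD h1 h2.le (by linarith)
  have h5 : v ^ 4 ≤ 6 / 10 * v ^ 2 := by
    have : v ^ 4 = v ^ 2 * v ^ 2 := by ring
    rw [this]
    exact mul_le_mul_of_nonneg_right hV (sq_nonneg v)
  rw [h3]
  constructor
  · refine le_trans ?_ h4
    nlinarith [sq_nonneg (v - 195 / 1000)]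
  · refine lt_of_lt_of_le ?_ h4
    exact mul_pos (by norm_num) h2

lemma final (κ m q : ℝ) (hk0 : 0 ≤ κ) (hk : κ ≤ 29312 / 100000) (hm0 : 0 ≤ m) (hm1 : m ≤ q)
    (hm2 : q ≤ 1) : (κ * m) ^ 4 ≤ 7385 / 1000000 * q ^ 2 := by
  have hq0 : 0 ≤ q := hm0.trans hm1
  have e1 : κ ^ 4 ≤ (29312 / 100000 : ℝ) ^ 4 := pow_le_pow_left₀ hk0 hk 4
  have e2 : m ^ 4 ≤ q ^ 4 := pow_le_pow_left₀ hm0 hm1 4
  have e3 : q ^ 4 ≤ q ^ 2 := by
    have h1 : q ^ 2 ≤ 1 := by nlinarith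
    have h2 : q ^ 4 = q ^ 2 * q ^ 2 := by ring
    rw [h2]
    nlinarith [sq_nonneg q]
  have e4 : (29312 / 100000 : ℝ) ^ 4 ≤ 7385 / 1000000 := by norm_num
  rw [mul_pow]
  exact mul_le_mul (e1.trans e4) (e2.trans e3) (pow_nonneg hm0 4) (by norm_num)

end SGEO

set_option maxHeartbeats 2000000 in
open SGEO in
theorem sgeo : StSgeo := by
  intro x y w D G r hy hw hyx hwx htri hD hG hD1 hr
  have hCC := CC_gt
  have hc0 := c0_le
  have hc0p := c0_pos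
  have hx : 0 ≤ x := hy.trans hyx
  have hD2 : 32342 / 100000 ≤ D := by linarith
  have hDpos : 0 < D := by linarith
  have hDne : D ≠ 0 := hDpos.ne'
  -- V
  obtain ⟨V, hV⟩ : ∃ V : ℝ, V * D ^ 2 = D ^ 2 - 12 * G := ⟨(D ^ 2 - 12 * G) / D ^ 2, by field_simp⟩
  have hVD : V * D ^ 2 = (x ^ 2 - D) ^ 2 + (y ^ 2 - w ^ 2) ^ 2 / 3 := by
    rw [hV, hG, hD]; ring
  have hV0 : 0 ≤ V := by
    by_contra h
    push Not at h
    have : V * D ^ 2 < 0 := mul_neg_of_neg_of_pos h (by positivity)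
    have h2 := sq_nonneg (x ^ 2 - D)
    have h3 := sq_nonneg (y ^ 2 - w ^ 2)
    linarith
  obtain ⟨v, hv0, hvV⟩ : ∃ v : ℝ, 0 ≤ v ∧ v ^ 2 = V := ⟨Real.sqrt V, Real.sqrt_nonneg V, Real.sq_sqrt hV0⟩
  have hx2 : x ^ 2 ≤ D * (1 + v) := by
    have h1 : (x ^ 2 - D) ^ 2 ≤ (v * D) ^ 2 := by
      rw [mul_pow, hvV, hVD]
      have := sq_nonneg (y ^ 2 - w ^ 2)
      linarith
    have h2 := abs_le_of_sq_le_sq' h1 (by positivity)
    linarith [h2.2]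
  have hxD : D ≤ x ^ 2 := by
    have h1 : y ^ 2 ≤ x ^ 2 := pow_le_pow_left₀ hy hyx 2
    have h2 : w ^ 2 ≤ x ^ 2 := pow_le_pow_left₀ hw hwx 2
    rw [hD]; linarith
  -- (a)
  have ha : V * D ^ 2 ≤ 9 * D ^ 2 - (x + y + w) ^ 2 * D := by
    have h1 := sos x y w
    have h2 : x ^ 2 + y ^ 2 + w ^ 2 = 3 * D := by rw [hD]; ring
    have h3 : x ^ 4 + y ^ 4 + w ^ 4 = 3 / 2 * (V * D ^ 2) + 3 * D ^ 2 := by
      rw [hV, hG, hD]; ring
    rw [h2, h3] at h1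
    have h4 : 0 ≤ (x - y) ^ 2 * (x + y - 3 * w) ^ 2 + (y - w) ^ 2 * (y + w - 3 * x) ^ 2
      + (x - w) ^ 2 * (x + w - 3 * y) ^ 2 := by positivity
    nlinarith
  have hr1 : r * (4 / 3 * (26 / 1000)) * D = CC * (D - (x + y + w) ^ 2 / 9) := by
    rw [hr, c0_sq]
    field_simp
  have hrV : 11476 / 10000 * V ≤ r := by
    have h1 : V * D ≤ 9 * D - (x + y + w) ^ 2 := by
      have : D * (V * D) ≤ D * (9 * D - (x + y + w) ^ 2) := by nlinarith
      exact le_of_mul_le_mul_left this hDpos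
    have h2 : CC * (V * D) ≤ CC * (9 * D - (x + y + w) ^ 2) :=
      mul_le_mul_of_nonneg_left h1 (by linarith)
    have h3 : CC * (V * D) ≤ 9 * (r * (4 / 3 * (26 / 1000)) * D) := by rw [hr1]; linarith
    have h4 : (35809 / 100000) * (V * D) ≤ CC * (V * D) :=
      mul_le_mul_of_nonneg_right hCC.le (by positivity)
    have h5 : (35809 / 100000 * V) * D ≤ (9 * (r * (4 / 3 * (26 / 1000)))) * D := by linarith
    have h6 := le_of_mul_le_mul_right h5 hDpos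
    linarith
  by_cases h1r : 1 ≤ r
  · exact Or.inl h1r
  push Not at h1r
  right
  by_cases hV6 : 6 / 10 ≤ V
  · left
    refine ⟨h1r.le, ?_⟩
    have h1 : 1 - r ≤ 3115 / 10000 := by linarith
    have h2 : 4 * c0 * (1 - r) ≤ 4 * (39896 / 100000) * (3115 / 10000) := by
      apply mul_le_mul _ h1 (by linarith) (by norm_num)
      linarith
    have h3 : (5 / 10 : ℝ) ≤ x := by
      by_contra h
      push Not at h
      have : x ^ 2 < (5 / 10 : ℝ) ^ 2 := pow_lt_pow_left₀ h hx (by norm_num)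
      linarith
    linarith
  · right
    push Not at hV6
    obtain ⟨p1, p2⟩ := poly v D hv0 (by rw [hvV]; exact hV6.le) hD2
    have hG1 : G = D ^ 2 * (1 - v ^ 2) / 12 := by
      rw [hvV]; linarith
    have hG2 : D ^ 2 * (1 - v ^ 2) / 12 - 26 / 9000 * (D * (1 + v)) ≤ G - 26 / 9000 * x ^ 2 := by
      rw [hG1]; linarith
    refine ⟨h1r.le, lt_of_lt_of_le p2 hG2, le_trans ?_ (p1.trans hG2)⟩
    have hk : 4 * kap / Real.pi ≤ 29312 / 100000 := by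
      have h1 := Real.pi_gt_d4
      have h2 := Real.pi_pos
      unfold kap
      rw [div_le_iff₀ h2]
      linarith
    have hk0 : 0 ≤ 4 * kap / Real.pi := by
      have h2 := Real.pi_pos
      unfold kap
      positivity
    have hm0 : 0 ≤ 1 - r := by linarith
    have hm1 : 1 - r ≤ 1 - 11476 / 10000 * v ^ 2 := by rw [hvV]; linarith
    have hm2 : 1 - 11476 / 10000 * v ^ 2 ≤ 1 := by rw [hvV]; linarith
    obtain ⟨q, hq⟩ : ∃ q : ℝ, q = 1 - 11476 / 10000 * v ^ 2 := ⟨_, rfl⟩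
    obtain ⟨κ, hκ⟩ : ∃ κ : ℝ, κ = 4 * kap / Real.pi := ⟨_, rfl⟩
    obtain ⟨m, hm⟩ : ∃ m : ℝ, m = 1 - r := ⟨_, rfl⟩
    rw [← hq, ← hκ, ← hm]
    rw [← hq, ← hm] at hm1
    rw [← hq] at hm2
    rw [← hm] at hm0
    rw [← hκ] at hk hk0
    exact final κ m q hk0 hk hm0 hm1 hm2

end Crest.Agent.R215
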