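import Crest.Agent.R215.LibG
import Crest.Agent.R215.Lib1

/-!
# Row 215, task SMALL: the bound for at most three vectors
-/

set_option autoImplicit false

open MeasureTheory ProbabilityTheory Set

noncomputable section

namespace Crest.Agent.R215

universe u

namespace SMALL

variable (E : Type u) [NormedAddCommGroup E] [InnerProductSpace ℝ E] [FiniteDimensional ℝ E]
  [MeasurableSpace E] [BorelSpace E]

omit [BorelSpace E] in
theorem em_empty (z : ℕ → E) : em (∅ : Finset ℕ) z = 0 := by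
  unfold em mx
  simp

theorem em_single (z : ℕ → E) (a : ℕ) : em ({a} : Finset ℕ) z = 0 := by
  unfold em mx
  simp only [Finset.singleton_nonempty, dif_pos, Finset.sup'_singleton]
  exact sg_integral_inner (z a)

end SMALL

open SMALL in
theorem small (E : Type u) [NormedAddCommGroup E] [InnerProductSpace ℝ E] [FiniteDimensional ℝ E]
    [MeasurableSpace E] [BorelSpace E] : StThree E → StSmall E := by
  intro h3 s z hs
  have hV : 0 ≤ VV s z := Finset.sum_nonneg fun i _ => sq_nonneg _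
  have hCV : 0 ≤ CC * VV s z := mul_nonneg CC_pos.le hV
  have hc := c0_pos
  have hcard : s.card = 0 ∨ s.card = 1 ∨ s.card = 2 ∨ s.card = 3 := by omega
  rcases hcard with h | h | h | h
  · rw [Finset.card_eq_zero] at h
    rw [h, em_empty]
    rw [h] at hCV
    simpa using hCV
  · obtain ⟨a, rfl⟩ := Finset.card_eq_one.1 h
    rw [em_single]
    simpa using hCV
  · obtain ⟨a, b, hab, rfl⟩ := Finset.card_eq_two.1 h
    have h1 := (h3 z a b (a + b + 1) hab (by omega) (by omega)).1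
    rw [h1, CC_eq]
    unfold VV
    rw [Finset.sum_pair hab]
    have h2 : ‖z a - z b‖ ≤ ‖z a‖ + ‖z b‖ := norm_sub_le _ _
    have h4 : ‖z a - z b‖ ^ 2 ≤ 2 * (‖z a‖ ^ 2 + ‖z b‖ ^ 2) := by
      nlinarith [norm_nonneg (z a - z b), norm_nonneg (z a), norm_nonneg (z b),
        sq_nonneg (‖z a‖ - ‖z b‖)]
    have h5 : 0 < c0 ^ 2 := by positivity
    calc (c0 * ‖z a - z b‖) ^ 2 = c0 ^ 2 * ‖z a - z b‖ ^ 2 := by ring
      _ ≤ c0 ^ 2 * (2 * (‖z a‖ ^ 2 + ‖z b‖ ^ 2)) := mul_le_mul_of_nonneg_left h4 h5.le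
      _ ≤ 9 / 4 * c0 ^ 2 * (‖z a‖ ^ 2 + ‖z b‖ ^ 2) := by
        nlinarith [mul_nonneg h5.le (add_nonneg (sq_nonneg ‖z a‖) (sq_nonneg ‖z b‖))]
  · obtain ⟨a, b, c, hab, hac, hbc, rfl⟩ := Finset.card_eq_three.1 h
    have h1 := (h3 z a b c hab hac hbc).2
    rw [h1, CC_eq]
    unfold VV
    rw [Finset.sum_insert (by simp [hab, hac]), Finset.sum_pair hbc]
    set x := ‖z a - z b‖ with hx
    set y := ‖z b - z c‖ with hy
    set w := ‖z a - z c‖ with hw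
    have e1 : x ^ 2 = ‖z a‖ ^ 2 - 2 * inner ℝ (z a) (z b) + ‖z b‖ ^ 2 := norm_sub_sq_real _ _
    have e2 : y ^ 2 = ‖z b‖ ^ 2 - 2 * inner ℝ (z b) (z c) + ‖z c‖ ^ 2 := norm_sub_sq_real _ _
    have e3 : w ^ 2 = ‖z a‖ ^ 2 - 2 * inner ℝ (z a) (z c) + ‖z c‖ ^ 2 := norm_sub_sq_real _ _
    have e4 : ‖z a + z b + z c‖ ^ 2 = ‖z a‖ ^ 2 + ‖z b‖ ^ 2 + ‖z c‖ ^ 2 +
        2 * inner ℝ (z a) (z b) + 2 * inner ℝ (z a) (z c) + 2 * inner ℝ (z b) (z c) := by
      rw [norm_add_sq_real, norm_add_sq_real, inner_add_left]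
      ring
    have e5 : x ^ 2 + y ^ 2 + w ^ 2 ≤ 3 * (‖z a‖ ^ 2 + ‖z b‖ ^ 2 + ‖z c‖ ^ 2) := by
      nlinarith [sq_nonneg ‖z a + z b + z c‖]
    have e6 : (x + y + w) ^ 2 ≤ 3 * (x ^ 2 + y ^ 2 + w ^ 2) := by
      nlinarith [sq_nonneg (x - y), sq_nonneg (y - w), sq_nonneg (x - w)]
    have h5 : 0 < c0 ^ 2 := by positivity
    calc (c0 / 2 * (x + y + w)) ^ 2 = c0 ^ 2 / 4 * (x + y + w) ^ 2 := by ring
      _ ≤ c0 ^ 2 / 4 * (9 * (‖z a‖ ^ 2 + ‖z b‖ ^ 2 + ‖z c‖ ^ 2)) := by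
        apply mul_le_mul_of_nonneg_left _ (by positivity)
        linarith
      _ = 9 / 4 * c0 ^ 2 * (‖z a‖ ^ 2 + (‖z b‖ ^ 2 + ‖z c‖ ^ 2)) := by ring

end Crest.Agent.R215
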