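import Crest.Agent.R215.Defs

set_option autoImplicit false

open MeasureTheory ProbabilityTheory Set

namespace Crest.Agent.R215

universe u

namespace SREM

variable {E : Type u} [NormedAddCommGroup E] [InnerProductSpace ℝ E]

theorem mx_nonneg (J : Finset ℕ) (t : ℕ → E) (h : ∑ j ∈ J, t j = 0) (x : E) : 0 ≤ mx J t x := by
  unfold mx
  split_ifs with hJ
  · by_contra hcon
    push Not at hcon
    have h1 : ∀ j ∈ J, inner ℝ x (t j) < 0 := fun j hj =>
      lt_of_le_of_lt (Finset.le_sup' (fun i => inner ℝ x (t i)) hj) hcon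
    have h2 : ∑ j ∈ J, inner ℝ x (t j) < ∑ j ∈ J, (0:ℝ) := Finset.sum_lt_sum_of_nonempty hJ h1
    rw [← inner_sum, h, inner_zero_right] at h2
    simp at h2
  · exact le_rfl

/-- the cross vector -/
theorem cross_bound (ta tb tc y : E) (β x : ℝ) (hsum : ta + tb + tc = 0)
    (ha : inner ℝ y ta ≤ β) (hb : inner ℝ y tb ≤ β) (hc : inner ℝ y tc ≤ β)
    (h1 : ‖ta - tb‖ ≤ x) (h2 : ‖tb - tc‖ ≤ x) (h3 : ‖ta - tc‖ ≤ x) :
    ‖(inner ℝ y ta : ℝ) • tb - (inner ℝ y tb : ℝ) • ta‖ ≤ β * x := by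
  have htc : tc = -ta - tb := by
    rw [eq_sub_iff_add_eq, eq_neg_iff_add_eq_zero, ← hsum]
    abel
  have hξ : inner ℝ y tc = -inner ℝ y ta - inner ℝ y tb := by
    rw [htc, inner_sub_right, inner_neg_right]
  set ξa : ℝ := inner ℝ y ta
  set ξb : ℝ := inner ℝ y tb
  set ξc : ℝ := inner ℝ y tc
  have hv : ξa • tb - ξb • ta = ((β - ξc) / 3) • (tb - ta) + ((β - ξb) / 3) • (ta - tc) +
      ((β - ξa) / 3) • (tc - tb) := by
    rw [hξ, htc]
    module
  rw [hv]
  have e1 : ‖((β - ξc) / 3) • (tb - ta)‖ ≤ (β - ξc) / 3 * x := by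
    rw [norm_smul, Real.norm_of_nonneg (by linarith), norm_sub_rev]
    exact mul_le_mul_of_nonneg_left h1 (by linarith)
  have e2 : ‖((β - ξb) / 3) • (ta - tc)‖ ≤ (β - ξb) / 3 * x := by
    rw [norm_smul, Real.norm_of_nonneg (by linarith)]
    exact mul_le_mul_of_nonneg_left h3 (by linarith)
  have e3 : ‖((β - ξa) / 3) • (tc - tb)‖ ≤ (β - ξa) / 3 * x := by
    rw [norm_smul, Real.norm_of_nonneg (by linarith), norm_sub_rev]
    exact mul_le_mul_of_nonneg_left h2 (by linarith)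
  calc _ ≤ ‖((β - ξc) / 3) • (tb - ta) + ((β - ξb) / 3) • (ta - tc)‖ +
        ‖((β - ξa) / 3) • (tc - tb)‖ := norm_add_le _ _
    _ ≤ ‖((β - ξc) / 3) • (tb - ta)‖ + ‖((β - ξb) / 3) • (ta - tc)‖ +
        ‖((β - ξa) / 3) • (tc - tb)‖ := by gcongr; exact norm_add_le _ _
    _ ≤ (β - ξc) / 3 * x + (β - ξb) / 3 * x + (β - ξa) / 3 * x := by linarith
    _ = β * x := by rw [hξ]; ring

/-- side lengths and Gram determinant of a centred triangle -/
theorem sides (ta tb tc : E) (hsum : ta + tb + tc = 0) :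
    ‖ta‖ ^ 2 + ‖tb‖ ^ 2 + ‖tc‖ ^ 2 =
      (‖ta - tb‖ ^ 2 + ‖tb - tc‖ ^ 2 + ‖ta - tc‖ ^ 2) / 3 ∧
    ‖ta‖ ^ 2 * ‖tb‖ ^ 2 - (inner ℝ ta tb) ^ 2 =
      (2 * ‖ta - tb‖ ^ 2 * ‖tb - tc‖ ^ 2 + 2 * ‖tb - tc‖ ^ 2 * ‖ta - tc‖ ^ 2 +
        2 * ‖ta - tc‖ ^ 2 * ‖ta - tb‖ ^ 2 - ‖ta - tb‖ ^ 4 - ‖tb - tc‖ ^ 4 - ‖ta - tc‖ ^ 4) / 36 := by
  have htc : tc = -ta - tb := by
    rw [eq_sub_iff_add_eq, eq_neg_iff_add_eq_zero, ← hsum]
    abel
  have hba : inner ℝ tb ta = inner ℝ ta tb := real_inner_comm _ _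
  have k1 : ‖ta - tb‖ ^ 2 = ‖ta‖ ^ 2 + ‖tb‖ ^ 2 - 2 * inner ℝ ta tb := by
    rw [norm_sub_sq_real]
    ring
  have k2 : ‖tb - tc‖ ^ 2 = ‖ta‖ ^ 2 + 4 * ‖tb‖ ^ 2 + 4 * inner ℝ ta tb := by
    have : tb - tc = ta + (2:ℝ) • tb := by rw [htc]; module
    rw [this, norm_add_sq_real, norm_smul, inner_smul_right]
    simp
    ring
  have k3 : ‖ta - tc‖ ^ 2 = 4 * ‖ta‖ ^ 2 + ‖tb‖ ^ 2 + 4 * inner ℝ ta tb := by
    have : ta - tc = (2:ℝ) • ta + tb := by rw [htc]; module
    rw [this, norm_add_sq_real, norm_smul, inner_smul_left]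
    simp
    ring
  have k4 : ‖tc‖ ^ 2 = ‖ta‖ ^ 2 + ‖tb‖ ^ 2 + 2 * inner ℝ ta tb := by
    have : tc = -(ta + tb) := by rw [htc]; module
    rw [this, norm_neg, norm_add_sq_real]
    ring
  have p4 : ∀ r : ℝ, r ^ 4 = (r ^ 2) ^ 2 := fun r => by ring
  constructor
  · rw [k1, k2, k3, k4]
    ring
  · rw [p4 ‖ta - tb‖, p4 ‖tb - tc‖, p4 ‖ta - tc‖, k1, k2, k3]
    ring

/-! real lemmas -/

theorem real_key (C V e L c P D : ℝ) (hD : D = V - e) (hDpos : 0 < D) (hCC : C < V)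
    (h1 : c / 2 * P = D + (e - L)) : e + (C - c ^ 2 * P ^ 2 / (4 * D)) < 2 * L := by
  have h2 : c ^ 2 * P ^ 2 = 4 * (D + (e - L)) ^ 2 := by
    rw [← h1]
    ring
  have h3' : D + 2 * (e - L) ≤ c ^ 2 * P ^ 2 / (4 * D) := by
    rw [le_div_iff₀ (by positivity), h2]
    have := sq_nonneg (e - L)
    nlinarith
  linarith

theorem real_N (C c P D : ℝ) (hDpos : 0 < D) (h : (c / 2 * P) ^ 2 ≤ C * D) :
    0 ≤ C - c ^ 2 * P ^ 2 / (4 * D) := by
  rw [sub_nonneg, div_le_iff₀ (by positivity)]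
  have : (c / 2 * P) ^ 2 = c ^ 2 * P ^ 2 / 4 := by ring
  linarith

theorem real_c1 (e L r A : ℝ) (he : 0 < e) (hr : 0 ≤ r) (hk : (1 + r) * e < 2 * L)
    (hA : 2 * A ≤ 1) (hL : L ≤ A * e) : False := by
  have h1 : 2 * A * e ≤ 1 * e := mul_le_mul_of_nonneg_right hA he.le
  have h2 : 0 ≤ r * e := by positivity
  linarith

theorem real_c2 (e L r A θ : ℝ) (he : 0 < e) (hk : (1 + r) * e < 2 * L)
    (hA : 2 * A * θ = 1) (h5 : 1 - r ≤ θ) (hL : L ≤ (1 - θ) * e + A * θ ^ 2 * e) : False := by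
  have h1 : A * θ ^ 2 = θ / 2 := by
    have : A * θ ^ 2 = (2 * A * θ) * θ / 2 := by ring
    rw [this, hA]
    ring
  rw [h1] at hL
  have h2 : (1 - r) * e ≤ θ * e := mul_le_mul_of_nonneg_right h5 he.le
  linarith

theorem real_c3 (e L r : ℝ) (he : 0 < e) (hk : (1 + r) * e < 2 * L) (hr : 1 ≤ r) (hL : L ≤ e) :
    False := by
  have h2 : 1 * e ≤ r * e := mul_le_mul_of_nonneg_right hr he.le
  linarith

variable [FiniteDimensional ℝ E] [MeasurableSpace E] [BorelSpace E]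

theorem lam_zero (J : Finset ℕ) (t : ℕ → E) (h : ∑ j ∈ J, t j = 0) : Lam J t 0 = 0 := by
  unfold Lam
  have : (fun x : E => max (inner ℝ x (0:E) - mx J t x) 0) = fun _ => (0:ℝ) := funext fun x => by
    rw [inner_zero_right, zero_sub]
    exact max_eq_right (by linarith [mx_nonneg J t h x])
  rw [this]
  simp

/-- loss with a quadratic bound of `Λ` -/
theorem loss_le (hL : StLoss E) (s J : Finset ℕ) (z : ℕ → E) (hC : Crit s z) (hJ : J ⊂ s)
    (h3 : J.card = 3) (Θ θ : ℝ) (h0 : 0 ≤ θ) (h1 : θ ≤ 1)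
    (hi : ∀ i ∈ s \ J, Lam J (tt s J z) ((θ * (4 / 3 : ℝ)) • z i) ≤ Θ * (θ * (4 / 3)) ^ 2 * ‖z i‖ ^ 2)
    (hR : Lam J (tt s J z) ((θ * (4 / 3 : ℝ)) • zR s J z) ≤ Θ * (θ * (4 / 3)) ^ 2 * ‖zR s J z‖ ^ 2) :
    em s z - em J z ≤ (1 - θ) * ER s J z + 4 / 3 * Θ * θ ^ 2 * ER s J z := by
  have hne : J.Nonempty := by
    rw [← Finset.card_pos]
    omega
  have h := hL s J z θ hC hJ.1 hne h0 h1
  rw [h3] at h
  have e1 : (((3:ℕ):ℝ) + 1) / ((3:ℕ):ℝ) = 4 / 3 := by norm_num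
  have e2 : ((3:ℕ):ℝ) / (((3:ℕ):ℝ) + 1) = 3 / 4 := by norm_num
  have e3 : (1:ℝ) / (((3:ℕ):ℝ) + 1) = 1 / 4 := by norm_num
  rw [e1, e2, e3] at h
  have hsum : ∑ i ∈ s \ J, Lam J (tt s J z) ((θ * (4 / 3 : ℝ)) • z i) ≤
      Θ * (θ * (4 / 3)) ^ 2 * VV (s \ J) z := by
    unfold VV
    rw [Finset.mul_sum]
    exact Finset.sum_le_sum hi
  have hER : ER s J z = VV (s \ J) z + ‖zR s J z‖ ^ 2 / 3 := by
    unfold ER
    rw [h3]
    norm_num
  calc em s z - em J z ≤ (1 - θ) * ER s J z + 3 / 4 * (Θ * (θ * (4 / 3)) ^ 2 * VV (s \ J) z)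
        + 1 / 4 * (Θ * (θ * (4 / 3)) ^ 2 * ‖zR s J z‖ ^ 2) := by
        linarith [h, hsum, hR]
    _ = (1 - θ) * ER s J z + 4 / 3 * Θ * θ ^ 2 * ER s J z := by
        rw [hER]
        ring

theorem main (hT : StThree E) (hN : StNR E) (hL : StLoss E) (hG : StNeg E) (hL3 : StLam3 E)
    (hCh : StChord E) (hS : StSgeo) (s J : Finset ℕ) (z : ℕ → E) (hC : Crit s z) (hJ : J ⊂ s)
    (h3 : J.card = 3) (hV : VV (s \ J) z ≤ 26 / 1000) (a b c : ℕ) (hab : a ≠ b) (hac : a ≠ c)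
    (hbc : b ≠ c) (hJe : J = {a, b, c})
    (hy : ‖tt s J z b - tt s J z c‖ ≤ ‖tt s J z a - tt s J z b‖)
    (hw : ‖tt s J z a - tt s J z c‖ ≤ ‖tt s J z a - tt s J z b‖) : False := by
  have hne : J.Nonempty := by
    rw [← Finset.card_pos]
    omega
  obtain ⟨g1, g2, g3, g4, g5, -, -, -⟩ := hG s J z hC hJ.1 hne
  have haJ : a ∈ J := by rw [hJe]; simp
  have hbJ : b ∈ J := by rw [hJe]; simp
  have hcJ : c ∈ J := by rw [hJe]; simp
  set t := tt s J z with ht
  have hsum : t a + t b + t c = 0 := by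
    have := g1
    rw [hJe, Finset.sum_insert (by simp [hab, hac]), Finset.sum_insert (by simp [hbc]),
      Finset.sum_singleton] at this
    rw [← this]
    abel
  have hdz : ∀ i j, t i - t j = z i - z j := by
    intro i j
    rw [ht]
    unfold tt
    abel
  obtain ⟨hD, hGr⟩ := sides (t a) (t b) (t c) hsum
  -- ER
  have hER : ER s J z = VV (s \ J) z + ‖zR s J z‖ ^ 2 / 3 := by
    unfold ER
    rw [h3]
    norm_num
  have hERle : ER s J z ≤ 4 / 3 * (26 / 1000) := by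
    rw [hER]
    linarith
  have hne2 : (s \ J).Nonempty := by
    rw [Finset.sdiff_nonempty]
    exact hJ.2
  have hVpos : 0 < VV (s \ J) z := by
    obtain ⟨i, hi⟩ := hne2
    have his : i ∈ s := (Finset.mem_sdiff.1 hi).1
    have hiJ : i ∉ J := (Finset.mem_sdiff.1 hi).2
    have hia : i ≠ a := fun h => hiJ (h ▸ haJ)
    have hneg := hC.neg i his a (hJ.1 haJ) hia
    have hzi : z i ≠ 0 := by
      intro h
      rw [h, inner_zero_left] at hneg
      exact lt_irrefl _ hneg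
    have hpos : 0 < ‖z i‖ ^ 2 := by positivity
    unfold VV
    exact lt_of_lt_of_le hpos (Finset.single_le_sum (f := fun i => ‖z i‖ ^ 2)
      (fun j _ => by positivity) hi)
  have hERpos : 0 < ER s J z := by
    rw [hER]
    positivity
  -- main quantities
  set V := VV s z with hVdef
  set x := ‖t a - t b‖ with hx
  set y := ‖t b - t c‖ with hydef
  set w := ‖t a - t c‖ with hwdef
  set D := (x ^ 2 + y ^ 2 + w ^ 2) / 3 with hDdef
  have hVJ : VV J t = ‖t a‖ ^ 2 + ‖t b‖ ^ 2 + ‖t c‖ ^ 2 := by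
    unfold VV
    rw [hJe, Finset.sum_insert (by simp [hab, hac]), Finset.sum_insert (by simp [hbc]),
      Finset.sum_singleton]
    ring
  have hDV : D = V - ER s J z := by
    rw [← g5, hVJ, hD]
  have hCC : CC < V := hC.big
  have hemJ : em J z = c0 / 2 * (x + y + w) := by
    have := (hT z a b c hab hac hbc).2
    rw [← hJe] at this
    rw [this, hx, hydef, hwdef, hdz, hdz, hdz]
  have hems : em s z = V := hC.val
  have hCCpos : CC = 9 / (8 * Real.pi) := rfl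
  have hpi1 : (3:ℝ) < Real.pi := Real.pi_gt_three
  have hpi2 : Real.pi < 3.15 := Real.pi_lt_d2
  have hCClow : 0.35 < CC := by
    rw [hCCpos, lt_div_iff₀ (by positivity)]
    linarith
  have hDlow : CC - 4 / 3 * (26 / 1000) ≤ D := by
    rw [hDV]
    linarith
  have hDpos : 0 < D := by
    have : (0:ℝ) < CC - 4 / 3 * (26 / 1000) := by norm_num at hCClow ⊢; linarith
    linarith
  have hx0 : 0 ≤ x := norm_nonneg _
  have hy0 : 0 ≤ y := norm_nonneg _
  have hw0 : 0 ≤ w := norm_nonneg _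
  have htri : x ≤ y + w := by
    have : t a - t b = (t a - t c) - (t b - t c) := by abel
    rw [hx, this]
    calc ‖(t a - t c) - (t b - t c)‖ ≤ ‖t a - t c‖ + ‖t b - t c‖ := norm_sub_le _ _
      _ = y + w := by rw [hydef, hwdef]; ring
  have hxpos : 0 < x := by
    rcases hx0.lt_or_eq with h | h
    · exact h
    · exfalso
      have hyz : y = 0 := le_antisymm (by linarith) hy0
      have hwz : w = 0 := le_antisymm (by linarith) hw0
      rw [hDdef, hyz, hwz, ← h] at hDpos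
      norm_num at hDpos
  set L := em s z - em J z with hLdef
  set N := CC - c0 ^ 2 * (x + y + w) ^ 2 / (4 * D) with hNdef
  have hNR := (hN s J z hC hJ hne).1
  rw [← hVdef, ← hDV, hemJ] at hNR
  have hN0 : 0 ≤ N := real_N CC c0 (x + y + w) D hDpos hNR
  -- key inequality
  have hkey : ER s J z + N < 2 * L := by
    apply real_key CC V (ER s J z) L c0 (x + y + w) D hDV hDpos hCC
    rw [hLdef, hems, hemJ, hDV]
    ring
  set r := N / (4 / 3 * (26 / 1000)) with hrdef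
  have hr0 : 0 ≤ r := div_nonneg hN0 (by norm_num)
  have hNr : r * ER s J z ≤ N := by
    have : N = r * (4 / 3 * (26 / 1000)) := by
      rw [hrdef]
      field_simp
    calc r * ER s J z ≤ r * (4 / 3 * (26 / 1000)) := mul_le_mul_of_nonneg_left hERle hr0
      _ = N := this.symm
  have hkey2 : (1 + r) * ER s J z < 2 * L := by
    rw [one_add_mul]
    linarith
  -- conclusion from a quadratic bound of Lam
  have concl : ∀ Θ : ℝ, 0 ≤ Θ → 2 * (4 / 3 * Θ) * (1 - r) ≤ 1 →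
      (∀ k : ℝ, 0 < k → ∀ i ∈ s \ J, Lam J t (k • z i) ≤ Θ * k ^ 2 * ‖z i‖ ^ 2) →
      (∀ k : ℝ, 0 < k → Lam J t (k • zR s J z) ≤ Θ * k ^ 2 * ‖zR s J z‖ ^ 2) → False := by
    intro Θ hΘ h2A hi hR
    by_cases hA : 2 * (4 / 3 * Θ) ≤ 1
    · have := loss_le hL s J z hC hJ h3 Θ 1 (by norm_num) le_rfl
        (fun i hi' => hi _ (by norm_num) i hi') (hR _ (by norm_num))
      rw [← hLdef] at this
      refine real_c1 _ L r (4 / 3 * Θ) hERpos hr0 hkey2 hA ?_
      calc L ≤ _ := this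
        _ = _ := by ring
    · push Not at hA
      have hΘpos : 0 < Θ := by linarith
      set θ := 1 / (2 * (4 / 3 * Θ)) with hθ
      have hθ0 : 0 < θ := by positivity
      have hθ1 : θ ≤ 1 := by
        rw [hθ, div_le_one (by positivity)]
        exact hA.le
      have hA' : 2 * (4 / 3 * Θ) * θ = 1 := by
        rw [hθ]
        field_simp
      have := loss_le hL s J z hC hJ h3 Θ θ hθ0.le hθ1
        (fun i hi' => hi _ (by positivity) i hi') (hR _ (by positivity))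
      rw [← hLdef] at this
      have h5 : 1 - r ≤ θ := by
        rw [hθ, le_div_iff₀ (by positivity)]
        linarith
      exact real_c2 _ L r (4 / 3 * Θ) θ hERpos hkey2 hA' h5 this
  have hlam0 : Lam J t 0 = 0 := lam_zero J t g1
  rcases hS x y w D _ r hy0 hw0 hy hw htri hDdef hGr hDlow rfl with h | ⟨hr1, h⟩ | ⟨hr1, hpos, h⟩
  · -- 1 ≤ r
    have := loss_le hL s J z hC hJ h3 0 0 le_rfl (by norm_num)
      (fun i _ => by simp [← ht, hlam0]) (by simp [← ht, hlam0])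
    rw [← hLdef] at this
    refine real_c3 _ L r hERpos hkey2 h ?_
    calc L ≤ _ := this
      _ = _ := by ring
  · -- chord case
    have htab : t a ≠ t b := by
      intro h'
      rw [hx, h', sub_self, norm_zero] at hxpos
      exact lt_irrefl _ hxpos
    have hc0 : 0 < c0 := by
      unfold c0
      positivity
    have hch : ∀ (k : ℝ) (v : E), Lam J t (k • v) ≤ 3 * c0 / (2 * x) * k ^ 2 * ‖v‖ ^ 2 := by
      intro k v
      have := hCh t a b c (k • v) hab hac hbc hsum htab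
      rw [← hJe, norm_smul, mul_pow, Real.norm_eq_abs, sq_abs, ← hx] at this
      refine this.trans (le_of_eq ?_)
      field_simp
    refine concl (3 * c0 / (2 * x)) (by positivity) ?_ (fun k _ i _ => hch k (z i))
      (fun k _ => hch k _)
    have : 2 * (4 / 3 * (3 * c0 / (2 * x))) * (1 - r) = 4 * c0 * (1 - r) / x := by
      field_simp
    rw [this, div_le_one hxpos]
    exact h
  · -- area case
    set δ := Real.sqrt (‖t a‖ ^ 2 * ‖t b‖ ^ 2 - (inner ℝ (t a) (t b)) ^ 2 - 26 / 9000 * x ^ 2)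
      with hδ
    have hδpos : 0 < δ := Real.sqrt_pos.2 hpos
    have hδ2 : δ ^ 2 = ‖t a‖ ^ 2 * ‖t b‖ ^ 2 - (inner ℝ (t a) (t b)) ^ 2 - 26 / 9000 * x ^ 2 :=
      Real.sq_sqrt hpos.le
    have hkap : 0 < kap := by unfold kap; norm_num
    have hbase : ∀ (k : ℝ) (v : E), 0 < k → ‖v‖ ^ 2 ≤ 26 / 1000 →
        (∀ j ∈ J, inner ℝ v (t j) ≤ ‖v‖ ^ 2 / 3) →
        Lam J t (k • v) ≤ 3 * kap / (2 * Real.pi * Real.sqrt δ) * k ^ 2 * ‖v‖ ^ 2 := by
      intro k v hk hv hin
      by_cases hv0 : v = 0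
      · rw [hv0, smul_zero, hlam0]
        simp
      have hkv : k • v ≠ 0 := smul_ne_zero hk.ne' hv0
      have hcross := cross_bound (t a) (t b) (t c) v (‖v‖ ^ 2 / 3) x hsum (hin a haJ) (hin b hbJ)
        (hin c hcJ) le_rfl hy hw
      have hcr2 : ‖(inner ℝ v (t a) : ℝ) • t b - (inner ℝ v (t b) : ℝ) • t a‖ ^ 2 ≤
          26 / 9000 * x ^ 2 * ‖v‖ ^ 2 := by
        calc _ ≤ (‖v‖ ^ 2 / 3 * x) ^ 2 := by
              apply pow_le_pow_left₀ (norm_nonneg _) hcross
          _ = ‖v‖ ^ 2 * (‖v‖ ^ 2 / 9 * x ^ 2) := by ring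
          _ ≤ 26 / 1000 * (‖v‖ ^ 2 / 9 * x ^ 2) := by
              apply mul_le_mul_of_nonneg_right hv (by positivity)
          _ = _ := by ring
      have := hL3 t a b c (k • v) δ hab hac hbc hsum hkv hδpos (by
        have e1 : (inner ℝ (k • v) (t a) : ℝ) • t b - (inner ℝ (k • v) (t b) : ℝ) • t a =
            k • ((inner ℝ v (t a) : ℝ) • t b - (inner ℝ v (t b) : ℝ) • t a) := by
          rw [real_inner_smul_left, real_inner_smul_left]
          module
        rw [e1, norm_smul, norm_smul, mul_pow, mul_pow, Real.norm_eq_abs, sq_abs, hδ2]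
        have hk2 : 0 ≤ k ^ 2 := by positivity
        have h6 := mul_le_mul_of_nonneg_left hcr2 hk2
        calc _ = (‖t a‖ ^ 2 * ‖t b‖ ^ 2 - (inner ℝ (t a) (t b)) ^ 2) * (k ^ 2 * ‖v‖ ^ 2) -
              k ^ 2 * (26 / 9000 * x ^ 2 * ‖v‖ ^ 2) := by ring
          _ ≤ _ := by linarith)
      rw [← hJe, norm_smul, mul_pow, Real.norm_eq_abs, sq_abs] at this
      refine this.trans (le_of_eq ?_)
      field_simp
    have hsd : 0 < Real.sqrt δ := Real.sqrt_pos.2 hδpos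
    refine concl (3 * kap / (2 * Real.pi * Real.sqrt δ)) (by positivity) ?_ ?_ ?_
    · have e : 2 * (4 / 3 * (3 * kap / (2 * Real.pi * Real.sqrt δ))) * (1 - r) =
          4 * kap / Real.pi * (1 - r) / Real.sqrt δ := by
        field_simp
      rw [e, div_le_one hsd]
      have h0' : 0 ≤ 4 * kap / Real.pi * (1 - r) := by
        have : 0 ≤ 1 - r := by linarith
        positivity
      have hs4 : (Real.sqrt δ) ^ 4 = δ ^ 2 := by
        have : (Real.sqrt δ) ^ 4 = ((Real.sqrt δ) ^ 2) ^ 2 := by ring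
        rw [this, Real.sq_sqrt hδpos.le]
      rw [← hδ2, ← hs4] at h
      exact le_of_pow_le_pow_left₀ (by norm_num) hsd.le h
    · intro k hk i hi
      apply hbase k (z i) hk
      · refine le_trans ?_ hV
        unfold VV
        exact Finset.single_le_sum (f := fun i => ‖z i‖ ^ 2) (fun j _ => by positivity) hi
      · intro j hj
        have := g2 i hi j hj
        rw [h3] at this
        exact_mod_cast this
    · intro k hk
      apply hbase k _ hk
      · linarith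
      · intro j hj
        have := g3 j hj
        rw [h3] at this
        exact_mod_cast this

end SREM

theorem srem (E : Type u) [NormedAddCommGroup E] [InnerProductSpace ℝ E] [FiniteDimensional ℝ E]
    [MeasurableSpace E] [BorelSpace E] :
    StThree E → StNR E → StLoss E → StNeg E → StLam3 E → StChord E → StSgeo → StSrem E := by
  intro hT hN hL hG hL3 hCh hS s J z hC hJ h3 hV
  obtain ⟨a, b, c, hab, hac, hbc, hJe⟩ := Finset.card_eq_three.1 h3
  have key := SREM.main hT hN hL hG hL3 hCh hS s J z hC hJ h3 hV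
  set t := tt s J z
  have r1 : ‖t b - t a‖ = ‖t a - t b‖ := norm_sub_rev _ _
  have r2 : ‖t c - t b‖ = ‖t b - t c‖ := norm_sub_rev _ _
  have r3 : ‖t c - t a‖ = ‖t a - t c‖ := norm_sub_rev _ _
  have J2 : J = {b, c, a} := by
    rw [hJe]
    ext i
    simp only [Finset.mem_insert, Finset.mem_singleton]
    tauto
  have J3 : J = {a, c, b} := by
    rw [hJe]
    ext i
    simp only [Finset.mem_insert, Finset.mem_singleton]
    tauto
  rcases le_total ‖t b - t c‖ ‖t a - t b‖ with h1 | h1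
  · rcases le_total ‖t a - t c‖ ‖t a - t b‖ with h2 | h2
    · exact key a b c hab hac hbc hJe h1 h2
    · exact key a c b hac hab hbc.symm J3 (by rw [r2]; linarith) (by linarith)
  · rcases le_total ‖t a - t c‖ ‖t b - t c‖ with h2 | h2
    · exact key b c a hbc hab.symm hac.symm J2 (by rw [r3]; linarith) (by rw [r1]; linarith)
    · exact key a c b hac hab hbc.symm J3 (by rw [r2]; linarith) (by linarith)

end Crest.Agent.R215
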