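import Crest.Agent.R215.LibG

set_option autoImplicit false

open MeasureTheory ProbabilityTheory Set

noncomputable section

namespace Crest.Agent.R215

universe u

namespace THREE

theorem integral_abs_g1 : ∫ x, |x| ∂g1 = 2 * c0 := by
  have h1 : ∫ x in Ioi (0:ℝ), x * Real.exp (-(x ^ 2) / 2) = 1 := by
    have h := integral_mul_cexp_neg_mul_sq (b := (1/2 : ℂ)) (by norm_num)
    have h2 : ∫ r in Ioi (0:ℝ), ((r * Real.exp (-(r ^ 2) / 2) : ℝ) : ℂ) = 1 := by
      rw [show (1:ℂ) = (2 * (1/2 : ℂ))⁻¹ by norm_num, ← h]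
      refine integral_congr_ae (ae_of_all _ fun r => ?_)
      push_cast
      congr 2
      ring
    rw [integral_complex_ofReal] at h2
    exact_mod_cast h2
  rw [integral_gaussianReal_eq_integral_smul (by norm_num)]
  have h3 : ∀ x : ℝ, gaussianPDFReal 0 1 x • |x| = (fun y => c0 * (y * Real.exp (-(y ^ 2) / 2))) |x| := by
    intro x
    simp only [gaussianPDFReal, c0, smul_eq_mul, sq_abs]
    simp
    ring
  simp_rw [h3]
  rw [integral_comp_abs (f := fun y => c0 * (y * Real.exp (-(y ^ 2) / 2))), integral_const_mul, h1]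
  ring

variable {E : Type u} [NormedAddCommGroup E] [InnerProductSpace ℝ E] [FiniteDimensional ℝ E]
    [MeasurableSpace E] [BorelSpace E]

theorem integral_abs_inner (v : E) : ∫ x, |(inner ℝ x v : ℝ)| ∂(stdGaussian E) = 2 * c0 * ‖v‖ := by
  rcases eq_or_ne v 0 with rfl | hv
  · simp
  have hn : ‖v‖ ≠ 0 := norm_ne_zero_iff.2 hv
  set w : E := ‖v‖⁻¹ • v with hw
  have hw1 : ‖w‖ = 1 := by rw [hw, norm_smul, norm_inv, norm_norm, inv_mul_cancel₀ hn]
  have h1 : ∀ x : E, |(inner ℝ x v : ℝ)| = ‖v‖ * |(inner ℝ x w : ℝ)| := by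
    intro x
    rw [hw, inner_smul_right, abs_mul, abs_inv, abs_norm]
    field_simp
  simp_rw [h1]
  rw [integral_const_mul]
  have h2 := sg_map_inner_unit w hw1
  have h3 : ∫ x : E, |(inner ℝ x w : ℝ)| ∂(stdGaussian E) = ∫ s, |s| ∂g1 := by
    rw [← h2, integral_map (by fun_prop) (by fun_prop)]
  rw [h3, integral_abs_g1]
  ring

theorem em_pair (z : ℕ → E) (a b : ℕ) : em {a, b} z = c0 * ‖z a - z b‖ := by
  unfold em
  have h1 : ∀ x : E, mx {a, b} z x =
      (inner ℝ x (z a) + inner ℝ x (z b)) / 2 + |(inner ℝ x (z a - z b) : ℝ)| / 2 := by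
    intro x
    rw [mx_pair, inner_sub_right, max_def]
    split_ifs with h
    · rw [abs_of_nonpos (by linarith)]; ring
    · push Not at h
      rw [abs_of_pos (by linarith)]; ring
  simp_rw [h1]
  have i1 : Integrable (fun x : E => ((inner ℝ x (z a) : ℝ) + inner ℝ x (z b)) / 2) (stdGaussian E) :=
    ((sg_integrable_inner _).add (sg_integrable_inner _)).div_const _
  have i2 : Integrable (fun x : E => |(inner ℝ x (z a - z b) : ℝ)| / 2) (stdGaussian E) :=
    (sg_integrable_inner _).abs.div_const _
  rw [integral_add i1 i2, integral_div, integral_div,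
    integral_add (sg_integrable_inner _) (sg_integrable_inner _), sg_integral_inner,
    sg_integral_inner, integral_abs_inner]
  ring

end THREE

open THREE in
theorem three (E : Type u) [NormedAddCommGroup E] [InnerProductSpace ℝ E] [FiniteDimensional ℝ E]
    [MeasurableSpace E] [BorelSpace E] : StThree E := by
  intro z a b c hab hac hbc
  refine ⟨em_pair z a b, ?_⟩
  have hM : ∀ x : E, mx {a, b, c} z x =
      max (inner ℝ x (z a)) (max (inner ℝ x (z b)) (inner ℝ x (z c))) := by
    intro x
    rw [mx_insert a ⟨b, by simp⟩, mx_pair]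
  have key : ∀ x : E, mx {a, b} z x + mx {b, c} z x + mx {a, c} z x =
      mx {a, b, c} z x + mx {a, b, c} z (-x) +
        (inner ℝ x (z a) + inner ℝ x (z b) + inner ℝ x (z c)) := by
    intro x
    rw [hM x, hM (-x), mx_pair, mx_pair, mx_pair, inner_neg_left, inner_neg_left, inner_neg_left]
    generalize (inner ℝ x (z a) : ℝ) = p
    generalize (inner ℝ x (z b) : ℝ) = q
    generalize (inner ℝ x (z c) : ℝ) = r
    rcases le_total p q with h1 | h1 <;> rcases le_total q r with h2 | h2 <;>
      rcases le_total p r with h3 | h3 <;>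
      simp [max_def] <;> split_ifs <;> linarith
  have hsum : em {a, b} z + em {b, c} z + em {a, c} z = 2 * em {a, b, c} z := by
    have hneg : ∫ x, mx {a, b, c} z (-x) ∂(stdGaussian E) = em {a, b, c} z :=
      sg_integral_neg (mx {a, b, c} z)
    have hin : Integrable (fun x : E => mx {a, b, c} z (-x)) (stdGaussian E) := by
      have h : MeasurePreserving (fun x : E => -x) (stdGaussian E) (stdGaussian E) :=
        ⟨measurable_neg, sg_map_neg⟩
      exact h.integrable_comp_of_integrable (integrable_mx {a, b, c} z)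
    have h1 : em {a, b} z + em {b, c} z + em {a, c} z =
        ∫ x, (mx {a, b} z x + mx {b, c} z x + mx {a, c} z x) ∂(stdGaussian E) := by
      have i1 : Integrable (fun x : E => mx {a, b} z x + mx {b, c} z x) (stdGaussian E) :=
        (integrable_mx _ z).add (integrable_mx _ z)
      rw [integral_add i1 (integrable_mx _ z), integral_add (integrable_mx _ z) (integrable_mx _ z)]
      rfl
    rw [h1]
    simp_rw [key]
    have j1 : Integrable (fun x : E => mx {a, b, c} z x + mx {a, b, c} z (-x)) (stdGaussian E) :=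
      (integrable_mx _ z).add hin
    have j2 : Integrable (fun x : E => (inner ℝ x (z a) : ℝ) + inner ℝ x (z b)) (stdGaussian E) :=
      (sg_integrable_inner _).add (sg_integrable_inner _)
    have j3 : Integrable (fun x : E => (inner ℝ x (z a) : ℝ) + inner ℝ x (z b) + inner ℝ x (z c))
        (stdGaussian E) := j2.add (sg_integrable_inner _)
    rw [integral_add j1 j3, integral_add (integrable_mx _ z) hin,
      integral_add j2 (sg_integrable_inner _),
      integral_add (sg_integrable_inner _) (sg_integrable_inner _), sg_integral_inner,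
      sg_integral_inner, sg_integral_inner, hneg]
    change em {a, b, c} z + em {a, b, c} z + (0 + 0 + 0) = _
    ring
  rw [em_pair, em_pair, em_pair] at hsum
  linarith

end Crest.Agent.R215
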