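import Crest.Agent.R215.Defs

/-!
# Row 215, task TRI: area of a triangle given by three half planes whose normals sum to zero
-/

set_option autoImplicit false

open MeasureTheory ProbabilityTheory Set

noncomputable section

namespace Crest.Agent.R215

namespace TRI

/-- the model triangle -/
def A (S : ℝ) : Set (ℝ × ℝ) := {q | 0 ≤ q.1 ∧ 0 ≤ q.2 ∧ q.1 + q.2 ≤ S}

theorem A_closed (S : ℝ) : IsClosed (A S) := by
  have h1 : IsClosed {q : ℝ × ℝ | 0 ≤ q.1} := isClosed_le continuous_const continuous_fst
  have h2 : IsClosed {q : ℝ × ℝ | 0 ≤ q.2} := isClosed_le continuous_const continuous_snd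
  have h3 : IsClosed {q : ℝ × ℝ | q.1 + q.2 ≤ S} :=
    isClosed_le (continuous_fst.add continuous_snd) continuous_const
  exact h1.inter (h2.inter h3)

theorem vol_A (S : ℝ) (hS : 0 ≤ S) : volume (A S) = ENNReal.ofReal (S ^ 2 / 2) := by
  rw [Measure.volume_eq_prod, Measure.prod_apply (A_closed S).measurableSet]
  have h1 : ∀ a : ℝ, volume (Prod.mk a ⁻¹' A S) =
      (Icc 0 S).indicator (fun a => ENNReal.ofReal (S - a)) a := by
    intro a
    by_cases ha : a ∈ Icc 0 S
    · rw [indicator_of_mem ha]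
      have : Prod.mk a ⁻¹' A S = Icc 0 (S - a) := by
        ext b
        simp only [A, mem_preimage, mem_ofPred_eq, mem_Icc]
        constructor
        · rintro ⟨_, h2, h3⟩; exact ⟨h2, by linarith⟩
        · rintro ⟨h2, h3⟩; exact ⟨ha.1, h2, by linarith⟩
      rw [this, Real.volume_Icc, sub_zero]
    · rw [indicator_of_notMem ha]
      have : Prod.mk a ⁻¹' A S = ∅ := by
        ext b
        simp only [A, mem_preimage, mem_ofPred_eq, mem_empty_iff_false, iff_false]
        rintro ⟨h1, h2, h3⟩
        exact ha ⟨h1, by linarith⟩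
      rw [this, measure_empty]
  rw [lintegral_congr h1, lintegral_indicator measurableSet_Icc,
    ← ofReal_integral_eq_lintegral_ofReal]
  · congr 1
    rw [integral_Icc_eq_integral_Ioc, ← intervalIntegral.integral_of_le hS]
    rw [intervalIntegral.integral_sub (by simp) (by simp)]
    simp
    ring
  · exact (continuous_const.sub continuous_id).integrableOn_Icc
  · rw [Filter.EventuallyLE, ae_restrict_iff' measurableSet_Icc]
    exact Filter.Eventually.of_forall fun a ha => by
      simp only [Pi.zero_apply]; linarith [ha.2]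

end TRI

open TRI in
theorem tri : StTri := by
  intro α β c hα hβ hdet hc
  set L : (ℝ × ℝ) →ₗ[ℝ] (ℝ × ℝ) := Matrix.toLin (Module.Basis.finTwoProd ℝ)
    (Module.Basis.finTwoProd ℝ) !![α 0, β 0; α 1, β 1] with hL
  have hLdet : LinearMap.det L = α 0 * β 1 - α 1 * β 0 := by
    rw [hL, LinearMap.det_toLin, Matrix.det_fin_two_of]; ring
  have hLa : ∀ p : ℝ × ℝ, L p = (α 0 * p.1 + β 0 * p.2, α 1 * p.1 + β 1 * p.2) := by
    intro p
    rw [hL, Matrix.toLin_finTwoProd_apply]
  set S := ∑ j, c j with hS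
  set B : Set (ℝ × ℝ) := (fun q => ((c 0, c 1) : ℝ × ℝ) - q) ⁻¹' A S with hB
  have hset : {p : ℝ × ℝ | ∀ j, α j * p.1 + β j * p.2 ≤ c j} = L ⁻¹' B := by
    ext p
    simp only [Fin.sum_univ_three] at hα hβ hS
    simp only [mem_ofPred_eq, hB, mem_preimage, hLa, A, Fin.forall_fin_succ, Prod.mk_sub_mk,
      sub_nonneg]
    have e1 : α 2 = -α 0 - α 1 := by linarith
    have e2 : β 2 = -β 0 - β 1 := by linarith
    simp
    intro h0 h1
    rw [show (2 : Fin 3) = 2 from rfl, e1, e2, hS]
    constructor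
    · intro h; linarith
    · intro h; linarith
  rw [hset, Measure.addHaar_preimage_linearMap _ (by rw [hLdet]; exact hdet), hLdet]
  have hBv : volume B = ENNReal.ofReal (S ^ 2 / 2) := by
    rw [hB]
    rw [(MeasureTheory.Measure.measurePreserving_sub_left volume ((c 0, c 1) : ℝ × ℝ)).measure_preimage
      (A_closed S).measurableSet.nullMeasurableSet]
    exact vol_A S hc
  rw [hBv, ← ENNReal.ofReal_mul (abs_nonneg _)]
  congr 1
  rw [abs_inv]
  have : |α 0 * β 1 - α 1 * β 0| ≠ 0 := abs_ne_zero.2 hdet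
  field_simp

end Crest.Agent.R215
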