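import Crest.Agent.R215.Lib1

set_option autoImplicit false

open MeasureTheory ProbabilityTheory Set

namespace Crest.Agent.R215

universe u

namespace UB

theorem real1 (C V L e x κ p : ℝ) (hC : 0 < C) (hCV : C < V) (hN : (V - L) ^ 2 ≤ C * (V - κ * e))
    (hL : L ≤ κ * x) (hκ : 1 ≤ κ) (hx : x ≤ p ^ 2) : e ≤ 2 * p ^ 2 := by
  have hVpos : 0 < V := by linarith
  have h1 : C * (V - κ * e) ≤ V * (V - κ * e) ∨ V - κ * e < 0 := by
    by_cases h : 0 ≤ V - κ * e
    · left
      exact mul_le_mul_of_nonneg_right hCV.le h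
    · right
      exact not_le.1 h
  rcases h1 with h1 | h1
  · have h2 : V * (κ * e) ≤ V * (2 * L) := by nlinarith [sq_nonneg L]
    have h3 : κ * e ≤ 2 * L := le_of_mul_le_mul_left h2 hVpos
    have h4 : κ * e ≤ κ * (2 * p ^ 2) := by nlinarith
    exact le_of_mul_le_mul_left h4 (by linarith)
  · exfalso
    have := mul_neg_of_pos_of_neg hC h1
    nlinarith [sq_nonneg (V - L)]

theorem real3 (C V L e x κ : ℝ) (hC : 358 / 1000 < C) (hCV : C < V)
    (hN : (V - L) ^ 2 ≤ C * (V - κ * e))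
    (hL : L ≤ κ * x) (hκ : 1 ≤ κ) (hκ2 : κ ≤ 5 / 4) (hx0 : 0 ≤ x) (hx : x ≤ 8 / 100) :
    e ≤ 2 * x - x ^ 2 / C := by
  have hC0 : 0 < C := by linarith
  set a := κ * x with ha
  have ha1 : a ≤ 1 / 10 := by nlinarith
  have h1 : (V - a) ^ 2 ≤ (V - L) ^ 2 := by
    apply pow_le_pow_left₀ (by linarith)
    linarith
  have h2 : C * (κ * e) ≤ C * V - (V - a) ^ 2 := by nlinarith
  have h3 : C * V - (V - a) ^ 2 ≤ 2 * a * C - a ^ 2 := by
    have : 0 ≤ (V - C) * (V - 2 * a) := mul_nonneg (by linarith) (by linarith)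
    nlinarith
  have h4 : κ * (C * e) ≤ κ * (2 * x * C - κ * x ^ 2) := by
    have : 2 * a * C - a ^ 2 = κ * (2 * x * C - κ * x ^ 2) := by rw [ha]; ring
    linarith
  have h5 : C * e ≤ 2 * x * C - κ * x ^ 2 := le_of_mul_le_mul_left h4 (by linarith)
  have h6 : x ^ 2 ≤ κ * x ^ 2 := by nlinarith [sq_nonneg x]
  have h7 : 2 * x - x ^ 2 / C = (2 * x * C - x ^ 2) / C := by
    field_simp
  rw [h7, le_div_iff₀ hC0]
  linarith

end UB

theorem ub (E : Type u) [NormedAddCommGroup E] [InnerProductSpace ℝ E] [FiniteDimensional ℝ E]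
    [MeasurableSpace E] [BorelSpace E] :
    StNR E → StHalf E → StLi E → StMills → StNum1 → StNum2 → StUb E := by
  intro hN hH hLi hM h1 h2 s z hC h5 i hi
  obtain ⟨hm1, hm2, hm3⟩ := hH s z hC
  have hpos := hm2 i hi
  have hlt : mass s z i < 1 := by
    have hne : (s.erase i).Nonempty := by
      rw [← Finset.card_pos, Finset.card_erase_of_mem hi]
      omega
    have h := Finset.add_sum_erase s (mass s z) hi
    have h' : 0 < ∑ j ∈ s.erase i, mass s z j :=
      Finset.sum_pos (fun j hj => hm2 j (Finset.mem_of_mem_erase hj)) hne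
    linarith
  obtain ⟨τ, hτ⟩ := exists_Ph_eq hpos hlt
  have hsub : s.erase i ⊂ s := Finset.erase_ssubset hi
  have hcard : (s.erase i).card = s.card - 1 := Finset.card_erase_of_mem hi
  have hne : (s.erase i).Nonempty := by
    rw [← Finset.card_pos, hcard]
    omega
  have hNR := (hN s (s.erase i) z hC hsub hne).1
  have hsd : s \ s.erase i = {i} := by
    ext j
    simp only [Finset.mem_sdiff, Finset.mem_erase, Finset.mem_singleton, not_and, not_not]
    constructor
    · rintro ⟨h1, h2⟩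
      by_contra hne
      exact h2 hne h1
    · rintro rfl
      exact ⟨hi, fun h => absurd rfl h⟩
  set κ : ℝ := (s.card / (s.card - 1) : ℝ) with hκ
  have hk5 : (5:ℝ) ≤ s.card := by exact_mod_cast h5
  have hκ1 : 1 ≤ κ := by
    rw [hκ, le_div_iff₀ (by linarith)]
    linarith
  have hκ2 : κ ≤ 5 / 4 := by
    rw [hκ, div_le_iff₀ (by linarith)]
    linarith
  have hER : ER s (s.erase i) z = κ * ‖z i‖ ^ 2 := by
    unfold ER VV zR
    rw [hsd, Finset.sum_singleton, Finset.sum_singleton, hcard, hκ,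
      Nat.cast_sub (by omega), Nat.cast_one]
    have : (s.card : ℝ) - 1 ≠ 0 := by linarith
    field_simp
    ring
  rw [hER] at hNR
  have hval := hC.val
  have hbig := hC.big
  have hL := hLi s z i τ hC (by omega) hi hτ
  rw [← hκ] at hL
  set L := em s z - em (s.erase i) z with hLdef
  have hem : em (s.erase i) z = VV s z - L := by rw [hLdef, hval]; ring
  rw [hem] at hNR
  set x := ph τ * (ph τ - τ * Ph τ) with hx
  have hx0 : 0 ≤ x := mul_nonneg (ph_pos τ).le (hM τ).1
  refine ⟨?_, ?_, ?_⟩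
  · apply UB.real1 CC (VV s z) L _ x κ _ CC_pos hbig hNR hL hκ1
    rw [← hτ]
    exact (hM τ).2
  · have h3 := hm3 i hi (5244 / 10000)
    have h4 : ‖z i‖ ≤ 1904 / 10000 + 5244 / 10000 * mass s z i := by
      have := h2.1
      linarith
    exact pow_le_pow_left₀ (norm_nonneg _) h4 2
  · intro hp1 hp2
    have hx8 : x ≤ 8 / 100 := h2.2 τ (by rw [hτ]; exact hp2)
    have h3 := UB.real3 CC (VV s z) L _ x κ CC_gt hbig hNR hL hκ1 hκ2 hx0 hx8
    have h4 := h1 τ (by rw [hτ]; exact hp1) (by rw [hτ]; exact hp2)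
    rw [← hx, hτ] at h4
    linarith

end Crest.Agent.R215
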